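import Vale.Agent.P006.H6.PPow

/-!
# P006, block CEN4 (helper6): bump functions, smoothed indicator of an interval
-/

open MeasureTheory Filter Topology Function Set
open scoped FourierTransform Real ContDiff

namespace Vale.Agent.P006.H6

open Vale.Agent.P006

/-- a bump function around `0` -/
noncomputable def bmp : ContDiffBump (0 : ℝ) := ⟨1 / 2, 1, by norm_num, by norm_num⟩

/-- normalised bump, supported in `[-1,1]` -/
noncomputable def rho (u : ℝ) : ℝ := bmp.normed volume u

theorem rho_nonneg (u : ℝ) : 0 ≤ rho u := bmp.nonneg_normed u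

theorem rho_contDiff : ContDiff ℝ ∞ rho := bmp.contDiff_normed

theorem rho_cont : Continuous rho := rho_contDiff.continuous

theorem rho_supp : support rho = Ioo (-1) 1 := by
  have h := bmp.support_normed_eq (μ := volume)
  rw [Real.ball_eq_Ioo] at h
  unfold rho
  rw [h]
  norm_num [bmp]

theorem rho_zero {u : ℝ} (h : 1 ≤ |u|) : rho u = 0 := by
  by_contra hu
  have h1 : u ∈ support rho := hu
  rw [rho_supp, mem_Ioo] at h1
  have := abs_lt.2 h1
  linarith

theorem integral_rho : ∫ u, rho u = 1 := bmp.integral_normed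

theorem rho_integrable : Integrable rho := by
  by_contra h
  have := integral_undef h
  rw [integral_rho] at this
  norm_num at this

/-- cutoff near `1` -/
noncomputable def bmp3 : ContDiffBump (3 : ℝ) := ⟨2.7, 2.9, by norm_num, by norm_num⟩

/-- cutoff weight, `= 1` on `[1/e, e]`, supported in `(0,6)` -/
noncomputable def V0 (x : ℝ) : ℂ := ((bmp3 x : ℝ) : ℂ)

theorem V0_zero {x : ℝ} (h : 2.9 ≤ |x - 3|) : V0 x = 0 := by
  have h1 : x ∉ support bmp3 := by
    rw [bmp3.support_eq, Metric.mem_ball, Real.dist_eq, not_lt]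
    exact h
  rw [V0, notMem_support.1 h1, Complex.ofReal_zero]

theorem V0_zero' {x : ℝ} (h : 6 < x) : V0 x = 0 := by
  apply V0_zero
  rw [abs_of_pos (by linarith)]
  norm_num; linarith

theorem V0_one {w : ℝ} (h : |w| ≤ 1) : V0 (Real.exp w) = 1 := by
  have h1 : Real.exp w ≤ 2.7182818286 :=
    (Real.exp_le_exp.2 (abs_le.1 h).2).trans Real.exp_one_lt_d9.le
  have h2 : (0.36 : ℝ) ≤ Real.exp w := by
    have h3 : Real.exp (-1) ≤ Real.exp w := Real.exp_le_exp.2 (abs_le.1 h).1
    refine le_trans ?_ h3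
    rw [Real.exp_neg, le_inv_comm₀ (by norm_num) (Real.exp_pos 1)]
    have := Real.exp_one_lt_d9
    norm_num; linarith
  have h3 : Real.exp w ∈ Metric.closedBall (3 : ℝ) bmp3.rIn := by
    rw [Metric.mem_closedBall, Real.dist_eq, abs_le]
    show -(2.7 : ℝ) ≤ _ ∧ _ ≤ (2.7 : ℝ)
    constructor <;> norm_num <;> linarith
  rw [V0, bmp3.one_of_mem_closedBall h3, Complex.ofReal_one]

theorem w0_V0 : W0 V0 where
  smooth := Complex.ofRealCLM.contDiff.comp bmp3.contDiff
  supp := by
    refine HasCompactSupport.intro (K := Metric.closedBall (3 : ℝ) 2.9)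
      (isCompact_closedBall _ _) fun x hx => ?_
    rw [Metric.mem_closedBall, Real.dist_eq, not_le] at hx
    exact V0_zero hx.le
  pos := by
    have h1 : support V0 ⊆ Metric.closedBall (3 : ℝ) 2.9 := by
      intro x hx
      rw [Metric.mem_closedBall, Real.dist_eq]
      by_contra h
      exact hx (V0_zero (not_le.1 h).le)
    refine (closure_minimal h1 Metric.isClosed_closedBall).trans fun x hx => ?_
    rw [Metric.mem_closedBall, Real.dist_eq, abs_le] at hx
    rw [mem_Ioi]
    norm_num at hx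
    linarith

/-- `V0(e^w) ρ(w/Δ) = ρ(w/Δ)` -/
theorem V0_mul_rho {Δ w : ℝ} (hΔ : 0 < Δ) (hΔ1 : Δ ≤ 1) :
    V0 (Real.exp w) * (rho (w / Δ) : ℂ) = (rho (w / Δ) : ℂ) := by
  by_cases h : |w| ≤ 1
  · rw [V0_one h, one_mul]
  · have : 1 ≤ |w / Δ| := by
      rw [abs_div, abs_of_pos hΔ, le_div_iff₀ hΔ]
      push Not at h
      linarith
    rw [rho_zero this]; simp

/-! ### the smoothed indicator -/

/-- smoothed indicator function of `(α, β]` -/
noncomputable def Wf (Δ α β u : ℝ) : ℝ := ∫ v in α..β, Δ⁻¹ * rho ((u - v) / Δ)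

theorem Wf_eq {Δ α β u : ℝ} (hΔ : 0 < Δ) :
    Wf Δ α β u = ∫ w in (u - β) / Δ..(u - α) / Δ, rho w := by
  unfold Wf
  have h1 : ∀ v, (u - v) / Δ = u / Δ - v / Δ := fun v => by ring
  simp only [h1]
  rw [intervalIntegral.integral_const_mul, intervalIntegral.integral_comp_sub_div _ hΔ.ne']
  rw [smul_eq_mul, ← mul_assoc, inv_mul_cancel₀ hΔ.ne', one_mul]

theorem Wf_nonneg {Δ α β u : ℝ} (hΔ : 0 < Δ) (h : α ≤ β) : 0 ≤ Wf Δ α β u := by
  unfold Wf
  apply intervalIntegral.integral_nonneg h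
  intro v _
  have := rho_nonneg ((u - v) / Δ)
  positivity

theorem Wf_le_one {Δ α β u : ℝ} (hΔ : 0 < Δ) (h : α ≤ β) : Wf Δ α β u ≤ 1 := by
  rw [Wf_eq hΔ, intervalIntegral.integral_of_le (by gcongr), ← integral_rho]
  exact setIntegral_le_integral rho_integrable (Eventually.of_forall rho_nonneg)

theorem Wf_eq_zero {Δ α β u : ℝ} (hΔ : 0 < Δ) (hαβ : α ≤ β) (h : u ≤ α - Δ ∨ β + Δ ≤ u) :
    Wf Δ α β u = 0 := by
  rw [Wf_eq hΔ]
  have hle : (u - β) / Δ ≤ (u - α) / Δ := by gcongr
  have : ∀ w ∈ uIcc ((u - β) / Δ) ((u - α) / Δ), rho w = 0 := by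
    intro w hw
    rw [uIcc_of_le hle] at hw
    apply rho_zero
    rcases h with h | h
    · have h1 : (u - α) / Δ ≤ -1 := by rw [div_le_iff₀ hΔ]; linarith
      rw [abs_of_nonpos (by linarith [hw.2])]
      linarith [hw.2]
    · have h1 : 1 ≤ (u - β) / Δ := by rw [le_div_iff₀ hΔ]; linarith
      exact (h1.trans hw.1).trans (le_abs_self w)
  rw [intervalIntegral.integral_congr (g := fun _ => 0) this]
  simp

theorem Wf_eq_one {Δ α β u : ℝ} (hΔ : 0 < Δ) (h1 : α + Δ ≤ u) (h2 : u ≤ β - Δ) :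
    Wf Δ α β u = 1 := by
  rw [Wf_eq hΔ, intervalIntegral.integral_eq_integral_of_support_subset, integral_rho]
  rw [rho_supp]
  have h3 : 1 ≤ (u - α) / Δ := by rw [le_div_iff₀ hΔ]; linarith
  have h4 : (u - β) / Δ ≤ -1 := by rw [div_le_iff₀ hΔ]; linarith
  intro w hw
  rw [mem_Ioo] at hw
  rw [mem_Ioc]
  constructor <;> linarith

/-- the smoothed indicator against the indicator -/
theorem abs_ind_sub_Wf_le {Δ α β u : ℝ} (hΔ : 0 < Δ) (hαβ : α ≤ β) :
    |(if α < u ∧ u ≤ β then (1 : ℝ) else 0) - Wf Δ α β u| ≤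
      if |u - α| < Δ ∨ |u - β| < Δ then 1 else 0 := by
  have h0 := Wf_nonneg (u := u) hΔ hαβ
  have h1 := Wf_le_one (u := u) hΔ hαβ
  split_ifs with h2 h3 h3
  · rw [abs_of_nonneg (by linarith)]; linarith
  · push Not at h3
    obtain ⟨h4, h5⟩ := h3
    rw [abs_of_pos (by linarith)] at h4
    rw [abs_of_nonpos (by linarith)] at h5
    rw [Wf_eq_one hΔ (by linarith) (by linarith)]
    simp
  · rw [abs_of_nonpos (by linarith)]; linarith
  · push Not at h3
    obtain ⟨h4, h5⟩ := h3
    have h6 : u ≤ α - Δ ∨ β + Δ ≤ u := by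
      by_cases h7 : α < u
      · right
        have h8 : β < u := by
          by_contra h
          exact h2 ⟨h7, not_lt.1 h⟩
        rw [abs_of_pos (by linarith)] at h5
        linarith
      · left
        rw [abs_of_nonpos (by linarith)] at h4
        linarith
    rw [Wf_eq_zero hΔ hαβ h6]
    simp

/-- Minkowski for an interval -/
theorem l2_interval {ι : Type*} (S : Finset ι) (h : ι → ℝ → ℂ) (hc : ∀ k ∈ S, Continuous (h k))
    {A α β : ℝ} (hαβ : α ≤ β) (hb : ∀ v ∈ Icc α β, ∑ k ∈ S, ‖h k v‖ ^ 2 ≤ A) :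
    ∑ k ∈ S, ‖∫ v in α..β, h k v‖ ^ 2 ≤ (β - α) ^ 2 * A := by
  classical
  have hA : 0 ≤ A := le_trans (Finset.sum_nonneg fun _ _ => by positivity)
    (hb α (left_mem_Icc.2 hαβ))
  set μ : ℝ → ℂ := (Ioc α β).indicator (fun _ => (1 : ℂ)) with hμ
  have hμi : Integrable μ := by
    rw [hμ, integrable_indicator_iff measurableSet_Ioc]
    exact integrableOn_const (by simp)
  have hclamp : Continuous fun v : ℝ => max α (min β v) := by fun_prop
  have h1 := l2_integral S hμi (fun k v => h k (max α (min β v)))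
    (fun k hk => (hc k hk).comp hclamp) hA (fun v => hb _ ⟨le_max_left _ _,
      max_le hαβ (min_le_left _ _)⟩)
  have h2 : ∫ v, ‖μ v‖ = β - α := by
    have h3 : (fun v => ‖μ v‖) = (Ioc α β).indicator (fun _ => (1 : ℝ)) := by
      funext v
      rw [hμ]
      by_cases hv : v ∈ Ioc α β
      · rw [indicator_of_mem hv, indicator_of_mem hv]; simp
      · rw [indicator_of_notMem hv, indicator_of_notMem hv]; simp
    rw [h3, integral_indicator measurableSet_Ioc]
    simp [hαβ]
  rw [h2] at h1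
  refine le_trans (le_of_eq ?_) h1
  refine Finset.sum_congr rfl fun k _ => ?_
  congr 2
  rw [intervalIntegral.integral_of_le hαβ, ← integral_indicator measurableSet_Ioc]
  congr 1
  funext v
  rw [hμ]
  by_cases hv : v ∈ Ioc α β
  · rw [indicator_of_mem hv, indicator_of_mem hv, one_mul, min_eq_right hv.2, max_eq_right hv.1.le]
  · rw [indicator_of_notMem hv, indicator_of_notMem hv, zero_mul]

end Vale.Agent.P006.H6
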