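import Vale.Agent.P006.H6.Core
import Vale.Agent.P006.LVC.Total
import Vale.Agent.P006.LVC.Inst
import Vale.Agent.P006.LV.Final
import Vale.Agent.P006.PS.PStar

/-!
# P006, block CEN4 (helper6): primes in the centre, final theorems
-/

open Real

namespace Vale.Agent.P006.H6

open Vale.Agent.P006

theorem ls4Hyp : LVC.LS4Hyp := LVC.ls4Hyp_of_PStar PS.pstar_symC

theorem twelve_le {R dl : ℝ} (hR : 12 ≤ R) (hdl : 0 < dl) : (12 * R) ^ (dl / 2) ≤ R ^ dl := by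
  have hR0 : 0 < R := by linarith
  calc (12 * R) ^ (dl / 2) ≤ (R ^ (2 : ℝ)) ^ (dl / 2) := by
        apply Real.rpow_le_rpow (by positivity) _ (by positivity)
        rw [show (2 : ℝ) = ((2 : ℕ) : ℝ) by norm_num, Real.rpow_natCast]
        nlinarith
    _ = R ^ dl := by rw [← Real.rpow_mul hR0.le]; congr 1; ring

theorem one_lt_of_le {R dl : ℝ} (hR : 12 ≤ R) (hdl : 0 < dl) {m : ℕ} (h : R ^ dl ≤ (m : ℝ)) :
    1 < m := by
  have h1 : (1 : ℝ) < R ^ dl := Real.one_lt_rpow (by linarith) hdl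
  exact_mod_cast h1.trans_le h

/-- lengths to exponents -/
theorem lengths {B M1 M2 d : ℝ} (hB : 1 < B) (h1 : B ^ d ≤ M1) (h2 : B ^ d ≤ M2)
    (h3 : M1 * M2 ≤ B) : ∃ y1 y2 : ℝ, d ≤ y1 ∧ d ≤ y2 ∧ y1 + y2 ≤ 1 ∧ B ^ y1 = M1 ∧
      B ^ y2 = M2 := by
  have hB0 : 0 < B := by linarith
  have hM1 : 0 < M1 := lt_of_lt_of_le (by positivity) h1
  have hM2 : 0 < M2 := lt_of_lt_of_le (by positivity) h2
  refine ⟨Real.logb B M1, Real.logb B M2, ?_, ?_, ?_, ?_, ?_⟩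
  · rwa [Real.le_logb_iff_rpow_le hB hM1]
  · rwa [Real.le_logb_iff_rpow_le hB hM2]
  · rw [← Real.logb_mul hM1.ne' hM2.ne', Real.logb_le_iff_le_rpow hB (by positivity),
      Real.rpow_one]
    exact h3
  · exact Real.rpow_logb hB0 hB.ne' hM1
  · exact Real.rpow_logb hB0 hB.ne' hM2

/-- the large sieve bound at length `6R` in the shape of `cen4_core` -/
theorem lsE_mono {CE R P ε : ℝ} (hCE : 0 ≤ CE) (hR : 1 ≤ R) (hP : 1 ≤ P) (hε : 0 ≤ ε) :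
    CE * (6 * R * P) ^ ε * (P + 6 * R * P ^ (1 / 3 : ℝ) + (6 * R * P) ^ (2 / 3 : ℝ)) ≤
      CE * ((12 * R * P) ^ ε * (P + 12 * R * P ^ (1 / 3 : ℝ) + (12 * R * P) ^ (2 / 3 : ℝ))) := by
  have hR0 : 0 < R := by linarith
  have hP0 : 0 < P := by linarith
  rw [mul_assoc]
  gcongr <;> norm_num

section Pairs

/-- the element attached to a pair -/
noncomputable def kap4 (u : O) (l : ℕ) (n : O) (p : O × O) : O :=
  u * lam ^ l * (p.1 * p.2 ^ 2 * n ^ 3)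

variable {u n : O} {l : ℕ} {P Q : ℝ}

theorem lam_ne_zero' : lam ≠ 0 := by
  intro h
  have : N lam = 0 := by rw [h]; simp
  rw [show N lam = 3 by decide] at this
  omega

theorem N_kap4 (hu : IsUnit u) (p : O × O) :
    (N (kap4 u l n p) : ℝ) = 3 ^ l * (N p.1 * (N p.2 : ℝ) ^ 2) * (N n : ℝ) ^ 3 := by
  rw [kap4, N_mul, N_mul, N_mul, N_mul, N_pow, N_pow, N_pow, show N lam = 3 by decide,
    isUnit_iff_N.1 hu]
  push_cast
  ring

theorem kap4_ne_zero (hu : IsUnit u) (hn : n ≠ 0) {p : O × O} (h1 : Primary p.1)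
    (h2 : Primary p.2) : kap4 u l n p ≠ 0 := by
  unfold kap4
  exact mul_ne_zero (mul_ne_zero hu.ne_zero (pow_ne_zero _ lam_ne_zero'))
    (mul_ne_zero (mul_ne_zero h1.ne_zero (pow_ne_zero _ h2.ne_zero)) (pow_ne_zero _ hn))

theorem cond_kap4 (hu : IsUnit u) (hn : n ≠ 0) {p : O × O} (h1 : Primary p.1)
    (h2 : Primary p.2) (h3 : Squarefree (p.1 * p.2)) :
    DEC.cond (kap4 u l n p) = N (p.1 * p.2) := by
  have h4 : p.1 * p.2 ^ 2 ≠ 0 := mul_ne_zero h1.ne_zero (pow_ne_zero _ h2.ne_zero)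
  have h5 : p.1 * p.2 ^ 2 * n ^ 3 ≠ 0 := mul_ne_zero h4 (pow_ne_zero _ hn)
  have h6 : lam ^ l * (p.1 * p.2 ^ 2 * n ^ 3) ≠ 0 := mul_ne_zero (pow_ne_zero _ lam_ne_zero') h5
  rw [kap4, mul_assoc, DEC.cond_unit_mul h6 hu, DEC.cond_lam_mul h5, DEC.cond_mul_cube h4 hn,
    DEC.cond_mul_sq h1 h2 h3, N_mul]

theorem inj_pairs {T : Finset (O × O)}
    (hT : ∀ p ∈ T, Primary p.1 ∧ Primary p.2 ∧ Squarefree (p.1 * p.2)) :
    Set.InjOn (fun p : O × O => p.1 * p.2 ^ 2) (T : Set (O × O)) := by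
  intro p hp q hq h
  have h1 := hT p hp
  have h2 := hT q hq
  have h3 := DEC.isDec_sq h1.1 h1.2.1 h1.2.2
  have h4 := DEC.isDec_sq h2.1 h2.2.1 h2.2.2
  simp only at h
  rw [← h] at h4
  have h5 := h3.unique h4
  exact Prod.ext h5.2.2.1 h5.2.2.2.1

theorem image_subset_Hn {T : Finset (O × O)} [DecidableEq O]
    (hT : ∀ p ∈ T, Primary p.1 ∧ Primary p.2 ∧ Squarefree (p.1 * p.2) ∧
      (N p.1 : ℝ) * (N p.2 : ℝ) ^ 2 ≤ P) :
    T.image (fun p : O × O => p.1 * p.2 ^ 2) ⊆ HB.Hn P := by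
  intro k hk
  rw [Finset.mem_image] at hk
  obtain ⟨p, hp, rfl⟩ := hk
  obtain ⟨h1, h2, _, h4⟩ := hT p hp
  rw [HB.mem_Hn]
  refine ⟨?_, mul_ne_zero h1.ne_zero (pow_ne_zero _ h2.ne_zero)⟩
  rw [N_mul, N_pow]
  push_cast
  exact h4

theorem sum_pairs_le_Hn {T : Finset (O × O)}
    (hT : ∀ p ∈ T, Primary p.1 ∧ Primary p.2 ∧ Squarefree (p.1 * p.2) ∧
      (N p.1 : ℝ) * (N p.2 : ℝ) ^ 2 ≤ P) (f : O → ℝ) (hf : ∀ k, 0 ≤ f k) :
    ∑ p ∈ T, f (p.1 * p.2 ^ 2) ≤ ∑ k ∈ HB.Hn P, f k := by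
  classical
  have h1 : ∑ p ∈ T, f (p.1 * p.2 ^ 2) = ∑ k ∈ T.image (fun p : O × O => p.1 * p.2 ^ 2), f k := by
    rw [Finset.sum_image]
    exact inj_pairs fun p hp => ⟨(hT p hp).1, (hT p hp).2.1, (hT p hp).2.2.1⟩
  rw [h1]
  exact Finset.sum_le_sum_of_subset_of_nonneg (image_subset_Hn hT) fun k _ _ => hf k

theorem card_pairs_le_Hn {T : Finset (O × O)}
    (hT : ∀ p ∈ T, Primary p.1 ∧ Primary p.2 ∧ Squarefree (p.1 * p.2) ∧
      (N p.1 : ℝ) * (N p.2 : ℝ) ^ 2 ≤ P) : (T.card : ℝ) ≤ (HB.Hn P).card := by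
  have h := sum_pairs_le_Hn hT (fun _ => 1) (fun _ => zero_le_one)
  simpa using h

theorem lsT_pairs {T : Finset (O × O)} {X E : ℝ} (hE : 0 ≤ E)
    (hT : ∀ p ∈ T, Primary p.1 ∧ Primary p.2 ∧ Squarefree (p.1 * p.2) ∧
      (N p.1 : ℝ) * (N p.2 : ℝ) ^ 2 ≤ P) (h : HB.LSF HB.symC X P E) :
    LsT T (kap4 u l n) X E := by
  classical
  have hSF : HB.SF X = SPB X := by
    ext k
    rw [HB.mem_SF, mem_SPB, HB.prim_iff]
    tauto
  intro γ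
  have h1 := h (fun r => γ r * toC (sym (u * lam ^ l * n ^ 3) r))
  rw [hSF] at h1
  have h2 : ∀ p ∈ T, ∑ r ∈ SPB X, γ r * toC (sym (kap4 u l n p) r) =
      ∑ r ∈ SPB X, γ r * toC (sym (u * lam ^ l * n ^ 3) r) * HB.symC r (p.1 * p.2 ^ 2) := by
    intro p _
    refine Finset.sum_congr rfl fun r _ => ?_
    rw [kap4, show u * lam ^ l * (p.1 * p.2 ^ 2 * n ^ 3) = (u * lam ^ l * n ^ 3) * (p.1 * p.2 ^ 2) by
      ring, sym_mul_left, map_mul, HB.symC]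
    ring
  calc ∑ p ∈ T, ‖∑ r ∈ SPB X, γ r * toC (sym (kap4 u l n p) r)‖ ^ 2
      = ∑ p ∈ T, ‖∑ r ∈ SPB X, γ r * toC (sym (u * lam ^ l * n ^ 3) r) *
          HB.symC r (p.1 * p.2 ^ 2)‖ ^ 2 := Finset.sum_congr rfl fun p hp => by rw [h2 p hp]
    _ ≤ ∑ k ∈ HB.Hn P, ‖∑ r ∈ SPB X, γ r * toC (sym (u * lam ^ l * n ^ 3) r) *
          HB.symC r k‖ ^ 2 :=
        sum_pairs_le_Hn hT (fun k => ‖∑ r ∈ SPB X, γ r * toC (sym (u * lam ^ l * n ^ 3) r) *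
          HB.symC r k‖ ^ 2) (fun k => by positivity)
    _ ≤ E * ∑ r ∈ SPB X, ‖γ r * toC (sym (u * lam ^ l * n ^ 3) r)‖ ^ 2 := h1
    _ ≤ E * ∑ r ∈ SPB X, ‖γ r‖ ^ 2 := by
        gcongr with r _
        rw [norm_mul]
        exact mul_le_of_le_one_right (norm_nonneg _) (norm_sym_le _ _)

theorem prodT_pairs {T : Finset (O × O)} {B d dl D : ℝ} (hB : 1 < B)
    (hT : ∀ p ∈ T, Primary p.1 ∧ Primary p.2 ∧ Squarefree (p.1 * p.2) ∧
      (N p.1 : ℝ) * (N p.2 : ℝ) ^ 2 ≤ P ∧ B ^ dl ≤ (N (p.1 * p.2) : ℝ))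
    (h : ∀ (y1 y2 : ℝ), d ≤ y1 → d ≤ y2 → y1 + y2 ≤ 1 →
      ∀ S1 S2 : Finset O, (∀ n ∈ S1, Primary n ∧ (N n : ℝ) ≤ B ^ y1) →
      (∀ n ∈ S2, Primary n ∧ (N n : ℝ) ≤ B ^ y2) →
      ∀ a b : O → ℂ, (∀ n, ‖a n‖ ≤ 1) → (∀ n, ‖b n‖ ≤ 1) →
      ∑ p ∈ T, LVC.pf S1 S2 a b p ≤ D) :
    ProdT T (kap4 u l n) B d D := by
  intro M1 M2 h1 h2 h3 a b ha hb
  obtain ⟨y1, y2, hy1, hy2, hy, e1, e2⟩ := lengths hB h1 h2 h3
  have h4 := h y1 y2 hy1 hy2 hy (PB M1) (PB M2) (fun n hn => by rw [e1]; exact mem_PB.1 hn)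
    (fun n hn => by rw [e2]; exact mem_PB.1 hn) (fun m => a m * LVC.twist u l n m)
    (fun m => b m * LVC.twist u l n m)
    (fun m => by
      rw [norm_mul]; exact mul_le_one₀ (ha m) (norm_nonneg _) (LVC.norm_twist_le _ _ _ _))
    (fun m => by
      rw [norm_mul]; exact mul_le_one₀ (hb m) (norm_nonneg _) (LVC.norm_twist_le _ _ _ _))
  refine le_trans (le_of_eq ?_) h4
  refine Finset.sum_congr rfl fun p hp => ?_
  obtain ⟨q1, q2, _, _, _⟩ := hT p hp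
  have key : ∀ (c : O → ℂ) (M : ℝ), ∑ m ∈ PB M, c m * toC (sym (kap4 u l n p) m) =
      ∑ m ∈ PB M, c m * LVC.twist u l n m * LVC.psi2 p m := by
    intro c M
    refine Finset.sum_congr rfl fun m hm => ?_
    rw [mem_PB] at hm
    rw [kap4, LVC.sym_twist q1 q2 hm.1]
    ring
  rw [LVC.pf, key, key]

end Pairs

/-- **CEN4, pair form.** -/
theorem cen4_pairs {dl : ℝ} (hdl : 0 < dl) : ∃ κ η C : ℝ, 0 < κ ∧ 0 < η ∧ 0 ≤ C ∧
    ∀ (R P t a b : ℝ) (u n : O) (l : ℕ), 1 ≤ R → 1 ≤ P → b ≤ R → IsUnit u → n ≠ 0 →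
      3 ^ l * P * (N n : ℝ) ^ 3 ≤ R ^ (1 + κ) → ∀ T : Finset (O × O),
      (∀ p ∈ T, Primary p.1 ∧ Primary p.2 ∧ Squarefree (p.1 * p.2) ∧
        (N p.1 : ℝ) * (N p.2 : ℝ) ^ 2 ≤ P ∧ R ^ dl ≤ (N (p.1 * p.2) : ℝ)) →
      ∑ p ∈ T, ‖SP a b t R (u * lam ^ l * (p.1 * p.2 ^ 2 * n ^ 3))‖ ^ 2 ≤
        C * (1 + |t|) ^ 6 * (R ^ (2 - η) * P ^ (1 / 3 : ℝ)) := by
  classical
  obtain ⟨θ, hθ, hθ1, CD, hCD, hprod⟩ := LVC.prod_pairs ls4Hyp LV.cen1Hyp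
    (d := 1 / 50) (dl := dl / 2) (by norm_num) (by norm_num) (by positivity)
  obtain ⟨CE, hCE, hls⟩ := PS.cubic_large_sieve_full_symC (θ / 1000) (by positivity)
  obtain ⟨CT, hCT, hcard⟩ := HB.card_Hn_le (show 0 < θ / 1000 by positivity)
  obtain ⟨C, hC, hcore⟩ := cen4_core hθ hθ1 (show 0 ≤ CD by linarith) hCE.le hCT.le
  refine ⟨θ / 100, θ / 50, C, by positivity, by positivity, hC, ?_⟩
  intro R P t a b u n l hR hP hb hu hn hH T hT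
  have hR0 : 0 < R := by linarith
  have hP0 : 0 < P := by linarith
  have hNn : (1 : ℝ) ≤ N n := by exact_mod_cast N_pos hn
  have h3l : (1 : ℝ) ≤ 3 ^ l := one_le_pow₀ (by norm_num)
  have hPR : P ≤ R ^ (1 + θ / 100) := by
    refine le_trans ?_ hH
    have h1 : 1 ≤ (N n : ℝ) ^ 3 := one_le_pow₀ hNn
    calc P = 1 * P * 1 := by ring
      _ ≤ _ := by gcongr
  have hT4 : ∀ p ∈ T, Primary p.1 ∧ Primary p.2 ∧ Squarefree (p.1 * p.2) ∧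
      (N p.1 : ℝ) * (N p.2 : ℝ) ^ 2 ≤ P := fun p hp =>
    ⟨(hT p hp).1, (hT p hp).2.1, (hT p hp).2.2.1, (hT p hp).2.2.2.1⟩
  refine hcore (O × O) T (kap4 u l n) R P hR hP hPR ?_ ?_ ?_ ?_ ?_ a b t hb
  · intro p hp
    obtain ⟨h1, h2, h3, h4⟩ := hT4 p hp
    refine ⟨kap4_ne_zero hu hn h1 h2, ?_⟩
    rw [N_kap4 hu]
    refine le_trans ?_ hH
    gcongr
  · intro hR12 p hp
    obtain ⟨h1, h2, h3, h4, h5⟩ := hT p hp
    rw [cond_kap4 hu hn h1 h2 h3]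
    exact one_lt_of_le hR12 hdl h5
  · exact (card_pairs_le_Hn hT4).trans (hcard P hP0.le)
  · intro hR12
    have hB : 1 < 12 * R := by linarith
    have hT' : ∀ p ∈ T, Primary p.1 ∧ Primary p.2 ∧ Squarefree (p.1 * p.2) ∧
        (N p.1 : ℝ) * (N p.2 : ℝ) ^ 2 ≤ P ∧ (12 * R) ^ (dl / 2) ≤ (N (p.1 * p.2) : ℝ) := by
      intro p hp
      obtain ⟨h1, h2, h3, h4, h5⟩ := hT p hp
      exact ⟨h1, h2, h3, h4, (twelve_le hR12 hdl).trans h5⟩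
    refine prodT_pairs hB hT' ?_
    intro y1 y2 hy1 hy2 hy S1 S2 hS1 hS2 a' b' ha' hb'
    have h6 := hprod (12 * R) P y1 y2 hB.le hP (hPR.trans ?_) hy1 hy2 hy S1 S2 hS1 hS2 a' b'
      ha' hb' T hT'
    · rw [← mul_assoc]; exact h6
    · calc R ^ (1 + θ / 100) ≤ (12 * R) ^ (1 + θ / 100) :=
            Real.rpow_le_rpow hR0.le (by linarith) (by linarith)
        _ ≤ (12 * R) ^ (1 + θ) := ble hB.le (by linarith)
  · have h7 := hls (6 * R) P (by linarith) hP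
    have h8 : HB.LSF HB.symC (6 * R) P _ := h7.mono (lsE_mono hCE.le hR hP (by positivity))
    exact lsT_pairs (by positivity) hT4 h8

theorem prodT_total {K B d dl D : ℝ} {T : Finset O} (hB : 1 < B)
    (hT : ∀ k ∈ T, k ∈ HB.Hn K ∧ B ^ dl ≤ (DEC.cond k : ℝ))
    (h : ∀ (y1 y2 : ℝ), d ≤ y1 → d ≤ y2 → y1 + y2 ≤ 1 →
      ∀ S1 S2 : Finset O, (∀ n ∈ S1, Primary n ∧ (N n : ℝ) ≤ B ^ y1) →
      (∀ n ∈ S2, Primary n ∧ (N n : ℝ) ≤ B ^ y2) →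
      ∀ a b : O → ℂ, (∀ n, ‖a n‖ ≤ 1) → (∀ n, ‖b n‖ ≤ 1) →
      ∑ k ∈ (HB.Hn K).filter (fun k => B ^ dl ≤ (DEC.cond k : ℝ)),
        (‖∑ n ∈ S1, a n * toC (sym k n)‖ * ‖∑ n ∈ S2, b n * toC (sym k n)‖) ^ 2 ≤ D) :
    ProdT T (fun k => k) B d D := by
  classical
  intro M1 M2 h1 h2 h3 a b ha hb
  obtain ⟨y1, y2, hy1, hy2, hy, e1, e2⟩ := lengths hB h1 h2 h3
  have h4 := h y1 y2 hy1 hy2 hy (PB M1) (PB M2) (fun n hn => by rw [e1]; exact mem_PB.1 hn)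
    (fun n hn => by rw [e2]; exact mem_PB.1 hn) a b ha hb
  refine le_trans (Finset.sum_le_sum_of_subset_of_nonneg ?_ fun k _ _ => by positivity) h4
  intro k hk
  rw [Finset.mem_filter]
  exact hT k hk

open Classical in
/-- **CEN4, total form.** -/
theorem cen4_total {dl : ℝ} (hdl : 0 < dl) : ∃ κ η C : ℝ, 0 < κ ∧ 0 < η ∧ 0 ≤ C ∧
    ∀ (R K t a b : ℝ), 1 ≤ R → 1 ≤ K → K ≤ R ^ (1 + κ) → b ≤ R →
      ∑ k ∈ (HB.Hn K).filter (fun k => R ^ dl ≤ (DEC.cond k : ℝ)), ‖SP a b t R k‖ ^ 2 ≤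
        C * (1 + |t|) ^ 6 * (R ^ (2 - η) * K ^ (1 / 3 : ℝ)) := by
  obtain ⟨θ, hθ, hθ1, CD, hCD, hprod⟩ := LVC.prod_total ls4Hyp LV.cen1Hyp
    (d := 1 / 50) (dl := dl / 2) (by norm_num) (by norm_num) (by positivity)
  obtain ⟨CE, hCE, hls⟩ := PS.cubic_large_sieve_full_symC (θ / 1000) (by positivity)
  obtain ⟨CT, hCT, hcard⟩ := HB.card_Hn_le (show 0 < θ / 1000 by positivity)
  obtain ⟨C, hC, hcore⟩ := cen4_core hθ hθ1 (show 0 ≤ CD by linarith) hCE.le hCT.le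
  refine ⟨θ / 100, θ / 50, C, by positivity, by positivity, hC, ?_⟩
  intro R K t a b hR hK hKR hb
  have hR0 : 0 < R := by linarith
  have hK0 : 0 < K := by linarith
  refine hcore O _ (fun k => k) R K hR hK hKR ?_ ?_ ?_ ?_ ?_ a b t hb
  · intro k hk
    rw [Finset.mem_filter, HB.mem_Hn] at hk
    exact ⟨hk.1.2, hk.1.1.trans hKR⟩
  · intro hR12 k hk
    rw [Finset.mem_filter] at hk
    exact one_lt_of_le hR12 hdl hk.2
  · refine le_trans ?_ (hcard K hK0.le)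
    exact_mod_cast Finset.card_filter_le _ _
  · intro hR12
    have hB : 1 < 12 * R := by linarith
    refine prodT_total (K := K) (dl := dl / 2) hB ?_ ?_
    · intro k hk
      rw [Finset.mem_filter] at hk
      exact ⟨hk.1, (twelve_le hR12 hdl).trans hk.2⟩
    intro y1 y2 hy1 hy2 hy S1 S2 hS1 hS2 a' b' ha' hb'
    have h6 := hprod (12 * R) K y1 y2 hB.le hK (hKR.trans ?_) hy1 hy2 hy S1 S2 hS1 hS2 a' b'
      ha' hb'
    · refine le_trans (le_of_eq ?_) (h6.trans (le_of_eq (mul_assoc _ _ _)))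
      congr!
    · calc R ^ (1 + θ / 100) ≤ (12 * R) ^ (1 + θ / 100) :=
            Real.rpow_le_rpow hR0.le (by linarith) (by linarith)
        _ ≤ (12 * R) ^ (1 + θ) := ble hB.le (by linarith)
  · have h7 := hls (6 * R) K (by linarith) hK
    have h8 : HB.LSF HB.symC (6 * R) K _ := h7.mono (lsE_mono hCE.le hR hK (by positivity))
    have hSF : HB.SF (6 * R) = SPB (6 * R) := by
      ext k
      rw [HB.mem_SF, mem_SPB, HB.prim_iff]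
      tauto
    intro γ
    have h9 := h8 γ
    rw [hSF] at h9
    refine le_trans ?_ h9
    exact Finset.sum_le_sum_of_subset_of_nonneg (Finset.filter_subset _ _)
      fun k _ _ => by positivity

/-! ### Weights of bounded variation -/

open Classical in
/-- primes with the weight `v(N p) log N p · N(p)^{it}` -/
noncomputable def WP (v : ℕ → ℂ) (t R : ℝ) (k : O) : ℂ :=
  ∑ c ∈ PB R, if Prime c then v (N c) * ((Real.log (N c) : ℂ) * (toC (sym k c) * ee t c)) else 0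

theorem abel_v (v : ℕ → ℂ) (m M : ℕ) (h : m ≤ M) :
    v m = v M + ∑ j ∈ Finset.range M, if m ≤ j then v j - v (j + 1) else 0 := by
  induction M with
  | zero =>
    have : m = 0 := by omega
    subst this; simp
  | succ M ih =>
    rw [Finset.sum_range_succ]
    rcases h.eq_or_lt with h1 | h1
    · subst h1
      rw [if_neg (by omega), Finset.sum_eq_zero]
      · ring
      · intro j hj
        rw [Finset.mem_range] at hj
        rw [if_neg (by omega)]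
    · have h2 : m ≤ M := by omega
      rw [if_pos h2]
      have := ih h2
      linear_combination this

theorem WP_eq (v : ℕ → ℂ) {t R : ℝ} (k : O) :
    WP v t R k = v ⌊R⌋₊ * SP 0 R t R k +
      ∑ j ∈ Finset.range ⌊R⌋₊, (v j - v (j + 1)) * SP 0 j t R k := by
  classical
  unfold WP SP
  rw [Finset.mul_sum]
  simp only [Finset.mul_sum]
  rw [Finset.sum_comm, ← Finset.sum_add_distrib]
  refine Finset.sum_congr rfl fun c hc => ?_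
  rw [mem_PB] at hc
  have hN : (0 : ℝ) < N c := by linarith [hc.1.one_le_N']
  by_cases hp : Prime c
  · rw [if_pos hp, if_pos ⟨hp, hN, hc.2⟩]
    have h1 := abel_v v (N c) ⌊R⌋₊ (Nat.le_floor hc.2)
    rw [h1, add_mul, Finset.sum_mul]
    congr 1
    refine Finset.sum_congr rfl fun j _ => ?_
    by_cases hj : N c ≤ j
    · rw [if_pos hj, if_pos ⟨hp, hN, by exact_mod_cast hj⟩]
    · rw [if_neg hj, if_neg (fun h => hj (by exact_mod_cast h.2.2)), zero_mul, mul_zero]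
  · rw [if_neg hp, if_neg (fun h => hp h.1), mul_zero, zero_add, Finset.sum_eq_zero]
    intro j _
    rw [if_neg (fun h => hp h.1), mul_zero]

/-- finite Minkowski inequality -/
theorem mink {ι : Type*} (T : Finset ι) {J : Type*} (S : Finset J) (w : J → ℂ) (f : J → ι → ℂ)
    {A G : ℝ} (hG : ∑ j ∈ S, ‖w j‖ ≤ G) (hA : 0 ≤ A) (h : ∀ j ∈ S, ∑ i ∈ T, ‖f j i‖ ^ 2 ≤ A) :
    ∑ i ∈ T, ‖∑ j ∈ S, w j * f j i‖ ^ 2 ≤ G ^ 2 * A := by
  have hG0 : 0 ≤ G := (Finset.sum_nonneg fun _ _ => norm_nonneg _).trans hG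
  have h1 : ∀ i ∈ T, ‖∑ j ∈ S, w j * f j i‖ ^ 2 ≤ G * ∑ j ∈ S, ‖w j‖ * ‖f j i‖ ^ 2 := by
    intro i _
    have h2 : ‖∑ j ∈ S, w j * f j i‖ ≤ ∑ j ∈ S, Real.sqrt ‖w j‖ * (Real.sqrt ‖w j‖ * ‖f j i‖) := by
      refine (norm_sum_le _ _).trans (le_of_eq ?_)
      refine Finset.sum_congr rfl fun j _ => ?_
      rw [norm_mul, ← mul_assoc, Real.mul_self_sqrt (norm_nonneg _)]
    calc _ ≤ (∑ j ∈ S, Real.sqrt ‖w j‖ * (Real.sqrt ‖w j‖ * ‖f j i‖)) ^ 2 :=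
          pow_le_pow_left₀ (norm_nonneg _) h2 2
      _ ≤ (∑ j ∈ S, Real.sqrt ‖w j‖ ^ 2) * ∑ j ∈ S, (Real.sqrt ‖w j‖ * ‖f j i‖) ^ 2 :=
          Finset.sum_mul_sq_le_sq_mul_sq _ _ _
      _ = (∑ j ∈ S, ‖w j‖) * ∑ j ∈ S, ‖w j‖ * ‖f j i‖ ^ 2 := by
          congr 1
          · exact Finset.sum_congr rfl fun j _ => Real.sq_sqrt (norm_nonneg _)
          · refine Finset.sum_congr rfl fun j _ => ?_
            rw [mul_pow, Real.sq_sqrt (norm_nonneg _)]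
      _ ≤ _ := by
          have : 0 ≤ ∑ j ∈ S, ‖w j‖ * ‖f j i‖ ^ 2 := Finset.sum_nonneg fun j _ => by positivity
          gcongr
  calc _ ≤ ∑ i ∈ T, G * ∑ j ∈ S, ‖w j‖ * ‖f j i‖ ^ 2 := Finset.sum_le_sum h1
    _ = G * ∑ j ∈ S, ‖w j‖ * ∑ i ∈ T, ‖f j i‖ ^ 2 := by
        rw [← Finset.mul_sum, Finset.sum_comm]
        simp only [Finset.mul_sum]
    _ ≤ G * ∑ j ∈ S, ‖w j‖ * A := by
        gcongr with j hj
        exact h j hj
    _ = G * ((∑ j ∈ S, ‖w j‖) * A) := by rw [Finset.sum_mul]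
    _ ≤ G * (G * A) := by gcongr
    _ = G ^ 2 * A := by ring

/-- passage from intervals to weights of bounded variation -/
theorem wp_bound {ι : Type*} {T : Finset ι} {κ : ι → O} {R t A G : ℝ} (hR : 0 ≤ R) (hA : 0 ≤ A)
    (h : ∀ b : ℝ, b ≤ R → ∑ i ∈ T, ‖SP 0 b t R (κ i)‖ ^ 2 ≤ A) (v : ℕ → ℂ)
    (hv : ‖v ⌊R⌋₊‖ + ∑ j ∈ Finset.range ⌊R⌋₊, ‖v j - v (j + 1)‖ ≤ G) :
    ∑ i ∈ T, ‖WP v t R (κ i)‖ ^ 2 ≤ G ^ 2 * A := by
  classical
  -- index `none` for the boundary term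
  have h1 := mink T (insert ⌊R⌋₊ (Finset.range ⌊R⌋₊))
    (fun j => if j = ⌊R⌋₊ then v ⌊R⌋₊ else v j - v (j + 1))
    (fun j i => if j = ⌊R⌋₊ then SP 0 R t R (κ i) else SP 0 j t R (κ i)) (A := A) (G := G) ?_ hA ?_
  · refine le_trans (le_of_eq ?_) h1
    refine Finset.sum_congr rfl fun i _ => ?_
    rw [WP_eq v, Finset.sum_insert (by simp), if_pos rfl, if_pos rfl]
    congr 3
    refine Finset.sum_congr rfl fun j hj => ?_
    rw [Finset.mem_range] at hj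
    rw [if_neg (by omega), if_neg (by omega)]
  · rw [Finset.sum_insert (by simp), if_pos rfl]
    refine le_trans (le_of_eq ?_) hv
    congr 1
    refine Finset.sum_congr rfl fun j hj => ?_
    rw [Finset.mem_range] at hj
    rw [if_neg (by omega)]
  · intro j hj
    by_cases hj' : j = ⌊R⌋₊
    · simp only [if_pos hj']
      exact h R le_rfl
    · simp only [if_neg hj']
      apply h
      rw [Finset.mem_insert, Finset.mem_range] at hj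
      have h2 : j ≤ ⌊R⌋₊ := by omega
      exact (Nat.cast_le.2 h2).trans (Nat.floor_le hR)

/-- **CEN4, pair form, weights of bounded variation.** -/
theorem cen4_pairs_bv {dl : ℝ} (hdl : 0 < dl) : ∃ κ η C : ℝ, 0 < κ ∧ 0 < η ∧ 0 ≤ C ∧
    ∀ (R P t G : ℝ) (v : ℕ → ℂ) (u n : O) (l : ℕ), 1 ≤ R → 1 ≤ P → IsUnit u → n ≠ 0 →
      ‖v ⌊R⌋₊‖ + ∑ j ∈ Finset.range ⌊R⌋₊, ‖v j - v (j + 1)‖ ≤ G →
      3 ^ l * P * (N n : ℝ) ^ 3 ≤ R ^ (1 + κ) → ∀ T : Finset (O × O),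
      (∀ p ∈ T, Primary p.1 ∧ Primary p.2 ∧ Squarefree (p.1 * p.2) ∧
        (N p.1 : ℝ) * (N p.2 : ℝ) ^ 2 ≤ P ∧ R ^ dl ≤ (N (p.1 * p.2) : ℝ)) →
      ∑ p ∈ T, ‖WP v t R (u * lam ^ l * (p.1 * p.2 ^ 2 * n ^ 3))‖ ^ 2 ≤
        G ^ 2 * (C * (1 + |t|) ^ 6 * (R ^ (2 - η) * P ^ (1 / 3 : ℝ))) := by
  obtain ⟨κ, η, C, hκ, hη, hC, h⟩ := cen4_pairs hdl
  refine ⟨κ, η, C, hκ, hη, hC, fun R P t G v u n l hR hP hu hn hv hH T hT => ?_⟩
  refine wp_bound (κ := fun p : O × O => u * lam ^ l * (p.1 * p.2 ^ 2 * n ^ 3)) (by linarith)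
    (by positivity) (fun b hb => ?_) v hv
  exact h R P t 0 b u n l hR hP hb hu hn hH T hT

open Classical in
/-- **CEN4, total form, weights of bounded variation.** -/
theorem cen4_total_bv {dl : ℝ} (hdl : 0 < dl) : ∃ κ η C : ℝ, 0 < κ ∧ 0 < η ∧ 0 ≤ C ∧
    ∀ (R K t G : ℝ) (v : ℕ → ℂ), 1 ≤ R → 1 ≤ K → K ≤ R ^ (1 + κ) →
      ‖v ⌊R⌋₊‖ + ∑ j ∈ Finset.range ⌊R⌋₊, ‖v j - v (j + 1)‖ ≤ G →
      ∑ k ∈ (HB.Hn K).filter (fun k => R ^ dl ≤ (DEC.cond k : ℝ)), ‖WP v t R k‖ ^ 2 ≤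
        G ^ 2 * (C * (1 + |t|) ^ 6 * (R ^ (2 - η) * K ^ (1 / 3 : ℝ))) := by
  obtain ⟨κ, η, C, hκ, hη, hC, h⟩ := cen4_total hdl
  refine ⟨κ, η, C, hκ, hη, hC, fun R K t G v hR hK hKR hv => ?_⟩
  exact wp_bound (κ := fun k : O => k) (by linarith) (by positivity)
    (fun b hb => h R K t 0 b hR hK hKR hb) v hv

end Vale.Agent.P006.H6
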