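import Vale.Agent.P006.H6.Cen4
import Vale.Agent.P006.LVC.NCcen3

/-!
# P006, block CEN4 (helper6): large values for the primes in the centre in the form of block LV-C
-/

open Real

namespace Vale.Agent.P006.H6

open Vale.Agent.P006

theorem nn_eq_ee (t : ℝ) {c : O} (hc : Primary c) : LVC.nn t c = ee t c := by
  have hN : (0 : ℝ) < N c := by linarith [hc.one_le_N']
  have h0 : (((N c : ℕ) : ℝ) : ℂ) ≠ 0 := by exact_mod_cast hN.ne'
  rw [LVC.nn, ee, Complex.cpow_def_of_ne_zero h0, Complex.ofReal_log hN.le]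
  congr 1
  ring

theorem isUnit_of_mem_U3 {u : O} (hu : u ∈ NC.U3) : IsUnit u := by
  rw [isUnit_iff_N]
  exact NC.N_U3 hu

open Classical in
/-- the block sum is a sum of squares of `WP` -/
theorem blkS_WP {w : ℕ → ℂ} {t A z : ℝ} (hw : ∀ n : ℕ, w n ≠ 0 → A < n ∧ (n : ℝ) ≤ 2 * A)
    (hz : z ≤ A) (u : O) (l : ℕ) (n : O) (a b : ℕ) :
    NC.blkS (fun c => w (N c) * LVC.nn t c * (if Rough z c then ((VR.lamb c : ℝ) : ℂ) else 0))
      (2 * A) u l n a b =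
      ∑ p ∈ LVC.TB a b, ‖WP w t (2 * A) (u * lam ^ l * (p.1 * p.2 ^ 2 * n ^ 3))‖ ^ 2 := by
  rw [LVC.blkS_eq]
  refine Finset.sum_congr rfl fun p hp => ?_
  obtain ⟨h1, h2, _⟩ := LVC.mem_TB hp
  congr 2
  have hsub : SPB (2 * A) ⊆ PB (2 * A) := by
    intro c hc
    rw [mem_SPB] at hc
    exact mem_PB.2 hc.1
  unfold WP
  rw [← Finset.sum_subset hsub]
  · refine Finset.sum_congr rfl fun c hc => ?_
    rw [mem_SPB] at hc
    by_cases hpc : Prime c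
    · rw [if_pos hpc, VR.lamb, if_pos hpc]
      by_cases hwc : w (N c) = 0
      · rw [hwc]; simp
      · have hr : Rough z c := by
          intro q hq hqc
          have h3 : N q = N c := by
            have h4 : Associated q c := hq.associated_of_dvd hpc hqc
            exact Nat.dvd_antisymm (N_dvd_N h4.dvd) (N_dvd_N h4.symm.dvd)
          rw [h3]
          exact hz.trans (hw _ hwc).1.le
        rw [if_pos hr, nn_eq_ee t hc.1.1, LVC.sym_twist h1 h2 hc.1.1]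
        ring
    · rw [if_neg hpc, VR.lamb, if_neg hpc]
      simp
  · intro c hc hc'
    rw [if_neg]
    intro hpc
    exact hc' (mem_SPB.2 ⟨mem_PB.1 hc, hpc.squarefree⟩)

/-- **large values for the primes in the centre** -/
theorem cenLV_lamb {η : ℝ} (hη1 : η ≤ 1 / 3) :
    LVC.CenLV (fun _ c => ((VR.lamb c : ℝ) : ℂ)) η 6 := by
  classical
  obtain ⟨κ4, η4, C4, hκ4, hη4, hC4, h4⟩ := cen4_pairs_bv (dl := 1 / 5) (by norm_num)
  obtain ⟨κ, hκ0, hκ1, hκ2⟩ : ∃ κ : ℝ, 0 < κ ∧ κ ≤ κ4 / 2 ∧ κ ≤ 1 / 100 := by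
    refine ⟨min (κ4 / 2) (1 / 100), by positivity, min_le_left _ _, min_le_right _ _⟩
  -- thresholds
  set A0 : ℝ := 72 ^ (2 / κ4) with hA0
  have hA01 : 1 ≤ A0 := Real.one_le_rpow (by norm_num) (by positivity)
  set X0 : ℝ := max 3 (max (2 ^ (10 : ℝ)) ((2 * A0) ^ (3 : ℝ))) with hX0
  refine ⟨κ, hκ0, η4, hη4, max 1 (8 * C4), le_max_left _ _, X0, le_max_left _ _, ?_⟩
  intro X A H δ hX hA hXA hAX hHA hδ hδ1 w Gw t hGw hw hws u hu l hl n a b hn hH hr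
  have hX3 : 3 ≤ X := (le_max_left _ _).trans hX
  have hX1 : 1 ≤ X := by linarith
  have hX0' : 0 < X := by linarith
  have hA0' : 0 < A := by linarith
  have hXa : (2 : ℝ) ^ (10 : ℝ) ≤ X := ((le_max_left _ _).trans (le_max_right _ _)).trans hX
  have hXb : (2 * A0) ^ (3 : ℝ) ≤ X := ((le_max_right _ _).trans (le_max_right _ _)).trans hX
  -- `X^η ≤ A`
  have hη : X ^ η ≤ A := by
    have e1 : 2 ≤ X ^ (1 / 2 - κ - 1 / 3) := by
      calc (2 : ℝ) = ((2 : ℝ) ^ (10 : ℝ)) ^ (1 / 10 : ℝ) := by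
            rw [← Real.rpow_mul (by norm_num)]; norm_num
        _ ≤ X ^ (1 / 10 : ℝ) := Real.rpow_le_rpow (by positivity) hXa (by norm_num)
        _ ≤ _ := ble hX1 (by linarith)
    have e2 : X ^ (1 / 2 - κ) = X ^ (1 / 2 - κ - 1 / 3) * X ^ (1 / 3 : ℝ) := by
      rw [← Real.rpow_add hX0']; congr 1; ring
    have e3 : X ^ η ≤ X ^ (1 / 3 : ℝ) := ble hX1 hη1
    have e4 : 0 < X ^ (1 / 3 : ℝ) := by positivity
    have e5 : 2 * X ^ (1 / 3 : ℝ) ≤ 2 * A := by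
      calc 2 * X ^ (1 / 3 : ℝ) ≤ X ^ (1 / 2 - κ - 1 / 3) * X ^ (1 / 3 : ℝ) := by gcongr
        _ ≤ 2 * A := by rw [← e2]; exact hXA
    linarith
  -- `A ≥ A0`
  have hAA0 : A0 ≤ A := by
    have e1 : 2 * A0 ≤ X ^ (1 / 2 - κ) := by
      calc 2 * A0 = ((2 * A0) ^ (3 : ℝ)) ^ (1 / 3 : ℝ) := by
            rw [← Real.rpow_mul (by positivity)]; norm_num
        _ ≤ X ^ (1 / 3 : ℝ) := Real.rpow_le_rpow (by positivity) hXb (by norm_num)
        _ ≤ _ := ble hX1 (by linarith)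
    linarith
  have h72 : 72 ≤ A ^ (κ4 / 2) := by
    calc (72 : ℝ) = A0 ^ (κ4 / 2) := by
          rw [hA0, ← Real.rpow_mul (by norm_num)]
          rw [show 2 / κ4 * (κ4 / 2) = 1 by field_simp, Real.rpow_one]
      _ ≤ _ := Real.rpow_le_rpow (by positivity) hAA0 (by positivity)
  rw [blkS_WP hws hη u l n a b]
  have hab1 : (1 : ℝ) ≤ 2 ^ a * (2 ^ b) ^ 2 :=
    one_le_mul_of_one_le_of_one_le (one_le_pow₀ (by norm_num))
      (one_le_pow₀ (one_le_pow₀ (by norm_num)))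
  have hl3 : (3 : ℝ) ^ l ≤ 9 := by
    rw [Finset.mem_range] at hl
    calc (3 : ℝ) ^ l ≤ 3 ^ 2 := pow_le_pow_right₀ (by norm_num) (by omega)
      _ = 9 := by norm_num
  have hcond : (3 : ℝ) ^ l * (8 * (2 ^ a * (2 ^ b) ^ 2)) * (N n : ℝ) ^ 3 ≤
      (2 * A) ^ (1 + κ4) := by
    calc (3 : ℝ) ^ l * (8 * (2 ^ a * (2 ^ b) ^ 2)) * (N n : ℝ) ^ 3
        ≤ 9 * (8 * (2 ^ a * (2 ^ b) ^ 2)) * (N n : ℝ) ^ 3 := by gcongr
      _ = 72 * ((N n : ℝ) ^ 3 * (2 ^ a * (2 ^ b) ^ 2)) := by ring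
      _ ≤ 72 * A ^ (1 + κ) := by
          have := hH.trans hHA
          gcongr
      _ ≤ A ^ (κ4 / 2) * A ^ (1 + κ4 / 2) := by
          have : A ^ (1 + κ) ≤ A ^ (1 + κ4 / 2) := ble hA (by linarith)
          gcongr
      _ = A ^ (1 + κ4) := by rw [← Real.rpow_add hA0']; congr 1; ring
      _ ≤ (2 * A) ^ (1 + κ4) := Real.rpow_le_rpow hA0'.le (by linarith) (by linarith)
  have key := h4 (2 * A) (8 * (2 ^ a * (2 ^ b) ^ 2)) t Gw w u n l (by linarith) (by linarith)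
    (isUnit_of_mem_U3 hu) hn (hw _) hcond (LVC.TB a b) (fun p hp => by
      obtain ⟨q1, q2, q3, q4, q5⟩ := LVC.mem_TB hp
      refine ⟨q1, q2, q3, q4, ?_⟩
      refine le_trans ?_ ((LVC.LVrange_cond hA hδ hδ1 hr).trans q5)
      exact Real.rpow_le_rpow (by linarith) (by linarith) (by norm_num))
  refine key.trans ?_
  have e1 : (8 * ((2 : ℝ) ^ a * (2 ^ b) ^ 2)) ^ (1 / 3 : ℝ) =
      2 * ((2 : ℝ) ^ a * (2 ^ b) ^ 2) ^ (1 / 3 : ℝ) := by
    rw [Real.mul_rpow (by norm_num) (by positivity)]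
    congr 1
    rw [show (8 : ℝ) = 2 ^ (3 : ℝ) by norm_num, ← Real.rpow_mul (by norm_num)]; norm_num
  have e2 : (2 * A) ^ (2 - η4) ≤ 4 * A ^ (2 - η4) := by
    rw [Real.mul_rpow (by norm_num) hA0'.le]
    gcongr
    calc (2 : ℝ) ^ (2 - η4) ≤ 2 ^ (2 : ℝ) := ble (by norm_num) (by linarith)
      _ = 4 := by norm_num
  have e3 : (1 + |t|) ^ (6 : ℝ) = (1 + |t|) ^ 6 := by
    rw [show (6 : ℝ) = ((6 : ℕ) : ℝ) by norm_num, Real.rpow_natCast]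
  have hlog : 1 ≤ Real.log X := by
    rw [Real.le_log_iff_exp_le hX0']
    have := Real.exp_one_lt_d9
    linarith
  have hlog2 : 1 ≤ Real.log X ^ 2 := one_le_pow₀ hlog
  rw [e1, e3]
  calc Gw ^ 2 * (C4 * (1 + |t|) ^ 6 * ((2 * A) ^ (2 - η4) *
        (2 * ((2 : ℝ) ^ a * (2 ^ b) ^ 2) ^ (1 / 3 : ℝ))))
      ≤ Gw ^ 2 * (C4 * (1 + |t|) ^ 6 * ((4 * A ^ (2 - η4)) *
        (2 * ((2 : ℝ) ^ a * (2 ^ b) ^ 2) ^ (1 / 3 : ℝ)))) := by gcongr
    _ = (8 * C4) * 1 * A ^ (2 - η4) * (1 + |t|) ^ 6 * Gw ^ 2 *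
        ((2 : ℝ) ^ a * (2 ^ b) ^ 2) ^ (1 / 3 : ℝ) := by ring
    _ ≤ max 1 (8 * C4) * Real.log X ^ 2 * A ^ (2 - η4) * (1 + |t|) ^ 6 * Gw ^ 2 *
        ((2 : ℝ) ^ a * (2 ^ b) ^ 2) ^ (1 / 3 : ℝ) := by
        gcongr
        exact le_max_right _ _

end Vale.Agent.P006.H6
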