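import Vale.Agent.P006.H6.Primes

/-!
# P006, block CEN4 (helper6): choice of parameters
-/

open Real

namespace Vale.Agent.P006.H6

open Vale.Agent.P006

/-! ### Changing the interval -/

theorem SP_X {a b t X X' : ℝ} (h : b ≤ X) (h' : b ≤ X') (k : O) : SP a b t X k = SP a b t X' k := by
  classical
  unfold SP
  have e : ∀ Z : ℝ, b ≤ Z → ∑ c ∈ PB Z, (if Prime c ∧ a < (N c : ℝ) ∧ (N c : ℝ) ≤ b then
      (Real.log (N c) : ℂ) * (toC (sym k c) * ee t c) else 0) =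
      ∑ c ∈ PB b, (if Prime c ∧ a < (N c : ℝ) ∧ (N c : ℝ) ≤ b then
      (Real.log (N c) : ℂ) * (toC (sym k c) * ee t c) else 0) := by
    intro Z hZ
    symm
    apply Finset.sum_subset (PB_mono hZ)
    intro c hc hc'
    rw [mem_PB] at hc hc'
    rw [if_neg]
    rintro ⟨_, _, h3⟩
    exact hc' ⟨hc.1, h3⟩
  rw [e X h, e X' h']

theorem SP_max {a b t X : ℝ} (k : O) : SP a b t X k = SP (max a 1) b t X k := by
  classical
  unfold SP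
  refine Finset.sum_congr rfl fun c _ => ?_
  by_cases hp : Prime c
  · have h2 : (2 : ℝ) ≤ N c := by exact_mod_cast Prime.two_le_N hp
    have e : (Prime c ∧ a < (N c : ℝ) ∧ (N c : ℝ) ≤ b) ↔
        (Prime c ∧ max a 1 < (N c : ℝ) ∧ (N c : ℝ) ≤ b) := by
      rw [max_lt_iff]
      constructor
      · rintro ⟨h3, h4, h5⟩; exact ⟨h3, ⟨h4, by linarith⟩, h5⟩
      · rintro ⟨h3, h4, h5⟩; exact ⟨h3, h4.1, h5⟩
    by_cases h : Prime c ∧ a < (N c : ℝ) ∧ (N c : ℝ) ≤ b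
    · rw [if_pos h, if_pos (e.1 h)]
    · rw [if_neg h, if_neg (fun h' => h (e.2 h'))]
  · rw [if_neg (fun h => hp h.1), if_neg (fun h => hp h.1)]

theorem SP_empty {a b t X : ℝ} (h : b ≤ a) (k : O) : SP a b t X k = 0 := by
  classical
  unfold SP
  refine Finset.sum_eq_zero fun c _ => if_neg ?_
  rintro ⟨_, h2, h3⟩
  linarith

theorem norm_SP_le {a b t X : ℝ} (hX : 1 ≤ X) (k : O) : ‖SP a b t X k‖ ≤ 4 * X ^ 2 := by
  classical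
  unfold SP
  refine (norm_sum_le _ _).trans ?_
  have h1 : ∀ c ∈ PB X, ‖(if Prime c ∧ a < (N c : ℝ) ∧ (N c : ℝ) ≤ b then
      (Real.log (N c) : ℂ) * (toC (sym k c) * ee t c) else 0)‖ ≤ X := by
    intro c hc
    rw [mem_PB] at hc
    split_ifs
    · have hN := hc.1.one_le_N'
      rw [norm_mul, norm_mul, norm_ee, mul_one, Complex.norm_real,
        Real.norm_of_nonneg (Real.log_nonneg hN)]
      have h2 := norm_toC_sym_le k c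
      have h3 : Real.log (N c) ≤ X := by
        have := Real.log_le_sub_one_of_pos (show (0 : ℝ) < N c by linarith)
        linarith [hc.2]
      calc Real.log (N c) * ‖toC (sym k c)‖ ≤ X * 1 := by gcongr
        _ = X := mul_one X
    · rw [norm_zero]; linarith
  refine (Finset.sum_le_sum h1).trans ?_
  rw [Finset.sum_const, nsmul_eq_mul]
  have := card_PB_le (show 0 ≤ X by linarith)
  nlinarith

/-! ### Exponents -/

theorem ble {B a b : ℝ} (hB : 1 ≤ B) (h : a ≤ b) : B ^ a ≤ B ^ b :=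
  Real.rpow_le_rpow_of_exponent_le hB h

theorem pow_third {P : ℝ} (hP : 1 ≤ P) {s : ℝ} : P ^ s = P ^ (s - 1 / 3) * P ^ (1 / 3 : ℝ) := by
  rw [← Real.rpow_add (by linarith)]; congr 1; ring

/-- first term -/
theorem ex1 {θ B P : ℝ} (hθ : 0 < θ) (hB : 1 ≤ B) (hP : 1 ≤ P) :
    B ^ (θ / 1000) * (((B ^ (-(θ / 16))) ^ 8)⁻¹ * (B ^ (2 - θ) * P ^ (1 / 3 : ℝ))) ≤
      B ^ (2 - θ / 50) * P ^ (1 / 3 : ℝ) := by
  have hB0 : 0 < B := by linarith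
  have e1 : ((B ^ (-(θ / 16))) ^ 8)⁻¹ = B ^ (θ / 2) := by
    rw [← Real.rpow_natCast, ← Real.rpow_mul hB0.le, ← Real.rpow_neg hB0.le]
    congr 1; push_cast; ring
  rw [e1, ← mul_assoc, ← mul_assoc, ← Real.rpow_add hB0, ← Real.rpow_add hB0]
  have : 0 ≤ P ^ (1 / 3 : ℝ) := by positivity
  exact mul_le_mul_of_nonneg_right (ble hB (by linarith)) this

/-- second term -/
theorem ex2 {θ B P H : ℝ} (hθ : 0 < θ) (hθ1 : θ ≤ 1 / 100) (hB : 1 ≤ B) (hP : 1 ≤ P)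
    (hPB : P ≤ B ^ (1 + θ / 100)) (hH : 1 ≤ H) (hHB : H ≤ B ^ (1 + θ / 100)) :
    B ^ (θ / 1000) * (((B ^ (-(θ / 16))) ^ 8)⁻¹ * (P ^ (1 + θ / 1000) * (B ^ (4 * (1 / 50 : ℝ)) *
      H ^ (1 + θ / 1000)))) ≤ B ^ (2 - θ / 50) * P ^ (1 / 3 : ℝ) := by
  have hB0 : 0 < B := by linarith
  have e1 : ((B ^ (-(θ / 16))) ^ 8)⁻¹ = B ^ (θ / 2) := by
    rw [← Real.rpow_natCast, ← Real.rpow_mul hB0.le, ← Real.rpow_neg hB0.le]
    congr 1; push_cast; ring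
  have e2 : P ^ (1 + θ / 1000 - 1 / 3) ≤ B ^ (0.67 : ℝ) := by
    calc P ^ (1 + θ / 1000 - 1 / 3) ≤ (B ^ (1 + θ / 100)) ^ (1 + θ / 1000 - 1 / 3) :=
          Real.rpow_le_rpow (by linarith) hPB (by linarith)
      _ = B ^ ((1 + θ / 100) * (1 + θ / 1000 - 1 / 3)) := by rw [← Real.rpow_mul hB0.le]
      _ ≤ _ := ble hB (by nlinarith)
  have e3 : H ^ (1 + θ / 1000) ≤ B ^ (1.01 : ℝ) := by
    calc H ^ (1 + θ / 1000) ≤ (B ^ (1 + θ / 100)) ^ (1 + θ / 1000) :=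
          Real.rpow_le_rpow (by linarith) hHB (by linarith)
      _ = B ^ ((1 + θ / 100) * (1 + θ / 1000)) := by rw [← Real.rpow_mul hB0.le]
      _ ≤ _ := ble hB (by nlinarith)
  rw [e1, pow_third hP (s := 1 + θ / 1000)]
  calc B ^ (θ / 1000) * (B ^ (θ / 2) * (P ^ (1 + θ / 1000 - 1 / 3) * P ^ (1 / 3 : ℝ) *
        (B ^ (4 * (1 / 50 : ℝ)) * H ^ (1 + θ / 1000))))
      ≤ B ^ (θ / 1000) * (B ^ (θ / 2) * (B ^ (0.67 : ℝ) * P ^ (1 / 3 : ℝ) *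
        (B ^ (4 * (1 / 50 : ℝ)) * B ^ (1.01 : ℝ)))) := by gcongr
    _ = B ^ (θ / 1000 + (θ / 2 + (0.67 + (4 * (1 / 50 : ℝ) + 1.01)))) * P ^ (1 / 3 : ℝ) := by
        rw [Real.rpow_add hB0, Real.rpow_add hB0, Real.rpow_add hB0, Real.rpow_add hB0]
        ring
    _ ≤ _ := by
        have : 0 ≤ P ^ (1 / 3 : ℝ) := by positivity
        exact mul_le_mul_of_nonneg_right (ble hB (by linarith)) this

/-- third term -/
theorem ex3 {θ B P : ℝ} (hθ : 0 < θ) (hθ1 : θ ≤ 1 / 100) (hB : 1 ≤ B) (hP : 1 ≤ P)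
    (hPB : P ≤ B ^ (1 + θ / 100)) :
    B ^ (θ / 1000) * ((B * P) ^ (θ / 1000) * (P + B * P ^ (1 / 3 : ℝ) + (B * P) ^ (2 / 3 : ℝ)) *
      (B ^ (-(θ / 16)) * B)) ≤ 3 * (B ^ (2 - θ / 50) * P ^ (1 / 3 : ℝ)) := by
  have hB0 : 0 < B := by linarith
  have hP0 : 0 < P := by linarith
  have hPt : 0 ≤ P ^ (1 / 3 : ℝ) := by positivity
  have e0 : (B * P) ^ (θ / 1000) ≤ B ^ (3 * θ / 1000) := by
    calc (B * P) ^ (θ / 1000) ≤ (B * B ^ (1 + θ / 100)) ^ (θ / 1000) := by gcongr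
      _ = B ^ ((2 + θ / 100) * (θ / 1000)) := by
          nth_rewrite 1 [← Real.rpow_one B]
          rw [← Real.rpow_add hB0, ← Real.rpow_mul hB0.le]; congr 1; ring
      _ ≤ _ := ble hB (by nlinarith)
  have e1 : P ≤ B ^ (0.68 : ℝ) * P ^ (1 / 3 : ℝ) := by
    calc P = P ^ (1 : ℝ) := (Real.rpow_one P).symm
      _ = P ^ ((1 : ℝ) - 1 / 3) * P ^ (1 / 3 : ℝ) := pow_third hP
      _ ≤ (B ^ (1 + θ / 100)) ^ ((1 : ℝ) - 1 / 3) * P ^ (1 / 3 : ℝ) := by gcongr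
      _ = B ^ ((1 + θ / 100) * ((1 : ℝ) - 1 / 3)) * P ^ (1 / 3 : ℝ) := by
          rw [← Real.rpow_mul hB0.le]
      _ ≤ _ := mul_le_mul_of_nonneg_right (ble hB (by linarith)) hPt
  have e2 : (B * P) ^ (2 / 3 : ℝ) ≤ B ^ (1 + θ / 300) * P ^ (1 / 3 : ℝ) := by
    calc (B * P) ^ (2 / 3 : ℝ) = B ^ (2 / 3 : ℝ) * (P ^ (2 / 3 - 1 / 3 : ℝ) * P ^ (1 / 3 : ℝ)) := by
          rw [Real.mul_rpow hB0.le hP0.le, pow_third hP]
      _ ≤ B ^ (2 / 3 : ℝ) * ((B ^ (1 + θ / 100)) ^ (2 / 3 - 1 / 3 : ℝ) * P ^ (1 / 3 : ℝ)) := by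
          gcongr
      _ = B ^ (2 / 3 + (1 + θ / 100) * (2 / 3 - 1 / 3 : ℝ)) * P ^ (1 / 3 : ℝ) := by
          rw [← Real.rpow_mul hB0.le, Real.rpow_add hB0]; ring
      _ ≤ _ := mul_le_mul_of_nonneg_right (ble hB (by linarith)) hPt
  have e3 : P + B * P ^ (1 / 3 : ℝ) + (B * P) ^ (2 / 3 : ℝ) ≤
      3 * (B ^ (1 + θ / 300) * P ^ (1 / 3 : ℝ)) := by
    have h1 : B ^ (0.68 : ℝ) * P ^ (1 / 3 : ℝ) ≤ B ^ (1 + θ / 300) * P ^ (1 / 3 : ℝ) :=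
      mul_le_mul_of_nonneg_right (ble hB (by linarith)) hPt
    have h2 : B * P ^ (1 / 3 : ℝ) ≤ B ^ (1 + θ / 300) * P ^ (1 / 3 : ℝ) := by
      refine mul_le_mul_of_nonneg_right ?_ hPt
      calc B = B ^ (1 : ℝ) := (Real.rpow_one B).symm
        _ ≤ _ := ble hB (by linarith)
    linarith
  calc _ ≤ B ^ (θ / 1000) * (B ^ (3 * θ / 1000) * (3 * (B ^ (1 + θ / 300) * P ^ (1 / 3 : ℝ))) *
        (B ^ (-(θ / 16)) * B)) := by gcongr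
    _ = 3 * ((B ^ (θ / 1000) * B ^ (3 * θ / 1000) * B ^ (1 + θ / 300) * B ^ (-(θ / 16)) *
        B ^ (1 : ℝ)) * P ^ (1 / 3 : ℝ)) := by
        rw [Real.rpow_one]
        ring
    _ = 3 * (B ^ (θ / 1000 + 3 * θ / 1000 + (1 + θ / 300) + -(θ / 16) + 1) *
        P ^ (1 / 3 : ℝ)) := by
        rw [← Real.rpow_add hB0, ← Real.rpow_add hB0, ← Real.rpow_add hB0, ← Real.rpow_add hB0]
    _ ≤ _ := by
        have := mul_le_mul_of_nonneg_right (ble hB (show θ / 1000 + 3 * θ / 1000 + (1 + θ / 300) +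
          -(θ / 16) + 1 ≤ 2 - θ / 50 by linarith)) hPt
        linarith

/-- fourth term -/
theorem ex4 {θ B P : ℝ} (hθ : 0 < θ) (hθ1 : θ ≤ 1 / 100) (hB : 1 ≤ B) (hP : 1 ≤ P)
    (hPB : P ≤ B ^ (1 + θ / 100)) :
    B ^ (θ / 1000) * (P ^ (1 + θ / 1000) * B) ≤ B ^ (2 - θ / 50) * P ^ (1 / 3 : ℝ) := by
  have hB0 : 0 < B := by linarith
  have e2 : P ^ (1 + θ / 1000 - 1 / 3) ≤ B ^ (0.67 : ℝ) := by
    calc P ^ (1 + θ / 1000 - 1 / 3) ≤ (B ^ (1 + θ / 100)) ^ (1 + θ / 1000 - 1 / 3) :=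
          Real.rpow_le_rpow (by linarith) hPB (by linarith)
      _ = B ^ ((1 + θ / 100) * (1 + θ / 1000 - 1 / 3)) := by rw [← Real.rpow_mul hB0.le]
      _ ≤ _ := ble hB (by nlinarith)
  rw [pow_third hP (s := 1 + θ / 1000)]
  calc B ^ (θ / 1000) * (P ^ (1 + θ / 1000 - 1 / 3) * P ^ (1 / 3 : ℝ) * B)
      ≤ B ^ (θ / 1000) * (B ^ (0.67 : ℝ) * P ^ (1 / 3 : ℝ) * B) := by gcongr
    _ = B ^ (θ / 1000 + (0.67 + 1)) * P ^ (1 / 3 : ℝ) := by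
        rw [Real.rpow_add hB0, Real.rpow_add hB0, Real.rpow_one]
        ring
    _ ≤ _ := by
        have : 0 ≤ P ^ (1 / 3 : ℝ) := by positivity
        exact mul_le_mul_of_nonneg_right (ble hB (by linarith)) this

/-- **core theorem** -/
theorem cen4_core {θ CD CE CT : ℝ} (hθ : 0 < θ) (hθ1 : θ ≤ 1 / 100) (hCD : 0 ≤ CD) (hCE : 0 ≤ CE)
    (hCT : 0 ≤ CT) : ∃ C : ℝ, 0 ≤ C ∧
    ∀ (ι : Type) (T : Finset ι) (κ : ι → O) (R P : ℝ), 1 ≤ R → 1 ≤ P → P ≤ R ^ (1 + θ / 100) →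
      (∀ i ∈ T, κ i ≠ 0 ∧ (N (κ i) : ℝ) ≤ R ^ (1 + θ / 100)) →
      (12 ≤ R → ∀ i ∈ T, 1 < DEC.cond (κ i)) →
      ((T.card : ℝ) ≤ CT * P ^ (1 + θ / 1000)) →
      (12 ≤ R → ProdT T κ (12 * R) (1 / 50) (CD * ((12 * R) ^ (2 - θ) * P ^ (1 / 3 : ℝ)))) →
      LsT T κ (6 * R) (CE * ((12 * R * P) ^ (θ / 1000) *
        (P + 12 * R * P ^ (1 / 3 : ℝ) + (12 * R * P) ^ (2 / 3 : ℝ)))) →
      ∀ (a b t : ℝ), b ≤ R →
      ∑ i ∈ T, ‖SP a b t R (κ i)‖ ^ 2 ≤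
        C * (1 + |t|) ^ 6 * (R ^ (2 - θ / 50) * P ^ (1 / 3 : ℝ)) := by
  classical
  obtain ⟨C1, hC1, h1⟩ := primes_bound (ε := θ / 1000) (by positivity)
  refine ⟨144 * (C1 * (CD + CT + 3 * CE + CT)) + CT * 576 ^ 2 * 12 ^ 3, by positivity, ?_⟩
  intro ι T κ R P hR hP hPR hκ hcond hcard hProd hLs a b t hb
  have hR0 : 0 < R := by linarith
  have hP0 : 0 < P := by linarith
  have ht : 1 ≤ (1 + |t|) ^ 6 := one_le_pow₀ (by linarith [abs_nonneg t])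
  have hRe : 1 ≤ R ^ (2 - θ / 50) := Real.one_le_rpow hR (by linarith)
  have hPt : 1 ≤ P ^ (1 / 3 : ℝ) := Real.one_le_rpow hP (by norm_num)
  have hmain0 : 0 ≤ R ^ (2 - θ / 50) * P ^ (1 / 3 : ℝ) := by positivity
  by_cases hR12 : R < 12
  · -- trivial bound
    have hcard2 : (T.card : ℝ) ≤ CT * 12 ^ 3 := by
      refine hcard.trans ?_
      gcongr
      calc P ^ (1 + θ / 1000) ≤ ((12 : ℝ) ^ (1 + θ / 100)) ^ (1 + θ / 1000) := by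
            apply Real.rpow_le_rpow hP0.le _ (by linarith)
            exact hPR.trans (Real.rpow_le_rpow hR0.le hR12.le (by linarith))
        _ = (12 : ℝ) ^ ((1 + θ / 100) * (1 + θ / 1000)) := by rw [← Real.rpow_mul (by norm_num)]
        _ ≤ (12 : ℝ) ^ (3 : ℝ) := ble (by norm_num) (by nlinarith)
        _ = 12 ^ 3 := by norm_num
    have h2 : ∀ i ∈ T, ‖SP a b t R (κ i)‖ ^ 2 ≤ 576 ^ 2 := by
      intro i _
      apply pow_le_pow_left₀ (norm_nonneg _)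
      refine (norm_SP_le hR (κ i)).trans ?_
      nlinarith
    have h3 : ∑ i ∈ T, ‖SP a b t R (κ i)‖ ^ 2 ≤ CT * 12 ^ 3 * 576 ^ 2 := by
      refine (Finset.sum_le_sum h2).trans ?_
      rw [Finset.sum_const, nsmul_eq_mul]
      gcongr
    refine h3.trans ?_
    have h4 : 1 ≤ (1 + |t|) ^ 6 * (R ^ (2 - θ / 50) * P ^ (1 / 3 : ℝ)) := by
      calc (1 : ℝ) = 1 * (1 * 1) := by norm_num
        _ ≤ _ := by gcongr
    calc CT * 12 ^ 3 * 576 ^ 2 = (CT * 576 ^ 2 * 12 ^ 3) * 1 := by ring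
      _ ≤ (144 * (C1 * (CD + CT + 3 * CE + CT)) + CT * 576 ^ 2 * 12 ^ 3) *
          ((1 + |t|) ^ 6 * (R ^ (2 - θ / 50) * P ^ (1 / 3 : ℝ))) := by
          gcongr
          have : 0 ≤ 144 * (C1 * (CD + CT + 3 * CE + CT)) := by positivity
          linarith
      _ = _ := by ring
  push Not at hR12
  by_cases hab : max a 1 ≤ b
  swap
  · push Not at hab
    have : ∀ i ∈ T, ‖SP a b t R (κ i)‖ ^ 2 = 0 := by
      intro i _
      rw [SP_max, SP_empty hab.le]; simp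
    rw [Finset.sum_eq_zero this]
    positivity
  obtain ⟨B, hBdef⟩ : ∃ B : ℝ, B = 12 * R := ⟨_, rfl⟩
  have hB6 : 6 * R = B / 2 := by rw [hBdef]; ring
  rw [← hBdef, hB6] at hLs
  rw [← hBdef] at hProd
  have hB4 : 4 ≤ B := by linarith
  have hB1 : 1 ≤ B := by linarith
  have hB0 : 0 < B := by linarith
  have hRB : R ≤ B := by linarith
  have hPB : P ≤ B ^ (1 + θ / 100) := hPR.trans (Real.rpow_le_rpow hR0.le hRB (by linarith))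
  obtain ⟨H, hHdef⟩ : ∃ H : ℝ, H = B ^ (1 + θ / 100) := ⟨_, rfl⟩
  have hH1 : 1 ≤ H := by rw [hHdef]; exact Real.one_le_rpow hB1 (by linarith)
  have hκ' : ∀ i ∈ T, κ i ≠ 0 ∧ 1 < DEC.cond (κ i) ∧ (N (κ i) : ℝ) ≤ H := by
    intro i hi
    refine ⟨(hκ i hi).1, hcond hR12 i hi, (hκ i hi).2.trans ?_⟩
    rw [hHdef]
    exact Real.rpow_le_rpow hR0.le hRB (by linarith)
  have hΔ : 0 < B ^ (-(θ / 16)) := by positivity
  have hΔ1 : B ^ (-(θ / 16)) ≤ 1 := by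
    calc B ^ (-(θ / 16)) ≤ B ^ (0 : ℝ) := ble hB1 (by linarith)
      _ = 1 := Real.rpow_zero B
  have hE0 : 0 ≤ CE * ((B * P) ^ (θ / 1000) *
        (P + B * P ^ (1 / 3 : ℝ) + (B * P) ^ (2 / 3 : ℝ))) := by positivity
  have key := h1 ι T κ B (1 / 50) (CD * (B ^ (2 - θ) * P ^ (1 / 3 : ℝ))) H _ hB4 (by norm_num)
    (by norm_num) hκ' (hProd hR12) hE0 hLs (B ^ (-(θ / 16))) (max a 1) b t hΔ hΔ1
    (ble hB1 (by linarith)) (le_max_right _ _) hab (by linarith)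
  have e1 : ∑ i ∈ T, ‖SP a b t R (κ i)‖ ^ 2 = ∑ i ∈ T, ‖SP (max a 1) b t (B / 2) (κ i)‖ ^ 2 := by
    refine Finset.sum_congr rfl fun i _ => ?_
    rw [SP_max, SP_X hb (by linarith : b ≤ B / 2)]
  rw [e1]
  refine key.trans ?_
  obtain ⟨M, hM⟩ : ∃ M : ℝ, M = B ^ (2 - θ / 50) * P ^ (1 / 3 : ℝ) := ⟨_, rfl⟩
  have x1 := ex1 hθ hB1 hP
  have x2 := ex2 hθ hθ1 hB1 hP hPB hH1 (le_of_eq hHdef)
  have x3 := ex3 hθ hθ1 hB1 hP hPB
  have x4 := ex4 hθ hθ1 hB1 hP hPB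
  rw [← hM] at x1 x2 x3 x4
  have hM2 : M ≤ 144 * (R ^ (2 - θ / 50) * P ^ (1 / 3 : ℝ)) := by
    rw [hM, hBdef, Real.mul_rpow (by norm_num) hR0.le]
    have : (12 : ℝ) ^ (2 - θ / 50) ≤ 144 := by
      calc (12 : ℝ) ^ (2 - θ / 50) ≤ (12 : ℝ) ^ (2 : ℝ) := ble (by norm_num) (by linarith)
        _ = 144 := by norm_num
    calc _ = (12 : ℝ) ^ (2 - θ / 50) * (R ^ (2 - θ / 50) * P ^ (1 / 3 : ℝ)) := by ring
      _ ≤ _ := by gcongr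
  have hsum : B ^ (θ / 1000) * (((B ^ (-(θ / 16))) ^ 8)⁻¹ *
      (CD * (B ^ (2 - θ) * P ^ (1 / 3 : ℝ)) +
        T.card * (B ^ (4 * (1 / 50 : ℝ)) * H ^ (1 + θ / 1000))) +
      CE * ((B * P) ^ (θ / 1000) * (P + B * P ^ (1 / 3 : ℝ) + (B * P) ^ (2 / 3 : ℝ))) *
        (B ^ (-(θ / 16)) * B) + T.card * B) ≤ (CD + CT + 3 * CE + CT) * M := by
    have y1 : B ^ (θ / 1000) * (((B ^ (-(θ / 16))) ^ 8)⁻¹ *
        (T.card * (B ^ (4 * (1 / 50 : ℝ)) * H ^ (1 + θ / 1000)))) ≤ CT * M := by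
      calc _ ≤ B ^ (θ / 1000) * (((B ^ (-(θ / 16))) ^ 8)⁻¹ *
            ((CT * P ^ (1 + θ / 1000)) * (B ^ (4 * (1 / 50 : ℝ)) * H ^ (1 + θ / 1000)))) := by
            gcongr
        _ = CT * (B ^ (θ / 1000) * (((B ^ (-(θ / 16))) ^ 8)⁻¹ *
            (P ^ (1 + θ / 1000) * (B ^ (4 * (1 / 50 : ℝ)) * H ^ (1 + θ / 1000))))) := by ring
        _ ≤ CT * M := by gcongr
    have y2 : B ^ (θ / 1000) * (T.card * B) ≤ CT * M := by
      calc _ ≤ B ^ (θ / 1000) * ((CT * P ^ (1 + θ / 1000)) * B) := by gcongr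
        _ = CT * (B ^ (θ / 1000) * (P ^ (1 + θ / 1000) * B)) := by ring
        _ ≤ CT * M := by gcongr
    have y3 := mul_le_mul_of_nonneg_left x1 hCD
    have y4 := mul_le_mul_of_nonneg_left x3 hCE
    calc _ = CD * (B ^ (θ / 1000) * (((B ^ (-(θ / 16))) ^ 8)⁻¹ *
          (B ^ (2 - θ) * P ^ (1 / 3 : ℝ)))) +
          B ^ (θ / 1000) * (((B ^ (-(θ / 16))) ^ 8)⁻¹ *
            (T.card * (B ^ (4 * (1 / 50 : ℝ)) * H ^ (1 + θ / 1000)))) +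
          CE * (B ^ (θ / 1000) * ((B * P) ^ (θ / 1000) *
            (P + B * P ^ (1 / 3 : ℝ) + (B * P) ^ (2 / 3 : ℝ)) * (B ^ (-(θ / 16)) * B))) +
          B ^ (θ / 1000) * (T.card * B) := by ring
      _ ≤ CD * M + CT * M + CE * (3 * M) + CT * M := by gcongr
      _ = _ := by ring
  calc _ ≤ C1 * (1 + |t|) ^ 6 * ((CD + CT + 3 * CE + CT) * M) := by gcongr
    _ ≤ C1 * (1 + |t|) ^ 6 * ((CD + CT + 3 * CE + CT) *
        (144 * (R ^ (2 - θ / 50) * P ^ (1 / 3 : ℝ)))) := by gcongr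
    _ = (144 * (C1 * (CD + CT + 3 * CE + CT))) * (1 + |t|) ^ 6 *
        (R ^ (2 - θ / 50) * P ^ (1 / 3 : ℝ)) := by ring
    _ ≤ _ := by
        gcongr
        have : 0 ≤ CT * 576 ^ 2 * 12 ^ 3 := by positivity
        linarith

end Vale.Agent.P006.H6
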