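import Vale.Agent.P006.H6.TypeII

/-!
# P006, block CEN4 (helper6): dyadic decomposition of the Type II sum; the smooth theorem
-/

open MeasureTheory Filter Topology Function Set
open scoped FourierTransform Real ContDiff

namespace Vale.Agent.P006.H6

open Vale.Agent.P006 Finset

/-- telescoping of dyadic indicators -/
theorem sum_dyad {M : Type*} [AddCommMonoid M] {V' : ℝ} (hV : 0 < V') (x : ℝ) (c : M) (J : ℕ) :
    ∑ j ∈ range J, (if 2 ^ j * V' < x ∧ x ≤ 2 ^ (j + 1) * V' then c else 0) =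
      if V' < x ∧ x ≤ 2 ^ J * V' then c else 0 := by
  induction J with
  | zero =>
    rw [range_zero, sum_empty, if_neg]
    rintro ⟨h1, h2⟩
    rw [pow_zero, one_mul] at h2
    linarith
  | succ J ih =>
    rw [sum_range_succ, ih]
    have h1 : V' ≤ 2 ^ J * V' := le_mul_of_one_le_left hV.le (one_le_pow₀ (by norm_num))
    have h2 : 2 ^ J * V' ≤ 2 ^ (J + 1) * V' := by
      rw [pow_succ]
      have : (0 : ℝ) < 2 ^ J * V' := by positivity
      nlinarith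
    by_cases ha : V' < x
    · by_cases hb : x ≤ 2 ^ J * V'
      · rw [if_pos ⟨ha, hb⟩, if_neg (fun h => by linarith [h.1]), if_pos ⟨ha, hb.trans h2⟩, add_zero]
      · push Not at hb
        rw [if_neg (fun h => by linarith [h.2]), zero_add]
        by_cases hc : x ≤ 2 ^ (J + 1) * V'
        · rw [if_pos ⟨hb, hc⟩, if_pos ⟨ha, hc⟩]
        · rw [if_neg (fun h => hc h.2), if_neg (fun h => hc h.2)]
    · push Not at ha
      rw [if_neg (fun h => by linarith [h.1]), if_neg (fun h => by linarith [h.1]),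
        if_neg (fun h => by linarith [h.1]), add_zero]

/-- the Type II sum -/
noncomputable def TII (V : ℝ → ℂ) (τ Y X U V' : ℝ) (k : O) : ℂ :=
  ∑ l ∈ PB X, (if V' < (N l : ℝ) then
    (Lam l : ℂ) * ∑ n ∈ PB X, aU U n * wk V τ Y k (l * n) else 0)

/-- a dyadic block of the Type II sum -/
noncomputable def Blk (V : ℝ → ℂ) (τ Y X U V' : ℝ) (j : ℕ) (k : O) : ℂ :=
  ∑ l ∈ PB (2 ^ (j + 1) * V'), (if 2 ^ j * V' < (N l : ℝ) ∧ (N l : ℝ) ≤ X then (Lam l : ℂ) else 0) *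
    ∑ n ∈ PB (X / (2 ^ j * V')), aU U n * wk V τ Y k (l * n)

theorem TII_eq {V : ℝ → ℂ} {τ Y X U V' : ℝ} (hV' : 1 ≤ V') (k : O)
    (hs : ∀ n, Primary n → X < N n → V (N n / Y) = 0) {J : ℕ} (hJ : X ≤ 2 ^ J * V') :
    TII V τ Y X U V' k = ∑ j ∈ range J, Blk V τ Y X U V' j k := by
  classical
  have hV0 : 0 < V' := by linarith
  unfold TII Blk
  have h1 : ∀ l ∈ PB X, (if V' < (N l : ℝ) then
      (Lam l : ℂ) * ∑ n ∈ PB X, aU U n * wk V τ Y k (l * n) else 0) =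
      ∑ j ∈ range J, (if 2 ^ j * V' < (N l : ℝ) ∧ (N l : ℝ) ≤ 2 ^ (j + 1) * V' then
        (Lam l : ℂ) * ∑ n ∈ PB X, aU U n * wk V τ Y k (l * n) else 0) := by
    intro l hl
    rw [mem_PB] at hl
    rw [sum_dyad hV0]
    by_cases h : V' < (N l : ℝ)
    · rw [if_pos h, if_pos ⟨h, hl.2.trans hJ⟩]
    · rw [if_neg h, if_neg (fun h' => h h'.1)]
  rw [Finset.sum_congr rfl h1, Finset.sum_comm]
  refine Finset.sum_congr rfl fun j _ => ?_
  have hp : (0 : ℝ) < 2 ^ j * V' := by positivity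
  have hp1 : (1 : ℝ) ≤ 2 ^ j * V' := by
    have : (1 : ℝ) ≤ 2 ^ j := one_le_pow₀ (by norm_num)
    nlinarith
  -- inner sums
  have h2 : ∀ l, Primary l → 2 ^ j * V' < (N l : ℝ) → ∑ n ∈ PB X, aU U n * wk V τ Y k (l * n) =
      ∑ n ∈ PB (X / (2 ^ j * V')), aU U n * wk V τ Y k (l * n) := by
    intro l hl hlj
    symm
    apply Finset.sum_subset
    · intro n hn
      rw [mem_PB] at hn ⊢
      refine ⟨hn.1, hn.2.trans ?_⟩
      have h3 : (1 : ℝ) ≤ X / (2 ^ j * V') := hn.1.one_le_N'.trans hn.2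
      rw [le_div_iff₀ hp] at h3
      exact div_le_self (by linarith) hp1
    · intro n hn hn'
      rw [mem_PB] at hn hn'
      have h3 : X / (2 ^ j * V') < N n := by
        by_contra h
        exact hn' ⟨hn.1, not_lt.1 h⟩
      rw [div_lt_iff₀ hp] at h3
      have h4 : X < (N (l * n) : ℝ) := by
        rw [N_mul]; push_cast
        have h5 : (0 : ℝ) < N n := by linarith [hn.1.one_le_N']
        nlinarith
      rw [wk, wt_zero_of (hs _ (hl.mul hn.1) h4), mul_zero, mul_zero]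
  -- combine through a common index set
  have e1 : ∑ l ∈ PB X, (if 2 ^ j * V' < (N l : ℝ) ∧ (N l : ℝ) ≤ 2 ^ (j + 1) * V' then
        (Lam l : ℂ) * ∑ n ∈ PB X, aU U n * wk V τ Y k (l * n) else 0) =
      ∑ l ∈ (PB X).filter (fun l => 2 ^ j * V' < (N l : ℝ) ∧ (N l : ℝ) ≤ 2 ^ (j + 1) * V'),
        (Lam l : ℂ) * ∑ n ∈ PB (X / (2 ^ j * V')), aU U n * wk V τ Y k (l * n) := by
    rw [sum_filter]
    refine Finset.sum_congr rfl fun l hl => ?_
    rw [mem_PB] at hl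
    by_cases h : 2 ^ j * V' < (N l : ℝ) ∧ (N l : ℝ) ≤ 2 ^ (j + 1) * V'
    · rw [if_pos h, if_pos h, h2 l hl.1 h.1]
    · rw [if_neg h, if_neg h]
  have e2 : ∑ l ∈ PB (2 ^ (j + 1) * V'),
      (if 2 ^ j * V' < (N l : ℝ) ∧ (N l : ℝ) ≤ X then (Lam l : ℂ) else 0) *
        ∑ n ∈ PB (X / (2 ^ j * V')), aU U n * wk V τ Y k (l * n) =
      ∑ l ∈ (PB (2 ^ (j + 1) * V')).filter (fun l => 2 ^ j * V' < (N l : ℝ) ∧ (N l : ℝ) ≤ X),
        (Lam l : ℂ) * ∑ n ∈ PB (X / (2 ^ j * V')), aU U n * wk V τ Y k (l * n) := by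
    rw [sum_filter]
    refine Finset.sum_congr rfl fun l _ => ?_
    split_ifs <;> simp
  rw [e1, e2]
  refine Finset.sum_congr ?_ fun _ _ => rfl
  ext l
  rw [Finset.mem_filter, Finset.mem_filter, mem_PB, mem_PB]
  tauto

theorem sum_sq_add_le {ι : Type*} (T : Finset ι) (f g : ι → ℂ) :
    ∑ i ∈ T, ‖f i + g i‖ ^ 2 ≤ 2 * ∑ i ∈ T, ‖f i‖ ^ 2 + 2 * ∑ i ∈ T, ‖g i‖ ^ 2 := by
  rw [mul_sum, mul_sum, ← Finset.sum_add_distrib]
  refine Finset.sum_le_sum fun i _ => ?_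
  have h1 := norm_add_le (f i) (g i)
  have h2 := norm_nonneg (f i + g i)
  nlinarith [sq_nonneg (‖f i‖ - ‖g i‖)]

theorem sum_sq_sum_le {ι : Type*} (T : Finset ι) (J : ℕ) (f : ℕ → ι → ℂ) {A : ℝ}
    (h : ∀ j ∈ range J, ∑ i ∈ T, ‖f j i‖ ^ 2 ≤ A) :
    ∑ i ∈ T, ‖∑ j ∈ range J, f j i‖ ^ 2 ≤ (J : ℝ) ^ 2 * A := by
  have h1 : ∀ i ∈ T, ‖∑ j ∈ range J, f j i‖ ^ 2 ≤ J * ∑ j ∈ range J, ‖f j i‖ ^ 2 := by
    intro i _
    have h2 : ‖∑ j ∈ range J, f j i‖ ≤ ∑ j ∈ range J, ‖f j i‖ := norm_sum_le _ _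
    have h3 := sq_sum_le_card_mul_sum_sq (s := range J) (f := fun j => ‖f j i‖)
    rw [card_range] at h3
    exact (pow_le_pow_left₀ (norm_nonneg _) h2 2).trans h3
  calc ∑ i ∈ T, ‖∑ j ∈ range J, f j i‖ ^ 2 ≤ ∑ i ∈ T, J * ∑ j ∈ range J, ‖f j i‖ ^ 2 :=
        Finset.sum_le_sum h1
    _ = J * ∑ j ∈ range J, ∑ i ∈ T, ‖f j i‖ ^ 2 := by rw [← mul_sum, Finset.sum_comm]
    _ ≤ J * ∑ j ∈ range J, A := by
        gcongr with j hj
        exact h j hj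
    _ = (J : ℝ) ^ 2 * A := by rw [sum_const, card_range, nsmul_eq_mul]; ring

/-- number of dyadic blocks -/
theorem exists_J {ε : ℝ} (hε : 0 < ε) : ∃ C : ℝ, 0 ≤ C ∧ ∀ X : ℝ, 1 ≤ X → ∃ J : ℕ,
    X ≤ 2 ^ J ∧ (J : ℝ) ≤ C * X ^ ε := by
  refine ⟨2 / ε + 1, by positivity, fun X hX => ⟨⌊Real.logb 2 X⌋₊ + 1, ?_, ?_⟩⟩
  · have h1 : Real.logb 2 X < (⌊Real.logb 2 X⌋₊ + 1 : ℕ) := by
      push_cast; exact Nat.lt_floor_add_one _
    have h2 : X = 2 ^ (Real.logb 2 X) :=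
      (Real.rpow_logb (by norm_num) (by norm_num) (by linarith)).symm
    calc X = 2 ^ (Real.logb 2 X) := h2
      _ ≤ 2 ^ (((⌊Real.logb 2 X⌋₊ + 1 : ℕ) : ℝ)) :=
          Real.rpow_le_rpow_of_exponent_le (by norm_num) h1.le
      _ = _ := Real.rpow_natCast _ _
  · push_cast
    have h0 : 0 ≤ Real.logb 2 X := Real.logb_nonneg (by norm_num) hX
    have h1 : (⌊Real.logb 2 X⌋₊ : ℝ) ≤ Real.logb 2 X := Nat.floor_le h0
    have h2 : Real.logb 2 X ≤ 2 * Real.log X := by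
      rw [Real.logb, div_le_iff₀ (Real.log_pos (by norm_num))]
      have h3 : (1 / 2 : ℝ) ≤ Real.log 2 := by
        have := Real.log_two_gt_d9; linarith
      have h4 := Real.log_nonneg hX
      nlinarith
    have h3 : Real.log X ≤ X ^ ε / ε := Real.log_le_rpow_div (by linarith) hε
    have h4 : 1 ≤ X ^ ε := Real.one_le_rpow hX hε.le
    calc (⌊Real.logb 2 X⌋₊ : ℝ) + 1 ≤ 2 * (X ^ ε / ε) + X ^ ε := by linarith
      _ = _ := by ring

/-- **Type II bound** -/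
theorem typeII_total {V : ℝ → ℂ} (hV : W0 V) {ε : ℝ} (hε : 0 < ε) : ∃ C : ℝ, 0 ≤ C ∧
    ∀ (ι : Type) (T : Finset ι) (κ : ι → O) (B d D : ℝ), 2 ≤ B → 0 ≤ d → d ≤ 1 / 2 →
      ProdT T κ B d D → ∀ (τ Y : ℝ), 0 < Y → (∀ n, Primary n → B / 2 < N n → V (N n / Y) = 0) →
      ∑ i ∈ T, ‖TII V τ Y (B / 2) (B ^ d) (B ^ d) (κ i)‖ ^ 2 ≤ C * (B ^ ε * D) := by
  classical
  obtain ⟨C1, hC1, h1⟩ := bilinear_sep hV
  have hε6 : 0 < ε / 6 := by positivity
  obtain ⟨C2, hC2, h2⟩ := exists_tau_le hε6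
  obtain ⟨C3, hC3, h3⟩ := exists_J hε6
  refine ⟨C3 ^ 2 * (C1 * ((1 / (ε / 6)) * C2) ^ 2), by positivity,
    fun ι T κ B d D hB hd0 hd hP τ Y hY hs => ?_⟩
  have hB1 : 1 ≤ B := by linarith
  have hX1 : 1 ≤ B / 2 := by linarith
  have hD := hP.nonneg hB1 hd
  have hBd : 1 ≤ B ^ d := Real.one_le_rpow hB1 hd0
  obtain ⟨J, hJ1, hJ2⟩ := h3 (B / 2) hX1
  have hX6 : (B / 2) ^ (ε / 6) ≤ B ^ (ε / 6) := Real.rpow_le_rpow (by linarith) (by linarith) hε6.le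
  have hBε : 1 ≤ B ^ (ε / 6) := Real.one_le_rpow hB1 hε6.le
  have hJ3 : (J : ℝ) ≤ C3 * B ^ (ε / 6) := hJ2.trans (by gcongr)
  have hblk : ∀ j ∈ range J, ∑ i ∈ T, ‖Blk V τ Y (B / 2) (B ^ d) (B ^ d) j (κ i)‖ ^ 2 ≤
      C1 * ((((1 / (ε / 6)) * B ^ (ε / 6)) * (C2 * B ^ (ε / 6))) ^ 2 * D) := by
    intro j _
    have hp1 : (1 : ℝ) ≤ 2 ^ j * B ^ d := by
      have : (1 : ℝ) ≤ 2 ^ j := one_le_pow₀ (by norm_num)
      nlinarith
    have hp : (0 : ℝ) < 2 ^ j * B ^ d := by linarith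
    by_cases hM2 : B ^ d ≤ B / 2 / (2 ^ j * B ^ d)
    · refine h1 ι T κ B d D hP hD (2 ^ (j + 1) * B ^ d) (B / 2 / (2 ^ j * B ^ d)) τ Y ?_ hM2 ?_ hY
        _ _ (by positivity) (by positivity) _ _ ?_ ?_
      · exact le_mul_of_one_le_left (by linarith) (one_le_pow₀ (by norm_num))
      · apply le_of_eq
        rw [pow_succ]
        field_simp
      · intro l hl
        rw [mem_PB] at hl
        split_ifs with h
        · rw [Complex.norm_real, Real.norm_of_nonneg (Lam_nonneg l)]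
          have h4 := hl.1.one_le_N'
          refine (Lam_le hl.1).trans ((Real.log_le_rpow_div (by linarith) hε6).trans ?_)
          rw [one_div, inv_mul_eq_div]
          gcongr
          linarith [h.2]
        · simp; positivity
      · intro n hn
        rw [mem_PB] at hn
        refine (norm_aU_le _ _).trans ((h2 n hn.1).trans ?_)
        gcongr
        refine hn.2.trans (div_le_self (by linarith) hp1 |>.trans (by linarith))
    · -- the block vanishes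
      push Not at hM2
      have hz : ∀ i ∈ T, ‖Blk V τ Y (B / 2) (B ^ d) (B ^ d) j (κ i)‖ ^ 2 = 0 := by
        intro i _
        have : Blk V τ Y (B / 2) (B ^ d) (B ^ d) j (κ i) = 0 := by
          unfold Blk
          apply Finset.sum_eq_zero
          intro l _
          rw [Finset.sum_eq_zero, mul_zero]
          intro n hn
          rw [mem_PB] at hn
          rw [aU_eq_zero hn.1 (hn.2.trans hM2.le), zero_mul]
        rw [this]; simp
      rw [Finset.sum_eq_zero hz]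
      positivity
  have h5 := sum_sq_sum_le T J (fun j i => Blk V τ Y (B / 2) (B ^ d) (B ^ d) j (κ i)) hblk
  have h6 : ∑ i ∈ T, ‖TII V τ Y (B / 2) (B ^ d) (B ^ d) (κ i)‖ ^ 2 =
      ∑ i ∈ T, ‖∑ j ∈ range J, Blk V τ Y (B / 2) (B ^ d) (B ^ d) j (κ i)‖ ^ 2 := by
    refine Finset.sum_congr rfl fun i _ => ?_
    rw [TII_eq hBd (κ i) hs (J := J) (hJ1.trans (le_mul_of_one_le_right (by positivity) hBd))]
  rw [h6]
  refine h5.trans ?_
  have h7 : (B ^ (ε / 6)) ^ 6 = B ^ ε := by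
    rw [← Real.rpow_natCast, ← Real.rpow_mul (by linarith)]
    congr 1
    push_cast
    ring
  calc (J : ℝ) ^ 2 * (C1 * ((((1 / (ε / 6)) * B ^ (ε / 6)) * (C2 * B ^ (ε / 6))) ^ 2 * D))
      ≤ (C3 * B ^ (ε / 6)) ^ 2 *
        (C1 * ((((1 / (ε / 6)) * B ^ (ε / 6)) * (C2 * B ^ (ε / 6))) ^ 2 * D)) := by
        gcongr
    _ = C3 ^ 2 * (C1 * ((1 / (ε / 6)) * C2) ^ 2) * ((B ^ (ε / 6)) ^ 6 * D) := by ring
    _ = _ := by rw [h7]

end Vale.Agent.P006.H6
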