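import Vale.Agent.P006.H485.PV
import Mathlib.Analysis.SpecialFunctions.Gaussian.FourierTransform

/-!
# P006, block CEN4 (helper6): complex Gaussian weights `exp(-s N(x))`, `Re s > 0`

`PVW w C`: smooth Polya-Vinogradov inequality for the weight `w` with constant `C`.
Main result: `pvw_gauss : PVW (fun x => exp (-s N x)) (C₀ * ‖s‖ / Re s)`.
-/

open MeasureTheory Filter Topology Function Set
open scoped FourierTransform Real ComplexConjugate

namespace Vale.Agent.P006.H6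

open PO

/-- the complex Gaussian `z ↦ exp(-s |z|²)` -/
noncomputable def gw (s : ℂ) (z : ℂ) : ℂ := Complex.exp (-s * (‖z‖ : ℂ) ^ 2)

theorem norm_gw (s z : ℂ) : ‖gw s z‖ = Real.exp (-s.re * ‖z‖ ^ 2) := by
  rw [gw, Complex.norm_exp]
  congr 1
  have h : ((‖z‖ : ℂ)) ^ 2 = ((‖z‖ ^ 2 : ℝ) : ℂ) := by push_cast; rfl
  rw [h, Complex.re_mul_ofReal, Complex.neg_re]

theorem gw_toC (s : ℂ) (x : O) : gw s (toC x) = Complex.exp (-s * (N x : ℂ)) := by
  rw [gw]
  have := N_eq_sq_norm x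
  congr 2
  exact_mod_cast this.symm

theorem continuous_gw (s : ℂ) : Continuous (gw s) := by
  unfold gw; fun_prop

/-- `(1+x)^3 exp(-a x²)` is bounded -/
theorem exp_bound {a : ℝ} (ha : 0 < a) : ∃ C : ℝ, ∀ x : ℝ, 0 ≤ x →
    (1 + x) ^ 3 * Real.exp (-a * x ^ 2) ≤ C := by
  refine ⟨8 * (1 + 1 / a ^ 2) * 2, fun x hx => ?_⟩
  have h1 : Real.exp (-a * x ^ 2) ≤ 1 := Real.exp_le_one_iff.2 (by nlinarith [sq_nonneg x])
  have h2 : (a * x ^ 2) ^ 2 / 2 * Real.exp (-a * x ^ 2) ≤ 1 := by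
    have h3 := Real.quadratic_le_exp_of_nonneg (show 0 ≤ a * x ^ 2 by positivity)
    have h4 : (a * x ^ 2) ^ 2 / 2 ≤ Real.exp (a * x ^ 2) := by nlinarith [sq_nonneg x]
    calc (a * x ^ 2) ^ 2 / 2 * Real.exp (-a * x ^ 2) ≤
        Real.exp (a * x ^ 2) * Real.exp (-a * x ^ 2) := by gcongr
      _ = 1 := by rw [← Real.exp_add]; simp
  have h0 : 0 ≤ Real.exp (-a * x ^ 2) := (Real.exp_pos _).le
  have h5 : (1 + x) ^ 3 ≤ 8 * (1 + x ^ 4) := by nlinarith [sq_nonneg (x - 1), sq_nonneg (x ^ 2 - x), sq_nonneg (x^2 - 1), mul_nonneg hx (sq_nonneg (x - 1))]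
  have h6 : x ^ 4 * Real.exp (-a * x ^ 2) ≤ 2 / a ^ 2 := by
    rw [le_div_iff₀ (by positivity)]
    nlinarith
  calc (1 + x) ^ 3 * Real.exp (-a * x ^ 2) ≤ 8 * (1 + x ^ 4) * Real.exp (-a * x ^ 2) := by gcongr
    _ = 8 * (Real.exp (-a * x ^ 2) + x ^ 4 * Real.exp (-a * x ^ 2)) := by ring
    _ ≤ 8 * (1 + 2 / a ^ 2) := by gcongr
    _ ≤ 8 * (1 + 1 / a ^ 2) * 2 := by
        have : 2 / a ^ 2 = 2 * (1 / a ^ 2) := by ring
        rw [this]; nlinarith

theorem dec_gw {s : ℂ} (hs : 0 < s.re) : Dec (gw s) := by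
  obtain ⟨C, hC⟩ := exp_bound hs
  refine ⟨C, fun z => ?_⟩
  rw [norm_gw]
  exact hC _ (norm_nonneg z)

theorem FT_gw {s : ℂ} (hs : 0 < s.re) (y : ℂ) :
    FT (gw s) y = (π / s) * gw (4 * π ^ 2 / s) y := by
  rw [FT_eq_fourier]
  have h := fourier_gaussian_innerProductSpace (V := ℂ) hs (2 * conj y)
  unfold gw
  rw [h, Complex.finrank_real_complex]
  congr 1
  · norm_num
  · congr 1
    rw [norm_mul, Complex.norm_conj]
    simp
    ring

theorem re_inv_pos {s : ℂ} (hs : 0 < s.re) : 0 < (4 * π ^ 2 / s : ℂ).re := by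
  have h1 : (4 * π ^ 2 / s : ℂ) = ((4 * π ^ 2 : ℝ) : ℂ) * s⁻¹ := by push_cast; rw [div_eq_mul_inv]
  rw [h1, Complex.re_ofReal_mul, Complex.inv_re]
  have h2 : 0 < Complex.normSq s := Complex.normSq_pos.2 (by rintro rfl; simp at hs)
  positivity

theorem re_inv_eq (s : ℂ) : (4 * π ^ 2 / s : ℂ).re = 4 * π ^ 2 * s.re / ‖s‖ ^ 2 := by
  have h1 : (4 * π ^ 2 / s : ℂ) = ((4 * π ^ 2 : ℝ) : ℂ) * s⁻¹ := by push_cast; rw [div_eq_mul_inv]
  rw [h1, Complex.re_ofReal_mul, Complex.inv_re, Complex.normSq_eq_norm_sq]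
  ring

theorem dec_FT_gw {s : ℂ} (hs : 0 < s.re) : Dec (FT (gw s)) := by
  obtain ⟨C, hC⟩ := dec_gw (re_inv_pos hs)
  refine ⟨‖(π / s : ℂ)‖ * C, fun z => ?_⟩
  rw [FT_gw hs, norm_mul]
  calc (1 + ‖z‖) ^ 3 * (‖(π / s : ℂ)‖ * ‖gw (4 * π ^ 2 / s) z‖)
      = ‖(π / s : ℂ)‖ * ((1 + ‖z‖) ^ 3 * ‖gw (4 * π ^ 2 / s) z‖) := by ring
    _ ≤ _ := by gcongr; exact hC z

/-! ### The theta series of `O` -/

/-- `Σ_x exp(-a N x)` -/
noncomputable def th (a : ℝ) : ℝ := ∑' x : O, Real.exp (-a * N x)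

theorem summable_exp {a : ℝ} (ha : 0 < a) : Summable fun x : O => Real.exp (-a * N x) := by
  have h := (dec_summable_O (dec_gw (s := (a : ℂ)) (by simpa using ha))).norm
  refine h.congr fun x => ?_
  rw [norm_gw, N_eq_sq_norm, Complex.ofReal_re]

theorem isResSys_one : IsResSys 1 {0} := by
  intro x
  exact ⟨0, ⟨by simp, one_dvd _⟩, fun y hy => by simpa using hy.1⟩

theorem th_poisson {a : ℝ} (ha : 0 < a) :
    th a = 2 * π / (Real.sqrt 3 * a) * th (4 * π ^ 2 / (3 * a)) := by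
  have hs : 0 < ((a : ℂ)).re := by simpa using ha
  have h := poisson_per (continuous_gw a) (dec_gw hs) (dec_FT_gw hs) (one_ne_zero (α := O))
    isResSys_one (ψ := fun _ => 1) (fun _ _ => rfl)
  have e1 : (∑' x : O, (1 : ℂ) * gw a (toC x)) = (th a : ℂ) := by
    rw [th, Complex.ofReal_tsum]
    refine tsum_congr fun x => ?_
    rw [gw_toC]
    push_cast
    rw [one_mul]
  rw [e1] at h
  have e2 : (fun h : O => (2 / (Real.sqrt 3 * N 1) : ℂ) *
        (GS 1 {0} (fun _ => 1) h * FT (gw a) (toC h / (toC rt3 * toC 1)))) =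
      fun h : O => ((2 * π / (Real.sqrt 3 * a) : ℝ) : ℂ) *
        ((Real.exp (-(4 * π ^ 2 / (3 * a)) * N h) : ℝ) : ℂ) := by
    funext h
    have e3 : GS 1 {0} (fun _ => 1) h = 1 := by simp [GS, eT, e]
    rw [e3, FT_gw hs, gw]
    have e4 : (‖toC h / (toC rt3 * toC 1)‖ : ℂ) ^ 2 = (N h : ℂ) / 3 := by
      have : ‖toC h / (toC rt3 * toC 1)‖ ^ 2 = (N h : ℝ) / 3 := by
        rw [norm_div, norm_mul, div_pow, mul_pow, ← N_eq_sq_norm, ← N_eq_sq_norm, ← N_eq_sq_norm,
          N_rt3]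
        simp
      rw [← Complex.ofReal_pow, this]
      push_cast; rfl
    rw [e4]
    have ha' : (a : ℂ) ≠ 0 := by exact_mod_cast ha.ne'
    have h3 : (Real.sqrt 3 : ℂ) ≠ 0 := by
      exact_mod_cast (Real.sqrt_pos.2 (by norm_num : (0 : ℝ) < 3)).ne'
    push_cast
    rw [one_mul, ← mul_assoc]
    congr 1
    · rw [N_one]; push_cast; field_simp
    · congr 1
      field_simp
  rw [e2] at h
  have h2 := h.tsum_eq
  rw [tsum_mul_left, ← Complex.ofReal_tsum] at h2
  have h3 : ((2 * π / (Real.sqrt 3 * a) : ℝ) : ℂ) * (th (4 * π ^ 2 / (3 * a)) : ℂ) = (th a : ℂ) := h2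
  exact_mod_cast h3.symm

theorem th_nonneg (a : ℝ) : 0 ≤ th a := tsum_nonneg fun _ => (Real.exp_pos _).le

/-- the sum over nonzero elements -/
theorem tsum_ne_zero_le {a : ℝ} (ha : 0 < a) :
    ∑' x : O, (if x = 0 then 0 else Real.exp (-a * N x)) ≤ 4 * th 1 / a := by
  have hsum : Summable fun x : O => (if x = 0 then 0 else Real.exp (-a * N x)) := by
    refine Summable.of_nonneg_of_le (fun x => ?_) (fun x => ?_) (summable_exp ha)
    · split_ifs <;> positivity
    · split_ifs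
      · positivity
      · exact le_rfl
  have hth := th_nonneg 1
  have hpi := Real.pi_gt_three
  by_cases h1 : a ≤ 1
  · have h2 : ∑' x : O, (if x = 0 then 0 else Real.exp (-a * N x)) ≤ th a := by
      refine hsum.tsum_le_tsum (fun x => ?_) (summable_exp ha)
      split_ifs
      · positivity
      · exact le_rfl
    have h3 : th (4 * π ^ 2 / (3 * a)) ≤ th 1 := by
      have h4 : 1 ≤ 4 * π ^ 2 / (3 * a) := by
        rw [le_div_iff₀ (by positivity)]; nlinarith
      refine (summable_exp (by positivity)).tsum_le_tsum (fun x => ?_) (summable_exp one_pos)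
      apply Real.exp_le_exp.2
      have : (0 : ℝ) ≤ N x := by positivity
      nlinarith
    have h5 : 2 * π / (Real.sqrt 3 * a) ≤ 4 / a := by
      rw [div_le_div_iff₀ (by positivity) ha]
      have h6 : (1.7 : ℝ) ≤ Real.sqrt 3 := by
        apply Real.le_sqrt_of_sq_le; norm_num
      have h7 := Real.pi_lt_d2
      nlinarith
    calc _ ≤ th a := h2
      _ = 2 * π / (Real.sqrt 3 * a) * th (4 * π ^ 2 / (3 * a)) := th_poisson ha
      _ ≤ 4 / a * th 1 := mul_le_mul h5 h3 (th_nonneg _) (by positivity)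
      _ = 4 * th 1 / a := by ring
  · push Not at h1
    have h2 : ∀ x : O, (if x = 0 then 0 else Real.exp (-a * N x)) ≤
        Real.exp (1 - a) * Real.exp (-1 * N x) := by
      intro x
      split_ifs with hx
      · positivity
      · rw [← Real.exp_add]
        apply Real.exp_le_exp.2
        have : (1 : ℝ) ≤ N x := by exact_mod_cast N_pos hx
        nlinarith
    have h3 : Real.exp (1 - a) ≤ 4 / a := by
      rw [le_div_iff₀ ha]
      have h4 : a ≤ Real.exp (a - 1) := by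
        have := Real.add_one_le_exp (a - 1); linarith
      have h5 : Real.exp (1 - a) * Real.exp (a - 1) = 1 := by
        rw [← Real.exp_add]; simp
      nlinarith [Real.exp_pos (1 - a)]
    calc _ ≤ ∑' x : O, Real.exp (1 - a) * Real.exp (-1 * N x) :=
          hsum.tsum_le_tsum h2 ((summable_exp one_pos).mul_left _)
      _ = Real.exp (1 - a) * th 1 := by rw [tsum_mul_left, th]
      _ ≤ 4 / a * th 1 := by gcongr
      _ = 4 * th 1 / a := by ring

/-! ### Polya-Vinogradov for Gaussian weights -/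

/-- absolute constant -/
noncomputable def C0 : ℝ := 8 * th 1

theorem C0_nonneg : 0 ≤ C0 := by
  have := th_nonneg 1
  unfold C0; positivity

/-- the weight `exp(-s N x)` -/
noncomputable def ew (s : ℂ) (x : O) : ℂ := Complex.exp (-s * (N x : ℂ))

theorem pvw_gauss {s : ℂ} (hs : 0 < s.re) : PVW (ew s) (C0 * (‖s‖ / s.re)) := by
  have hs0 : s ≠ 0 := by rintro rfl; simp at hs
  have hsn : 0 < ‖s‖ := norm_pos_iff.2 hs0
  refine ⟨?_, ?_⟩
  · refine (dec_summable_O (dec_gw hs)).norm.congr fun x => ?_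
    rw [gw_toC, ew]
  intro q S ψ G hq hS hψ h0 hG
  have hG0 : 0 ≤ G := (norm_nonneg _).trans (hG 0)
  have hNq : (0 : ℝ) < N q := by exact_mod_cast N_pos hq
  have h := poisson_per (continuous_gw s) (dec_gw hs) (dec_FT_gw hs) hq hS hψ
  simp only [gw_toC] at h
  have e0 : (∑' x : O, ψ x * ew s x) = ∑' x : O, ψ x * Complex.exp (-s * (N x : ℂ)) := rfl
  rw [e0, ← h.tsum_eq]
  set a : ℝ := 4 * π ^ 2 * s.re / (3 * N q * ‖s‖ ^ 2) with ha
  have ha0 : 0 < a := by rw [ha]; positivity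
  have hb : ∀ h : O, ‖(2 / (Real.sqrt 3 * N q) : ℂ) *
      (GS q S ψ h * FT (gw s) (toC h / (toC rt3 * toC q)))‖ ≤
      2 * π * G / (Real.sqrt 3 * N q * ‖s‖) * (if h = 0 then 0 else Real.exp (-a * N h)) := by
    intro h
    split_ifs with hh
    · rw [hh, h0]; simp
    · rw [norm_mul, norm_mul, FT_gw hs, norm_mul, norm_gw, re_inv_eq]
      have e1 : ‖(2 / (Real.sqrt 3 * N q) : ℂ)‖ = 2 / (Real.sqrt 3 * N q) := by
        have : (2 / (Real.sqrt 3 * N q) : ℂ) = ((2 / (Real.sqrt 3 * N q) : ℝ) : ℂ) := by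
          push_cast; rfl
        rw [this, Complex.norm_real, Real.norm_of_nonneg (by positivity)]
      have e2 : ‖(π / s : ℂ)‖ = π / ‖s‖ := by
        rw [norm_div, Complex.norm_real, Real.norm_of_nonneg Real.pi_pos.le]
      have e3 : ‖toC h / (toC rt3 * toC q)‖ ^ 2 = (N h : ℝ) / (3 * N q) := by
        rw [norm_div, norm_mul, div_pow, mul_pow, ← N_eq_sq_norm, ← N_eq_sq_norm, ← N_eq_sq_norm,
          N_rt3]
        push_cast; ring
      have e4 : -(4 * π ^ 2 * s.re / ‖s‖ ^ 2) * ((N h : ℝ) / (3 * N q)) = -a * N h := by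
        rw [ha]; field_simp
      rw [e1, e2, e3, e4]
      calc 2 / (Real.sqrt 3 * N q) * (‖GS q S ψ h‖ * (π / ‖s‖ * Real.exp (-a * N h))) ≤
          2 / (Real.sqrt 3 * N q) * (G * (π / ‖s‖ * Real.exp (-a * N h))) := by
            gcongr; exact hG h
        _ = _ := by field_simp
  have hsum : Summable fun x : O => (if x = 0 then 0 else Real.exp (-a * N x)) := by
    refine Summable.of_nonneg_of_le (fun x => ?_) (fun x => ?_) (summable_exp ha0)
    · split_ifs <;> positivity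
    · split_ifs
      · positivity
      · exact le_rfl
  have h1 := tsum_of_norm_bounded (hsum.mul_left _).hasSum hb
  refine h1.trans ?_
  rw [tsum_mul_left]
  have h2 := tsum_ne_zero_le ha0
  calc 2 * π * G / (Real.sqrt 3 * N q * ‖s‖) * ∑' x : O, (if x = 0 then 0 else Real.exp (-a * N x))
      ≤ 2 * π * G / (Real.sqrt 3 * N q * ‖s‖) * (4 * th 1 / a) := by gcongr
    _ = 6 / (Real.sqrt 3 * π) * th 1 * (‖s‖ / s.re) * G := by
        rw [ha]; field_simp; ring
    _ ≤ C0 * (‖s‖ / s.re) * G := by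
        have h3 : 6 / (Real.sqrt 3 * π) ≤ 8 := by
          rw [div_le_iff₀ (by positivity)]
          have h6 : (1 : ℝ) ≤ Real.sqrt 3 := by
            apply Real.le_sqrt_of_sq_le; norm_num
          have h7 := Real.pi_gt_three
          nlinarith
        have hth := th_nonneg 1
        unfold C0
        gcongr

end Vale.Agent.P006.H6
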