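import Mathlib

/-!
# P006, block CEN4 (helper6): ℓ²-valued integrals (Minkowski)
-/

open MeasureTheory Finset

namespace Vale.Agent.P006.H6

/-- `∑_k ‖∫ μ h_k‖² ≤ (∫‖μ‖)² A` if `∑_k ‖h_k(ξ)‖² ≤ A` for all `ξ` -/
theorem l2_integral {ι : Type*} (S : Finset ι) {μ : ℝ → ℂ} (hμ : Integrable μ) (h : ι → ℝ → ℂ)
    (hc : ∀ k ∈ S, Continuous (h k)) {A : ℝ} (hA : 0 ≤ A)
    (hb : ∀ ξ, ∑ k ∈ S, ‖h k ξ‖ ^ 2 ≤ A) :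
    ∑ k ∈ S, ‖∫ ξ, μ ξ * h k ξ‖ ^ 2 ≤ (∫ ξ, ‖μ ξ‖) ^ 2 * A := by
  classical
  have hk : ∀ k ∈ S, ∀ ξ, ‖h k ξ‖ ≤ Real.sqrt A := by
    intro k hk ξ
    apply Real.le_sqrt_of_sq_le
    exact (single_le_sum (f := fun k => ‖h k ξ‖ ^ 2) (fun _ _ => by positivity) hk).trans (hb ξ)
  have hint : ∀ k ∈ S, Integrable fun ξ => μ ξ * h k ξ := by
    intro k hkS
    exact hμ.mul_bdd (hc k hkS).aestronglyMeasurable (Filter.Eventually.of_forall (hk k hkS))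
  let f : ℝ → EuclideanSpace ℂ S := fun ξ => ∑ k : S, (μ ξ * h k ξ) • EuclideanSpace.single k 1
  have hf : Integrable f := integrable_finsetSum _ fun k _ => (hint k k.2).smul_const _
  have hfk : ∀ (k : S) ξ, (f ξ) k = μ ξ * h k ξ := by
    intro k ξ
    simp [f, Finset.sum_apply, Pi.single_apply]
  have hproj : ∀ k : S, (∫ ξ, f ξ) k = ∫ ξ, μ ξ * h k ξ := by
    intro k
    have h1 := (EuclideanSpace.proj k : EuclideanSpace ℂ S →L[ℂ] ℂ).integral_comp_comm hf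
    have h2 : (EuclideanSpace.proj k : EuclideanSpace ℂ S →L[ℂ] ℂ) (∫ ξ, f ξ) = (∫ ξ, f ξ) k := rfl
    rw [← h2, ← h1]
    congr 1
    funext ξ
    exact hfk k ξ
  have hn : ∀ ξ, ‖f ξ‖ ≤ ‖μ ξ‖ * Real.sqrt A := by
    intro ξ
    rw [EuclideanSpace.norm_eq]
    have h1 : ∑ k : S, ‖(f ξ) k‖ ^ 2 = ‖μ ξ‖ ^ 2 * ∑ k ∈ S, ‖h k ξ‖ ^ 2 := by
      rw [mul_sum, ← sum_coe_sort S]
      refine sum_congr rfl fun k _ => ?_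
      rw [hfk, norm_mul, mul_pow]
    rw [h1]
    calc Real.sqrt (‖μ ξ‖ ^ 2 * ∑ k ∈ S, ‖h k ξ‖ ^ 2) ≤ Real.sqrt (‖μ ξ‖ ^ 2 * A) :=
          Real.sqrt_le_sqrt (by gcongr; exact hb ξ)
      _ = ‖μ ξ‖ * Real.sqrt A := by
          rw [Real.sqrt_mul (by positivity), Real.sqrt_sq (norm_nonneg _)]
  have h2 : ‖∫ ξ, f ξ‖ ≤ (∫ ξ, ‖μ ξ‖) * Real.sqrt A := by
    rw [← integral_mul_const]
    exact norm_integral_le_of_norm_le (hμ.norm.mul_const _) (Filter.Eventually.of_forall hn)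
  have h3 : ∑ k ∈ S, ‖∫ ξ, μ ξ * h k ξ‖ ^ 2 = ‖∫ ξ, f ξ‖ ^ 2 := by
    rw [EuclideanSpace.norm_sq_eq, ← sum_coe_sort S]
    refine sum_congr rfl fun k _ => ?_
    rw [hproj]
  rw [h3]
  calc ‖∫ ξ, f ξ‖ ^ 2 ≤ ((∫ ξ, ‖μ ξ‖) * Real.sqrt A) ^ 2 := by gcongr
    _ = (∫ ξ, ‖μ ξ‖) ^ 2 * A := by rw [mul_pow, Real.sq_sqrt hA]

end Vale.Agent.P006.H6
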