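import Vale.Agent.P006.H6.Dyad

/-!
# P006, block CEN4 (helper6): the smooth theorem; prime powers
-/

open MeasureTheory Filter Topology Function Set
open scoped FourierTransform Real ContDiff

namespace Vale.Agent.P006.H6

open Vale.Agent.P006 Finset

/-- **Smooth theorem.** -/
theorem smooth_total {V : ℝ → ℂ} (hV : W0 V) {R1 : ℝ} (hR1 : 1 ≤ R1) (hVR : ∀ x, R1 < x → V x = 0)
    {ε : ℝ} (hε : 0 < ε) : ∃ C : ℝ, 0 ≤ C ∧
    ∀ (ι : Type) (T : Finset ι) (κ : ι → O) (B d D H : ℝ), 4 ≤ B → 0 ≤ d → d ≤ 1 / 2 →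
      (∀ i ∈ T, κ i ≠ 0 ∧ 1 < DEC.cond (κ i) ∧ (N (κ i) : ℝ) ≤ H) →
      ProdT T κ B d D → ∀ (τ Y : ℝ), 1 ≤ Y → R1 * Y ≤ B / 2 →
      ∑ i ∈ T, ‖∑ c ∈ PB (B / 2), (Lam c : ℂ) * wk V τ Y (κ i) c‖ ^ 2 ≤
        C * (1 + |τ|) ^ 6 * (B ^ ε * (D + T.card * (B ^ (4 * d) * H ^ (1 + ε)))) := by
  classical
  have hε2 : 0 < ε / 2 := by positivity
  obtain ⟨C1, hC1, h1⟩ := typeI_total hV hε2
  obtain ⟨C2, hC2, h2⟩ := typeII_total hV hε
  refine ⟨2 * C1 ^ 2 + 2 * C2, by positivity,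
    fun ι T κ B d D H hB hd0 hd hκ hP τ Y hY hRY => ?_⟩
  have hB1 : 1 ≤ B := by linarith
  have hB0 : 0 < B := by linarith
  have hD := hP.nonneg hB1 hd
  have hBd : 1 ≤ B ^ d := Real.one_le_rpow hB1 hd0
  have hYX : Y ≤ B / 2 := by nlinarith
  have hs : ∀ n, Primary n → B / 2 < N n → V (N n / Y) = 0 := by
    intro n _ hn
    apply hVR
    rw [lt_div_iff₀ (by linarith)]
    linarith
  have hU : B ^ d ≤ B / 2 := by
    have h3 : B ^ d ≤ B ^ (1 / 2 : ℝ) := Real.rpow_le_rpow_of_exponent_le hB1 hd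
    refine h3.trans ?_
    rw [← Real.sqrt_eq_rpow]
    apply Real.sqrt_le_iff.2
    constructor
    · positivity
    · nlinarith
  have hI : ∀ i ∈ T, ‖∑ c ∈ PB (B / 2), (Lam c : ℂ) * wk V τ Y (κ i) c -
      TII V τ Y (B / 2) (B ^ d) (B ^ d) (κ i)‖ ^ 2 ≤
      C1 ^ 2 * (1 + |τ|) ^ 6 * (B ^ ε * (B ^ (4 * d) * H ^ (1 + ε))) := by
    intro i hi
    obtain ⟨hk0, hkc, hkH⟩ := hκ i hi
    have h3 := h1 (κ i) hk0 hkc (B / 2) Y (B ^ d) (B ^ d) τ hY hYX hBd hBd hU hs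
    have hNk : (1 : ℝ) ≤ N (κ i) := by exact_mod_cast N_pos hk0
    have h4 : C1 * (B ^ d * B ^ d * (B / 2) ^ (ε / 2)) * (1 + |τ|) ^ 3 *
        (N (κ i) : ℝ) ^ (1 / 2 + ε / 2) ≤
        C1 * (B ^ d * B ^ d * B ^ (ε / 2)) * (1 + |τ|) ^ 3 * H ^ (1 / 2 + ε / 2) := by
      have : (B / 2) ^ (ε / 2) ≤ B ^ (ε / 2) :=
        Real.rpow_le_rpow (by linarith) (by linarith) hε2.le
      gcongr
    have h5 := pow_le_pow_left₀ (norm_nonneg _) (h3.trans h4) 2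
    refine le_trans (le_of_eq ?_) (h5.trans (le_of_eq ?_))
    · rfl
    · have hH0 : 0 < H := by linarith
      have e1 : (B ^ d) ^ 4 = B ^ (4 * d) := by
        rw [← Real.rpow_natCast, ← Real.rpow_mul hB0.le]; congr 1; push_cast; ring
      have e2 : (B ^ (ε / 2)) ^ 2 = B ^ ε := by
        rw [← Real.rpow_natCast, ← Real.rpow_mul hB0.le]; congr 1; push_cast; ring
      have e3 : (H ^ (1 / 2 + ε / 2)) ^ 2 = H ^ (1 + ε) := by
        rw [← Real.rpow_natCast, ← Real.rpow_mul hH0.le]; congr 1; push_cast; ring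
      rw [← e1, ← e2, ← e3]
      ring
  have hII := h2 ι T κ B d D (by linarith) hd0 hd hP τ Y (by linarith) hs
  have hsum := sum_sq_add_le T (fun i => ∑ c ∈ PB (B / 2), (Lam c : ℂ) * wk V τ Y (κ i) c -
      TII V τ Y (B / 2) (B ^ d) (B ^ d) (κ i)) (fun i => TII V τ Y (B / 2) (B ^ d) (B ^ d) (κ i))
  simp only [sub_add_cancel] at hsum
  have hI' := Finset.sum_le_sum hI
  rw [sum_const, nsmul_eq_mul] at hI'
  have hτ : 1 ≤ (1 + |τ|) ^ 6 := one_le_pow₀ (by linarith [abs_nonneg τ])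
  have hBe : 0 < B ^ ε := by positivity
  refine hsum.trans ?_
  rcases T.eq_empty_or_nonempty with hT | hT
  · subst hT; simp; positivity
  obtain ⟨i0, hi0⟩ := hT
  have hH0 : 0 ≤ H := (Nat.cast_nonneg _).trans (hκ i0 hi0).2.2
  calc _ ≤ 2 * (T.card * (C1 ^ 2 * (1 + |τ|) ^ 6 * (B ^ ε * (B ^ (4 * d) * H ^ (1 + ε))))) +
        2 * (C2 * (B ^ ε * D)) := by gcongr
    _ ≤ 2 * C1 ^ 2 * (1 + |τ|) ^ 6 * (B ^ ε * (T.card * (B ^ (4 * d) * H ^ (1 + ε)))) +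
        2 * C2 * (1 + |τ|) ^ 6 * (B ^ ε * D) := by
        have : 0 ≤ C2 * (B ^ ε * D) := by positivity
        nlinarith
    _ ≤ (2 * C1 ^ 2 + 2 * C2) * (1 + |τ|) ^ 6 *
        (B ^ ε * (D + T.card * (B ^ (4 * d) * H ^ (1 + ε)))) := by
        have h3 : 0 ≤ (1 + |τ|) ^ 6 * (B ^ ε * D) := by positivity
        have h4 : 0 ≤ (1 + |τ|) ^ 6 * (B ^ ε * (T.card * (B ^ (4 * d) * H ^ (1 + ε)))) := by
          positivity
        have h5 : 0 ≤ C1 ^ 2 := by positivity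
        nlinarith [mul_nonneg h5 h3, mul_nonneg hC2 h4]

open Classical in
/-- prime powers which are not primes -/
theorem card_pp_le {X : ℝ} (hX : 1 ≤ X) {J : ℕ} (hJ : X ≤ 2 ^ J) :
    (((PB X).filter (fun c => ¬ Prime c ∧ Lam c ≠ 0)).card : ℝ) ≤ 4 * Real.sqrt X * (J + 1) := by
  classical
  have h1 : (PB X).filter (fun c => ¬ Prime c ∧ Lam c ≠ 0) ⊆
      (PB (Real.sqrt X) ×ˢ range (J + 1)).image (fun pk => pk.1 ^ pk.2) := by
    intro c hc
    rw [Finset.mem_filter, mem_PB] at hc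
    obtain ⟨⟨hcp, hcX⟩, hnp, hL⟩ := hc
    have h2 : ∃ p, H570.PO.IsPP p c := by
      by_contra h
      exact hL (Lam_eq_zero h)
    obtain ⟨p, hpP, hp, k, hk1, rfl⟩ := h2
    have hpp : Primary p := hpP
    have hk2 : 2 ≤ k := by
      rcases hk1.eq_or_lt with h | h
      · subst h; rw [pow_one] at hnp; exact absurd hp hnp
      · exact h
    have hNp : 2 ≤ N p := Prime.two_le_N hp
    have hNpR : (2 : ℝ) ≤ N p := by exact_mod_cast hNp
    rw [N_pow] at hcX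
    push_cast at hcX
    rw [Finset.mem_image]
    refine ⟨(p, k), ?_, rfl⟩
    rw [Finset.mem_product, mem_PB, Finset.mem_range]
    refine ⟨⟨hpp, ?_⟩, ?_⟩
    · apply Real.le_sqrt_of_sq_le
      refine le_trans ?_ hcX
      exact pow_le_pow_right₀ (by linarith) hk2
    · have h3 : (2 : ℝ) ^ k ≤ 2 ^ J :=
        (pow_le_pow_left₀ (by norm_num) hNpR k).trans (hcX.trans hJ)
      have h4 : k ≤ J := by
        by_contra h
        push Not at h
        have := pow_lt_pow_right₀ (show (1 : ℝ) < 2 by norm_num) h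
        linarith
      simp only
      omega
  have h2 : (((PB X).filter (fun c => ¬ Prime c ∧ Lam c ≠ 0)).card : ℝ) ≤
      ((PB (Real.sqrt X) ×ˢ range (J + 1)).card : ℝ) := by
    exact_mod_cast (Finset.card_le_card h1).trans Finset.card_image_le
  refine h2.trans ?_
  rw [Finset.card_product, card_range]
  push_cast
  have := card_PB_le (Real.sqrt_nonneg X)
  gcongr

open Classical in
theorem sum_nonprime_Lam {ε : ℝ} (hε : 0 < ε) : ∃ C : ℝ, 0 ≤ C ∧ ∀ X : ℝ, 1 ≤ X →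
    ∑ c ∈ PB X, (if Prime c then 0 else Lam c) ≤ C * X ^ (1 / 2 + ε) := by
  classical
  have hε2 : 0 < ε / 2 := by positivity
  obtain ⟨C3, hC3, h3⟩ := exists_J hε2
  refine ⟨4 * (C3 + 1) * (1 / (ε / 2)), by positivity, fun X hX => ?_⟩
  obtain ⟨J, hJ1, hJ2⟩ := h3 X hX
  have h1 : ∑ c ∈ PB X, (if Prime c then 0 else Lam c) =
      ∑ c ∈ (PB X).filter (fun c => ¬ Prime c ∧ Lam c ≠ 0), Lam c := by
    rw [sum_filter]
    refine Finset.sum_congr rfl fun c _ => ?_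
    by_cases hc : Prime c
    · rw [if_pos hc, if_neg (fun h => h.1 hc)]
    · by_cases hL : Lam c = 0
      · rw [if_neg hc, if_neg (fun h => h.2 hL), hL]
      · rw [if_neg hc, if_pos ⟨hc, hL⟩]
  rw [h1]
  have h2 : ∀ c ∈ (PB X).filter (fun c => ¬ Prime c ∧ Lam c ≠ 0), Lam c ≤ X ^ (ε / 2) / (ε / 2) := by
    intro c hc
    rw [Finset.mem_filter, mem_PB] at hc
    refine (Lam_le hc.1.1).trans ((Real.log_le_log (by linarith [hc.1.1.one_le_N']) hc.1.2).trans ?_)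
    exact Real.log_le_rpow_div (by linarith) hε2
  refine (Finset.sum_le_sum h2).trans ?_
  rw [sum_const, nsmul_eq_mul]
  have h4 := card_pp_le hX hJ1
  have h5 : 1 ≤ X ^ (ε / 2) := Real.one_le_rpow hX hε2.le
  calc _ ≤ (4 * Real.sqrt X * (C3 * X ^ (ε / 2) + X ^ (ε / 2))) * (X ^ (ε / 2) / (ε / 2)) := by
        gcongr
        refine h4.trans ?_
        gcongr
    _ = 4 * (C3 + 1) * (1 / (ε / 2)) * (Real.sqrt X * (X ^ (ε / 2) * X ^ (ε / 2))) := by ring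
    _ = 4 * (C3 + 1) * (1 / (ε / 2)) * X ^ (1 / 2 + ε) := by
        rw [Real.sqrt_eq_rpow, ← Real.rpow_add (by linarith), ← Real.rpow_add (by linarith)]
        congr 2
        ring

end Vale.Agent.P006.H6
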