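import Vale.Agent.P006.H6.Sharp
import Vale.Agent.P006.H845.Sieve

/-!
# P006, block CEN4 (helper6): sums over primes in sharp intervals, abstract family
-/

open MeasureTheory Filter Topology Function Set
open scoped Real

namespace Vale.Agent.P006.H6

open Vale.Agent.P006

open Classical in
/-- number of primary elements with `|log N c - α| < Δ` -/
theorem card_near {α Δ X : ℝ} (hα : 0 ≤ α) (hΔ : 0 < Δ) (hΔ1 : Δ ≤ 1) :
    (((PB X).filter (fun c => |Real.log (N c) - α| < Δ)).card : ℝ) ≤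
      2 * Δ * Real.exp α + 48 * Real.sqrt (Real.exp α) := by
  have h1 : (PB X).filter (fun c => |Real.log (N c) - α| < Δ) ⊆
      PB (Real.exp (α + Δ)) \ PB (Real.exp (α - Δ)) := by
    intro c hc
    rw [Finset.mem_filter, mem_PB] at hc
    have hN : (0 : ℝ) < N c := by linarith [hc.1.1.one_le_N']
    have h2 := abs_lt.1 hc.2
    rw [Finset.mem_sdiff, mem_PB, mem_PB]
    constructor
    · refine ⟨hc.1.1, ?_⟩
      rw [← Real.log_le_iff_le_exp hN]
      linarith [h2.2]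
    · rintro ⟨_, h3⟩
      rw [← Real.log_le_iff_le_exp hN] at h3
      linarith [h2.1]
  have h2 : PB (Real.exp (α - Δ)) ⊆ PB (Real.exp (α + Δ)) :=
    PB_mono (Real.exp_le_exp.2 (by linarith))
  have h3 := Finset.card_le_card h1
  have h4 := Finset.card_sdiff_of_subset h2
  have h5 := Finset.card_le_card h2
  have h6 : (((PB X).filter (fun c => |Real.log (N c) - α| < Δ)).card : ℝ) ≤
      (PB (Real.exp (α + Δ))).card - (PB (Real.exp (α - Δ))).card := by
    rw [← Nat.cast_sub h5, ← h4]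
    exact_mod_cast h3
  have h7 := abs_le.1 (card_PB_sub_le (Real.exp_pos (α + Δ)).le)
  have h8 := abs_le.1 (card_PB_sub_le (Real.exp_pos (α - Δ)).le)
  have hE : 1 ≤ Real.exp α := Real.one_le_exp hα
  have hup : Real.exp (α + Δ) ≤ Real.exp α * (1 + 2 * Δ) := by
    rw [Real.exp_add]
    gcongr
    have h9 := Real.abs_exp_sub_one_sub_id_le (x := Δ) (by rw [abs_of_pos hΔ]; exact hΔ1)
    have h10 := (abs_le.1 h9).2
    nlinarith
  have hlo : Real.exp α * (1 - Δ) ≤ Real.exp (α - Δ) := by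
    rw [show α - Δ = α + -Δ by ring, Real.exp_add]
    gcongr
    have := Real.add_one_le_exp (-Δ)
    linarith
  have hs1 : Real.sqrt (Real.exp (α + Δ)) ≤ 2 * Real.sqrt (Real.exp α) := by
    rw [show (2 : ℝ) * Real.sqrt (Real.exp α) = Real.sqrt (4 * Real.exp α) by
      rw [Real.sqrt_mul (by norm_num), show (4 : ℝ) = 2 ^ 2 by norm_num,
        Real.sqrt_sq (by norm_num)]]
    apply Real.sqrt_le_sqrt
    nlinarith
  have hs2 : Real.sqrt (Real.exp (α - Δ)) ≤ Real.sqrt (Real.exp α) :=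
    Real.sqrt_le_sqrt (Real.exp_le_exp.2 (by linarith))
  have hs3 : 1 ≤ Real.sqrt (Real.exp α) := Real.one_le_sqrt.2 hE
  have hk := kap_le
  have hk0 := kap_pos
  have hdiff : Real.exp (α + Δ) - Real.exp (α - Δ) ≤ 3 * Δ * Real.exp α := by nlinarith
  have hdiff0 : 0 ≤ Real.exp (α + Δ) - Real.exp (α - Δ) := by
    have := Real.exp_le_exp.2 (show α - Δ ≤ α + Δ by linarith)
    linarith
  have h9 : kap * (Real.exp (α + Δ) - Real.exp (α - Δ)) ≤ 1 / 2 * (3 * Δ * Real.exp α) := by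
    gcongr
  have h10 : 0 ≤ Δ * Real.exp α := by positivity
  linarith [h7.2, h8.1]

/-- the large sieve hypothesis for a family -/
def LsT {ι : Type*} (T : Finset ι) (κ : ι → O) (X E : ℝ) : Prop :=
  ∀ γ : O → ℂ, ∑ i ∈ T, ‖∑ r ∈ SPB X, γ r * toC (sym (κ i) r)‖ ^ 2 ≤ E * ∑ r ∈ SPB X, ‖γ r‖ ^ 2

open Classical in
/-- the sum over primes in `(a, b]` -/
noncomputable def SP (a b t X : ℝ) (k : O) : ℂ :=
  ∑ c ∈ PB X, if Prime c ∧ a < (N c : ℝ) ∧ (N c : ℝ) ≤ b then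
    (Real.log (N c) : ℂ) * (toC (sym k c) * ee t c) else 0

open Classical in
/-- the difference coefficient at primes -/
noncomputable def fp (Δ α β t : ℝ) (c : O) : ℂ :=
  if Prime c then ee t c * ((Real.log (N c) *
    ((if α < Real.log (N c) ∧ Real.log (N c) ≤ β then (1 : ℝ) else 0) -
      Wf Δ α β (Real.log (N c))) : ℝ) : ℂ) else 0

open Classical in
/-- the difference coefficient at non-primes -/
noncomputable def fn (Δ α β t : ℝ) (c : O) : ℂ :=
  if Prime c then 0 else ee t c * ((Lam c * Wf Δ α β (Real.log (N c)) : ℝ) : ℂ)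

theorem SP_eq {a b : ℝ} (ha : 1 ≤ a) (hab : a ≤ b) (Δ t X : ℝ) (k : O) :
    SP a b t X k = SmS Δ (Real.log a) (Real.log b) t X k +
      (∑ c ∈ PB X, fp Δ (Real.log a) (Real.log b) t c * toC (sym k c) +
        (-∑ c ∈ PB X, fn Δ (Real.log a) (Real.log b) t c * toC (sym k c))) := by
  classical
  unfold SP SmS
  rw [← Finset.sum_neg_distrib, ← Finset.sum_add_distrib, ← Finset.sum_add_distrib]
  refine Finset.sum_congr rfl fun c hc => ?_
  rw [mem_PB] at hc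
  have hN : (0 : ℝ) < N c := by linarith [hc.1.one_le_N']
  have e1 : (Real.log a < Real.log (N c) ∧ Real.log (N c) ≤ Real.log b) ↔
      (a < (N c : ℝ) ∧ (N c : ℝ) ≤ b) := by
    rw [Real.log_lt_log_iff (by linarith) hN, Real.log_le_log_iff hN (by linarith)]
  unfold fp fn
  by_cases hp : Prime c
  · rw [if_pos hp, if_pos hp, Lam_prime hp hc.1]
    by_cases hi : a < (N c : ℝ) ∧ (N c : ℝ) ≤ b
    · rw [if_pos ⟨hp, hi⟩, if_pos (e1.2 hi)]
      push_cast
      ring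
    · rw [if_neg (fun h => hi h.2), if_neg (fun h => hi (e1.1 h))]
      push_cast
      ring
  · rw [if_neg hp, if_neg hp, if_neg (fun h => hp h.1)]
    push_cast
    ring

open Classical in
theorem norm_fp_le {Δ α β t : ℝ} (hΔ : 0 < Δ) (hαβ : α ≤ β) {c : O} (hc : Primary c) :
    ‖fp Δ α β t c‖ ≤ if |Real.log (N c) - α| < Δ ∨ |Real.log (N c) - β| < Δ then
      Real.log (N c) else 0 := by
  have hL : 0 ≤ Real.log (N c) := Real.log_nonneg hc.one_le_N'
  unfold fp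
  by_cases hp : Prime c
  · rw [if_pos hp, norm_mul, norm_ee, one_mul, Complex.norm_real, Real.norm_eq_abs, abs_mul,
      abs_of_nonneg hL]
    have h1 := abs_ind_sub_Wf_le (u := Real.log (N c)) hΔ hαβ
    calc Real.log (N c) * _ ≤ Real.log (N c) *
          (if |Real.log (N c) - α| < Δ ∨ |Real.log (N c) - β| < Δ then 1 else 0) := by gcongr
      _ = _ := by split_ifs <;> simp
  · rw [if_neg hp, norm_zero]
    split_ifs
    · exact hL
    · exact le_rfl

open Classical in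
theorem norm_fn_le {Δ α β t : ℝ} (hΔ : 0 < Δ) (hαβ : α ≤ β) (c : O) :
    ‖fn Δ α β t c‖ ≤ if Prime c then 0 else Lam c := by
  unfold fn
  by_cases hp : Prime c
  · rw [if_pos hp, if_pos hp, norm_zero]
  · rw [if_neg hp, if_neg hp, norm_mul, norm_ee, one_mul, Complex.norm_real, Real.norm_eq_abs,
      abs_of_nonneg (mul_nonneg (Lam_nonneg c) (Wf_nonneg hΔ hαβ))]
    exact mul_le_of_le_one_right (Lam_nonneg c) (Wf_le_one hΔ hαβ)

/-- the boundary part -/
theorem fp_bound {ε : ℝ} (hε : 0 < ε) : ∃ C : ℝ, 0 ≤ C ∧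
    ∀ (ι : Type) (T : Finset ι) (κ : ι → O) (B E : ℝ), 4 ≤ B → 0 ≤ E → LsT T κ (B / 2) E →
      ∀ (Δ α β t : ℝ), 0 < Δ → Δ ≤ 1 → B ^ (-(1 / 2 : ℝ)) ≤ Δ → 0 ≤ α → α ≤ β →
      Real.exp β ≤ B →
      ∑ i ∈ T, ‖∑ c ∈ PB (B / 2), fp Δ α β t c * toC (sym (κ i) c)‖ ^ 2 ≤
        C * (B ^ ε * (E * (Δ * B))) := by
  classical
  refine ⟨100 * (1 / (ε / 2)) ^ 2, by positivity,
    fun ι T κ B E hB hE hLs Δ α β t hΔ hΔ1 hΔB hα hαβ hβ => ?_⟩
  have hB0 : 0 < B := by linarith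
  have h1 : ∀ k : O, ∑ c ∈ PB (B / 2), fp Δ α β t c * toC (sym k c) =
      ∑ c ∈ SPB (B / 2), fp Δ α β t c * toC (sym k c) := by
    intro k
    symm
    apply Finset.sum_subset
    · intro c hc
      rw [mem_SPB] at hc
      exact mem_PB.2 hc.1
    · intro c hc hc'
      have : fp Δ α β t c = 0 := by
        unfold fp
        rw [if_neg]
        intro hp
        exact hc' (by rw [mem_SPB]; exact ⟨mem_PB.1 hc, hp.squarefree⟩)
      rw [this, zero_mul]
  simp only [h1]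
  refine (hLs (fp Δ α β t)).trans ?_
  have h2 : ∑ r ∈ SPB (B / 2), ‖fp Δ α β t r‖ ^ 2 ≤
      (B ^ (ε / 2) / (ε / 2)) ^ 2 * (100 * (Δ * B)) := by
    have h3 : ∀ r ∈ SPB (B / 2), ‖fp Δ α β t r‖ ^ 2 ≤
        (B ^ (ε / 2) / (ε / 2)) ^ 2 *
          ((if |Real.log (N r) - α| < Δ then (1 : ℝ) else 0) +
          (if |Real.log (N r) - β| < Δ then (1 : ℝ) else 0)) := by
      intro r hr
      rw [mem_SPB] at hr
      have h4 := norm_fp_le (t := t) hΔ hαβ hr.1.1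
      have h5 : Real.log (N r) ≤ B ^ (ε / 2) / (ε / 2) := by
        have h7 := hr.1.1.one_le_N'
        refine (Real.log_le_log (by linarith) (hr.1.2.trans (by linarith : B / 2 ≤ B))).trans ?_
        exact Real.log_le_rpow_div hB0.le (by positivity)
      have h6 : ‖fp Δ α β t r‖ ≤ (B ^ (ε / 2) / (ε / 2)) *
          (if |Real.log (N r) - α| < Δ ∨ |Real.log (N r) - β| < Δ then 1 else 0) := by
        refine h4.trans ?_
        split_ifs
        · rw [mul_one]; exact h5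
        · rw [mul_zero]
      calc ‖fp Δ α β t r‖ ^ 2 ≤ ((B ^ (ε / 2) / (ε / 2)) *
          (if |Real.log (N r) - α| < Δ ∨ |Real.log (N r) - β| < Δ then 1 else 0)) ^ 2 :=
            pow_le_pow_left₀ (norm_nonneg _) h6 2
        _ ≤ _ := by
            rw [mul_pow]
            gcongr
            by_cases ha : |Real.log (N r) - α| < Δ
            · rw [if_pos (Or.inl ha), if_pos ha]
              split_ifs <;> norm_num
            · by_cases hb : |Real.log (N r) - β| < Δ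
              · rw [if_pos (Or.inr hb), if_neg ha, if_pos hb]; norm_num
              · rw [if_neg (by tauto), if_neg ha, if_neg hb]; norm_num
    refine (Finset.sum_le_sum h3).trans ?_
    rw [← Finset.mul_sum, Finset.sum_add_distrib]
    gcongr
    have h8 : ∀ δ : ℝ, 0 ≤ δ → Real.exp δ ≤ B →
        ∑ r ∈ SPB (B / 2), (if |Real.log (N r) - δ| < Δ then (1 : ℝ) else 0) ≤ 50 * (Δ * B) := by
      intro δ hδ hδB
      have h9 : ∑ r ∈ SPB (B / 2), (if |Real.log (N r) - δ| < Δ then (1 : ℝ) else 0) ≤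
          ∑ r ∈ PB (B / 2), (if |Real.log (N r) - δ| < Δ then (1 : ℝ) else 0) := by
        apply Finset.sum_le_sum_of_subset_of_nonneg
        · intro c hc
          rw [mem_SPB] at hc
          exact mem_PB.2 hc.1
        · intro c _ _
          split_ifs <;> norm_num
      refine h9.trans ?_
      rw [← Finset.sum_filter, Finset.sum_const, nsmul_eq_mul, mul_one]
      refine (card_near hδ hΔ hΔ1).trans ?_
      have h10 : Real.sqrt (Real.exp δ) ≤ Δ * B := by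
        calc Real.sqrt (Real.exp δ) ≤ Real.sqrt B := Real.sqrt_le_sqrt hδB
          _ = B ^ (-(1 / 2 : ℝ)) * B := by
              rw [Real.sqrt_eq_rpow]
              nth_rewrite 3 [← Real.rpow_one B]
              rw [← Real.rpow_add hB0]
              norm_num
          _ ≤ Δ * B := by gcongr
      have h11 : Δ * Real.exp δ ≤ Δ * B := by gcongr
      linarith
    have h12 : Real.exp α ≤ B := (Real.exp_le_exp.2 hαβ).trans hβ
    have h13 := h8 α hα h12
    have h14 := h8 β (hα.trans hαβ) hβ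
    linarith
  calc E * ∑ r ∈ SPB (B / 2), ‖fp Δ α β t r‖ ^ 2 ≤
        E * ((B ^ (ε / 2) / (ε / 2)) ^ 2 * (100 * (Δ * B))) := by gcongr
    _ = 100 * (1 / (ε / 2)) ^ 2 * ((B ^ (ε / 2)) ^ 2 * (E * (Δ * B))) := by ring
    _ = _ := by
        congr 2
        rw [← Real.rpow_natCast, ← Real.rpow_mul hB0.le]
        congr 1
        push_cast; ring

/-- the prime power part -/
theorem fn_bound {ε : ℝ} (hε : 0 < ε) : ∃ C : ℝ, 0 ≤ C ∧
    ∀ (ι : Type) (T : Finset ι) (κ : ι → O) (B : ℝ), 4 ≤ B →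
      ∀ (Δ α β t : ℝ), 0 < Δ → α ≤ β →
      ∑ i ∈ T, ‖-∑ c ∈ PB (B / 2), fn Δ α β t c * toC (sym (κ i) c)‖ ^ 2 ≤
        C * (B ^ ε * (T.card * B)) := by
  classical
  obtain ⟨C1, hC1, h1⟩ := sum_nonprime_Lam (show 0 < ε / 2 by positivity)
  refine ⟨C1 ^ 2, by positivity, fun ι T κ B hB Δ α β t hΔ hαβ => ?_⟩
  have hB0 : 0 < B := by linarith
  have h2 : ∀ i ∈ T, ‖-∑ c ∈ PB (B / 2), fn Δ α β t c * toC (sym (κ i) c)‖ ^ 2 ≤
      C1 ^ 2 * (B ^ ε * B) := by
    intro i _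
    have h3 : ‖-∑ c ∈ PB (B / 2), fn Δ α β t c * toC (sym (κ i) c)‖ ≤
        C1 * B ^ (1 / 2 + ε / 2) := by
      rw [norm_neg]
      refine (norm_sum_le _ _).trans ?_
      refine le_trans (Finset.sum_le_sum (g := fun c => if Prime c then 0 else Lam c) ?_)
        ((h1 (B / 2) (by linarith)).trans ?_)
      · intro c _
        rw [norm_mul]
        have h4 := norm_fn_le (t := t) hΔ hαβ c
        have h5 := norm_toC_sym_le (κ i) c
        have h6 : 0 ≤ (if Prime c then 0 else Lam c) := (norm_nonneg _).trans h4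
        calc _ ≤ (if Prime c then 0 else Lam c) * 1 := by gcongr
          _ = _ := mul_one _
      · have : (B / 2) ^ (1 / 2 + ε / 2) ≤ B ^ (1 / 2 + ε / 2) :=
          Real.rpow_le_rpow (by linarith) (by linarith) (by positivity)
        gcongr
    calc _ ≤ (C1 * B ^ (1 / 2 + ε / 2)) ^ 2 := pow_le_pow_left₀ (norm_nonneg _) h3 2
      _ = C1 ^ 2 * (B ^ ε * B) := by
          rw [mul_pow]
          congr 1
          rw [← Real.rpow_natCast, ← Real.rpow_mul hB0.le]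
          nth_rewrite 3 [← Real.rpow_one B]
          rw [← Real.rpow_add hB0]
          congr 1
          push_cast; ring
  refine (Finset.sum_le_sum h2).trans (le_of_eq ?_)
  rw [Finset.sum_const, nsmul_eq_mul]
  ring

/-- **primes in a sharp interval, abstract family** -/
theorem primes_bound {ε : ℝ} (hε : 0 < ε) : ∃ C : ℝ, 0 ≤ C ∧
    ∀ (ι : Type) (T : Finset ι) (κ : ι → O) (B d D H E : ℝ), 4 ≤ B → 0 ≤ d → d ≤ 1 / 2 →
      (∀ i ∈ T, κ i ≠ 0 ∧ 1 < DEC.cond (κ i) ∧ (N (κ i) : ℝ) ≤ H) →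
      ProdT T κ B d D → 0 ≤ E → LsT T κ (B / 2) E →
      ∀ (Δ a b t : ℝ), 0 < Δ → Δ ≤ 1 → B ^ (-(1 / 2 : ℝ)) ≤ Δ → 1 ≤ a → a ≤ b →
      6 * b ≤ B / 2 →
      ∑ i ∈ T, ‖SP a b t (B / 2) (κ i)‖ ^ 2 ≤ C * (1 + |t|) ^ 6 * (B ^ ε *
        ((Δ ^ 8)⁻¹ * (D + T.card * (B ^ (4 * d) * H ^ (1 + ε))) + E * (Δ * B) + T.card * B)) := by
  classical
  obtain ⟨C1, hC1, h1⟩ := SmS_bound hε
  obtain ⟨C2, hC2, h2⟩ := fp_bound hε
  obtain ⟨C3, hC3, h3⟩ := fn_bound hε
  refine ⟨2 * C1 + 4 * C2 + 4 * C3, by positivity,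
    fun ι T κ B d D H E hB hd0 hd hκ hP hE hLs Δ a b t hΔ hΔ1 hΔB ha hab hbB => ?_⟩
  have hB1 : 1 ≤ B := by linarith
  have hB0 : 0 < B := by linarith
  have hD := hP.nonneg hB1 hd
  have hb0 : 0 < b := by linarith
  have hα : 0 ≤ Real.log a := Real.log_nonneg ha
  have hαβ : Real.log a ≤ Real.log b := Real.log_le_log (by linarith) hab
  have g1 := h1 ι T κ B d D H hB hd0 hd hκ hP Δ _ _ t hΔ hΔ1 hα hαβ (by
    rw [Real.exp_log hb0]; exact hbB)
  have g2 := h2 ι T κ B E hB hE hLs Δ _ _ t hΔ hΔ1 hΔB hα hαβ (by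
    rw [Real.exp_log hb0]; linarith)
  have g3 := h3 ι T κ B hB Δ _ _ t hΔ hαβ
  have e1 : ∑ i ∈ T, ‖SP a b t (B / 2) (κ i)‖ ^ 2 ≤
      2 * ∑ i ∈ T, ‖SmS Δ (Real.log a) (Real.log b) t (B / 2) (κ i)‖ ^ 2 +
      2 * (2 * ∑ i ∈ T, ‖∑ c ∈ PB (B / 2), fp Δ (Real.log a) (Real.log b) t c *
        toC (sym (κ i) c)‖ ^ 2 +
        2 * ∑ i ∈ T, ‖-∑ c ∈ PB (B / 2), fn Δ (Real.log a) (Real.log b) t c *
        toC (sym (κ i) c)‖ ^ 2) := by
    have e2 := sum_sq_add_le T (fun i => SmS Δ (Real.log a) (Real.log b) t (B / 2) (κ i))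
      (fun i => ∑ c ∈ PB (B / 2), fp Δ (Real.log a) (Real.log b) t c * toC (sym (κ i) c) +
        (-∑ c ∈ PB (B / 2), fn Δ (Real.log a) (Real.log b) t c * toC (sym (κ i) c)))
    have e3 := sum_sq_add_le T
      (fun i => ∑ c ∈ PB (B / 2), fp Δ (Real.log a) (Real.log b) t c * toC (sym (κ i) c))
      (fun i => -∑ c ∈ PB (B / 2), fn Δ (Real.log a) (Real.log b) t c * toC (sym (κ i) c))
    have e4 : ∑ i ∈ T, ‖SP a b t (B / 2) (κ i)‖ ^ 2 =
        ∑ i ∈ T, ‖SmS Δ (Real.log a) (Real.log b) t (B / 2) (κ i) +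
      (∑ c ∈ PB (B / 2), fp Δ (Real.log a) (Real.log b) t c * toC (sym (κ i) c) +
        (-∑ c ∈ PB (B / 2), fn Δ (Real.log a) (Real.log b) t c * toC (sym (κ i) c)))‖ ^ 2 :=
      Finset.sum_congr rfl fun i _ => by rw [SP_eq ha hab Δ]
    rw [e4]
    linarith
  refine e1.trans ?_
  have ht : 1 ≤ (1 + |t|) ^ 6 := one_le_pow₀ (by linarith [abs_nonneg t])
  have ht0 : 0 ≤ (1 + |t|) ^ 6 := by linarith
  rcases T.eq_empty_or_nonempty with hT | hT
  · subst hT; simp; positivity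
  obtain ⟨i0, hi0⟩ := hT
  have hH0 : 0 ≤ H := (Nat.cast_nonneg _).trans (hκ i0 hi0).2.2
  obtain ⟨P, hP'⟩ : ∃ P : ℝ, P = B ^ ε * ((Δ ^ 8)⁻¹ *
    (D + T.card * (B ^ (4 * d) * H ^ (1 + ε)))) := ⟨_, rfl⟩
  obtain ⟨Q, hQ'⟩ : ∃ Q : ℝ, Q = B ^ ε * (E * (Δ * B)) := ⟨_, rfl⟩
  obtain ⟨R, hR'⟩ : ∃ R : ℝ, R = B ^ ε * (T.card * B) := ⟨_, rfl⟩
  have hP0 : 0 ≤ P := by rw [hP']; positivity
  have hQ0 : 0 ≤ Q := by rw [hQ']; positivity
  have hR0 : 0 ≤ R := by rw [hR']; positivity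
  have g1' : ∑ i ∈ T, ‖SmS Δ (Real.log a) (Real.log b) t (B / 2) (κ i)‖ ^ 2 ≤
      C1 * (1 + |t|) ^ 6 * P := g1.trans (le_of_eq (by rw [hP']; ring))
  rw [← hQ'] at g2
  rw [← hR'] at g3
  have g2' : C2 * Q ≤ C2 * (1 + |t|) ^ 6 * Q := by
    have : 0 ≤ C2 * Q := by positivity
    nlinarith
  have g3' : C3 * R ≤ C3 * (1 + |t|) ^ 6 * R := by
    have : 0 ≤ C3 * R := by positivity
    nlinarith
  have g4 : B ^ ε * ((Δ ^ 8)⁻¹ * (D + T.card * (B ^ (4 * d) * H ^ (1 + ε))) + E * (Δ * B) +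
      T.card * B) = P + Q + R := by rw [hP', hQ', hR']; ring
  rw [g4]
  have k1 : 0 ≤ C1 * (1 + |t|) ^ 6 * P := by positivity
  have k2 : 0 ≤ C1 * (1 + |t|) ^ 6 * Q := by positivity
  have k3 : 0 ≤ C1 * (1 + |t|) ^ 6 * R := by positivity
  have k4 : 0 ≤ C2 * (1 + |t|) ^ 6 * P := by positivity
  have k5 : 0 ≤ C2 * (1 + |t|) ^ 6 * Q := by positivity
  have k6 : 0 ≤ C2 * (1 + |t|) ^ 6 * R := by positivity
  have k7 : 0 ≤ C3 * (1 + |t|) ^ 6 * P := by positivity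
  have k8 : 0 ≤ C3 * (1 + |t|) ^ 6 * Q := by positivity
  have k9 : 0 ≤ C3 * (1 + |t|) ^ 6 * R := by positivity
  linarith

end Vale.Agent.P006.H6
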