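import Mathlib

/-!
# P006, block CEN4 (helper6): Fourier separation for compactly supported smooth functions
-/

open MeasureTheory Filter Topology Function Set
open scoped FourierTransform Real ContDiff

namespace Vale.Agent.P006.H6

theorem sep_cc {f : ℝ → ℂ} (hf : ContDiff ℝ ∞ f) (hs : HasCompactSupport f) (k : ℕ) :
    Continuous (𝓕 f) ∧ Integrable (fun ξ : ℝ => (1 + |ξ|) ^ k * ‖𝓕 f ξ‖) ∧
      ∀ u : ℝ, f u = ∫ ξ : ℝ, 𝓕 f ξ * Complex.exp (2 * π * Complex.I * ξ * u) := by
  set g : SchwartzMap ℝ ℂ := hs.toSchwartzMap hf with hg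
  have hgf : (g : ℝ → ℂ) = f := rfl
  have hF : ∀ ξ, 𝓕 f ξ = (𝓕 g) ξ := by
    intro ξ
    rw [SchwartzMap.fourier_coe, hgf]
  have hFc : 𝓕 f = (𝓕 g : SchwartzMap ℝ ℂ) := funext hF
  have hint : Integrable (𝓕 f) := by rw [hFc]; exact (𝓕 g).integrable
  refine ⟨by rw [hFc]; exact (𝓕 g).continuous, ?_, fun u => ?_⟩
  · have h1 := ((𝓕 g).integrable_pow_mul (μ := volume) 0).const_mul (2 ^ k)
    have h2 := ((𝓕 g).integrable_pow_mul (μ := volume) k).const_mul (2 ^ k)
    refine (h1.add h2).mono' ?_ (Eventually.of_forall fun ξ => ?_)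
    · have : Continuous (𝓕 f) := by rw [hFc]; exact (𝓕 g).continuous
      exact Continuous.aestronglyMeasurable (by fun_prop)
    · rw [Real.norm_of_nonneg (by positivity), Pi.add_apply, hFc, pow_zero, Real.norm_eq_abs]
      have h0 : 0 ≤ |ξ| := abs_nonneg ξ
      have h3 : (1 + |ξ|) ^ k ≤ 2 ^ k * (1 + |ξ| ^ k) := by
        rcases le_total |ξ| 1 with h | h
        · calc (1 + |ξ|) ^ k ≤ 2 ^ k := pow_le_pow_left₀ (by positivity) (by linarith) k
            _ ≤ 2 ^ k * (1 + |ξ| ^ k) := by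
              have : 0 ≤ |ξ| ^ k := by positivity
              have : (0 : ℝ) ≤ 2 ^ k := by positivity
              nlinarith
        · calc (1 + |ξ|) ^ k ≤ (2 * |ξ|) ^ k := pow_le_pow_left₀ (by positivity) (by linarith) k
            _ = 2 ^ k * |ξ| ^ k := mul_pow _ _ _
            _ ≤ 2 ^ k * (1 + |ξ| ^ k) := by
              have : (0 : ℝ) ≤ 2 ^ k := by positivity
              nlinarith
      calc (1 + |ξ|) ^ k * ‖(𝓕 g) ξ‖ ≤ 2 ^ k * (1 + |ξ| ^ k) * ‖(𝓕 g) ξ‖ := by gcongr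
        _ = _ := by ring
  · have h := congrFun (hf.continuous.fourierInv_fourier_eq
      (hf.continuous.integrable_of_hasCompactSupport hs) hint) u
    rw [← h, Real.fourierInv_eq']
    congr 1
    funext ξ
    rw [smul_eq_mul, mul_comm]
    congr 2
    simp only [RCLike.inner_apply, conj_trivial]
    push_cast
    ring

end Vale.Agent.P006.H6
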