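import Vale.Agent.P006.H6.Bump

/-!
# P006, block CEN4 (helper6): from smooth weights to sharp intervals
-/

open MeasureTheory Filter Topology Function Set
open scoped FourierTransform Real ContDiff

namespace Vale.Agent.P006.H6

open Vale.Agent.P006

/-- `N(c)^{it}` -/
noncomputable def ee (t : ℝ) (c : O) : ℂ := Complex.exp (Complex.I * t * Real.log (N c))

theorem norm_ee (t : ℝ) (c : O) : ‖ee t c‖ = 1 := by
  rw [ee, show Complex.I * t * (Real.log (N c) : ℂ) = ((t * Real.log (N c) : ℝ) : ℂ) * Complex.I by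
    push_cast; ring]
  exact Complex.norm_exp_ofReal_mul_I _

/-- the sum with weight `ρ((log N c - v)/Δ)` -/
noncomputable def GS (Δ t X : ℝ) (k : O) (v : ℝ) : ℂ :=
  ∑ c ∈ PB X, (Lam c : ℂ) * (toC (sym k c) * (ee t c * (rho ((Real.log (N c) - v) / Δ) : ℂ)))

theorem continuous_GS (Δ t X : ℝ) (k : O) : Continuous (GS Δ t X k) := by
  unfold GS
  refine continuous_finsetSum _ fun c _ => ?_
  have h1 : Continuous fun v : ℝ => rho ((Real.log (N c) - v) / Δ) := rho_cont.comp (by fun_prop)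
  have h2 : Continuous fun v : ℝ => ((rho ((Real.log (N c) - v) / Δ) : ℝ) : ℂ) :=
    Complex.continuous_ofReal.comp h1
  exact continuous_const.mul (continuous_const.mul (continuous_const.mul h2))

/-- separation -/
theorem rho_sep : ∃ F : ℝ → ℂ, Continuous F ∧ (∀ k : ℕ, Integrable fun ξ : ℝ =>
    (1 + |ξ|) ^ k * ‖F ξ‖) ∧ ∀ u : ℝ, ((rho u : ℝ) : ℂ) =
      ∫ ξ : ℝ, F ξ * Complex.exp (2 * π * Complex.I * ξ * u) := by
  have hsm : ContDiff ℝ ∞ (fun u : ℝ => ((rho u : ℝ) : ℂ)) :=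
    Complex.ofRealCLM.contDiff.comp rho_contDiff
  have hcs : HasCompactSupport (fun u : ℝ => ((rho u : ℝ) : ℂ)) := by
    refine HasCompactSupport.intro (K := Icc (-1 : ℝ) 1) isCompact_Icc fun u hu => ?_
    rw [rho_zero, Complex.ofReal_zero]
    by_contra h
    push Not at h
    exact hu ⟨(abs_lt.1 h).1.le, (abs_lt.1 h).2.le⟩
  exact ⟨_, (sep_cc hsm hcs 0).1, fun k => (sep_cc hsm hcs k).2.1, (sep_cc hsm hcs 0).2.2⟩

theorem wk_exp {Δ t ξ v : ℝ} (k : O) {c : O} (hc : Primary c) :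
    wk V0 (t + 2 * π * ξ / Δ) (Real.exp v) k c = toC (sym k c) *
      (V0 (Real.exp (Real.log (N c) - v)) * (Complex.exp (-(Complex.I * t * v)) * ee t c *
        Complex.exp (2 * π * Complex.I * ξ * (((Real.log (N c) - v) / Δ : ℝ) : ℂ)))) := by
  have hN : (0 : ℝ) < N c := by linarith [hc.one_le_N']
  have h1 : (N c : ℝ) / Real.exp v = Real.exp (Real.log (N c) - v) := by
    rw [Real.exp_sub, Real.exp_log hN]
  have h2 : Real.log (N c / Real.exp v) = Real.log (N c) - v := by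
    rw [h1, Real.log_exp]
  rw [wk, wt, h2, h1, ee, ← Complex.exp_add, ← Complex.exp_add]
  congr 3
  push_cast
  field_simp
  ring

/-- bound for `GS` from the smooth theorem -/
theorem GS_bound : ∃ C : ℝ, 0 ≤ C ∧ ∀ (ι : Type) (T : Finset ι) (κ : ι → O) (A X Δ t v : ℝ),
    0 ≤ A → 0 < Δ → Δ ≤ 1 →
    (∀ τ : ℝ, ∑ i ∈ T, ‖∑ c ∈ PB X, (Lam c : ℂ) * wk V0 τ (Real.exp v) (κ i) c‖ ^ 2 ≤
      (1 + |τ|) ^ 6 * A) →
    ∑ i ∈ T, ‖GS Δ t X (κ i) v‖ ^ 2 ≤ C * (1 + |t|) ^ 6 * (Δ ^ 6)⁻¹ * A := by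
  obtain ⟨F, hFc, hFi, hF⟩ := rho_sep
  have hF0 := hFi 0
  simp only [pow_zero, one_mul] at hF0
  have hFi' : Integrable F := (integrable_norm_iff hFc.aestronglyMeasurable).1 hF0
  set J : ℝ := ∫ ξ, (1 + |ξ|) ^ 3 * ‖F ξ‖ with hJ
  have hJ0 : 0 ≤ J := integral_nonneg fun _ => by positivity
  refine ⟨((2 * π) ^ 3 * J) ^ 2, by positivity, fun ι T κ A X Δ t v hA hΔ hΔ1 h => ?_⟩
  have hpi := Real.pi_gt_three
  set τ : ℝ → ℝ := fun ξ => t + 2 * π * ξ / Δ with hτ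
  have hτle : ∀ ξ, (1 + |τ ξ|) ^ 3 ≤ (2 * π) ^ 3 * (1 + |t|) ^ 3 * (Δ ^ 3)⁻¹ * (1 + |ξ|) ^ 3 := by
    intro ξ
    have h1 : 1 + |τ ξ| ≤ 2 * π * (1 + |t|) * Δ⁻¹ * (1 + |ξ|) := by
      have h2 : |τ ξ| ≤ |t| + 2 * π * |ξ| * Δ⁻¹ := by
        rw [hτ]
        refine (abs_add_le _ _).trans ?_
        rw [abs_div, abs_mul, abs_mul, abs_of_pos hΔ, abs_of_pos Real.pi_pos, abs_two]
        rw [div_eq_mul_inv]
      have h3 : 1 ≤ Δ⁻¹ := (one_le_inv₀ hΔ).2 hΔ1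
      have ht : 0 ≤ |t| := abs_nonneg t
      have hx : 0 ≤ |ξ| := abs_nonneg ξ
      have h4 : 1 ≤ 2 * π * Δ⁻¹ := by nlinarith
      calc 1 + |τ ξ| ≤ 1 * (1 + |t|) + 2 * π * |ξ| * Δ⁻¹ * 1 := by linarith
        _ ≤ 2 * π * Δ⁻¹ * (1 + |t|) + 2 * π * |ξ| * Δ⁻¹ * (1 + |t|) := by
            gcongr
            linarith
        _ = _ := by ring
    calc (1 + |τ ξ|) ^ 3 ≤ (2 * π * (1 + |t|) * Δ⁻¹ * (1 + |ξ|)) ^ 3 :=
          pow_le_pow_left₀ (by positivity) h1 3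
      _ = _ := by rw [mul_pow, mul_pow, mul_pow, inv_pow]
  set μ : ℝ → ℂ := fun ξ => F ξ * (((1 + |τ ξ|) ^ 3 : ℝ) : ℂ) with hμ
  have hτc : Continuous τ := by rw [hτ]; fun_prop
  have hμc : Continuous μ := by
    rw [hμ]
    exact hFc.mul (Complex.continuous_ofReal.comp (by fun_prop))
  have hμn : ∀ ξ, ‖μ ξ‖ ≤ (2 * π) ^ 3 * (1 + |t|) ^ 3 * (Δ ^ 3)⁻¹ * ((1 + |ξ|) ^ 3 * ‖F ξ‖) := by
    intro ξ
    rw [hμ]
    simp only
    rw [norm_mul, Complex.norm_real, Real.norm_of_nonneg (by positivity), mul_comm]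
    calc _ ≤ ((2 * π) ^ 3 * (1 + |t|) ^ 3 * (Δ ^ 3)⁻¹ * (1 + |ξ|) ^ 3) * ‖F ξ‖ := by
          gcongr; exact hτle ξ
      _ = _ := by ring
  have hμi : Integrable μ := ((hFi 3).const_mul _).mono' hμc.aestronglyMeasurable
    (Eventually.of_forall hμn)
  have hμI : ∫ ξ, ‖μ ξ‖ ≤ (2 * π) ^ 3 * (1 + |t|) ^ 3 * (Δ ^ 3)⁻¹ * J := by
    rw [hJ, ← integral_const_mul]
    exact integral_mono hμi.norm ((hFi 3).const_mul _) hμn
  set hh : ι → ℝ → ℂ := fun i ξ => Complex.exp (Complex.I * t * v) *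
    (∑ c ∈ PB X, (Lam c : ℂ) * wk V0 (τ ξ) (Real.exp v) (κ i) c) *
      ((((1 + |τ ξ|) ^ 3)⁻¹ : ℝ) : ℂ) with hhh
  have hexp : ‖Complex.exp (Complex.I * t * v)‖ = 1 := by
    rw [show Complex.I * t * (v : ℂ) = ((t * v : ℝ) : ℂ) * Complex.I by push_cast; ring]
    exact Complex.norm_exp_ofReal_mul_I _
  have hhc : ∀ i ∈ T, Continuous (hh i) := by
    intro i _
    rw [hhh]
    refine Continuous.mul (continuous_const.mul ?_) (Complex.continuous_ofReal.comp ?_)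
    · refine continuous_finsetSum _ fun c _ => continuous_const.mul ?_
      unfold wk wt
      refine continuous_const.mul (continuous_const.mul ?_)
      have : Continuous fun ξ : ℝ => ((τ ξ : ℝ) : ℂ) := Complex.continuous_ofReal.comp hτc
      fun_prop
    · refine Continuous.inv₀ (by fun_prop) fun ξ => ?_
      positivity
  have hbd : ∀ ξ, ∑ i ∈ T, ‖hh i ξ‖ ^ 2 ≤ A := by
    intro ξ
    have hp : 0 < (1 + |τ ξ|) ^ 6 := by positivity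
    have h1 : ∑ i ∈ T, ‖hh i ξ‖ ^ 2 = ((1 + |τ ξ|) ^ 6)⁻¹ *
        ∑ i ∈ T, ‖∑ c ∈ PB X, (Lam c : ℂ) * wk V0 (τ ξ) (Real.exp v) (κ i) c‖ ^ 2 := by
      rw [Finset.mul_sum]
      refine Finset.sum_congr rfl fun i _ => ?_
      rw [hhh]
      simp only
      rw [norm_mul, norm_mul, hexp, one_mul, Complex.norm_real, Real.norm_of_nonneg (by positivity)]
      rw [mul_pow, inv_pow, ← pow_mul]
      ring
    rw [h1, inv_mul_le_iff₀ hp]
    exact h (τ ξ)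
  have key := l2_integral T hμi hh hhc hA hbd
  have e1 : ∀ i, GS Δ t X (κ i) v = ∫ ξ, μ ξ * hh i ξ := by
    intro i
    have e2 : ∀ ξ, μ ξ * hh i ξ = ∑ c ∈ PB X, F ξ * (Complex.exp (Complex.I * t * v) *
        ((Lam c : ℂ) * wk V0 (τ ξ) (Real.exp v) (κ i) c)) := by
      intro ξ
      have hne : (((1 + |τ ξ|) ^ 3 : ℝ) : ℂ) ≠ 0 := by
        have : (0 : ℝ) < (1 + |τ ξ|) ^ 3 := by positivity
        exact_mod_cast this.ne'
      rw [hμ, hhh]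
      simp only
      rw [← Finset.mul_sum, ← Finset.mul_sum, Complex.ofReal_inv]
      field_simp
    simp only [e2]
    have e3 : ∀ c ∈ PB X, ∀ ξ, F ξ * (Complex.exp (Complex.I * t * v) *
        ((Lam c : ℂ) * wk V0 (τ ξ) (Real.exp v) (κ i) c)) =
        ((Lam c : ℂ) * toC (sym (κ i) c) * ee t c * V0 (Real.exp (Real.log (N c) - v))) *
          (F ξ * Complex.exp (2 * π * Complex.I * ξ * (((Real.log (N c) - v) / Δ : ℝ) : ℂ))) := by
      intro c hc ξ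
      rw [mem_PB] at hc
      rw [hτ]
      simp only
      rw [wk_exp (κ i) hc.1]
      have h5 : Complex.exp (Complex.I * t * v) * Complex.exp (-(Complex.I * t * v)) = 1 := by
        rw [← Complex.exp_add, add_neg_cancel, Complex.exp_zero]
      linear_combination ((Lam c : ℂ) * toC (sym (κ i) c) * ee t c *
        V0 (Real.exp (Real.log (N c) - v)) * (F ξ * Complex.exp (2 * π * Complex.I * ξ *
          (((Real.log (N c) - v) / Δ : ℝ) : ℂ)))) * h5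
    have hint : ∀ c ∈ PB X, Integrable fun ξ : ℝ => F ξ * (Complex.exp (Complex.I * t * v) *
        ((Lam c : ℂ) * wk V0 (τ ξ) (Real.exp v) (κ i) c)) := by
      intro c hc
      simp only [e3 c hc]
      refine Integrable.const_mul ?_ _
      refine hFi'.mul_bdd (c := 1) (Continuous.aestronglyMeasurable (by fun_prop))
        (Eventually.of_forall fun ξ => ?_)
      rw [show 2 * π * Complex.I * ξ * (((Real.log (N c) - v) / Δ : ℝ) : ℂ) =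
        ((2 * π * ξ * ((Real.log (N c) - v) / Δ) : ℝ) : ℂ) * Complex.I by push_cast; ring]
      exact (Complex.norm_exp_ofReal_mul_I _).le
    rw [integral_finsetSum _ hint, GS]
    refine Finset.sum_congr rfl fun c hc => ?_
    simp only [e3 c hc]
    rw [integral_const_mul, ← hF]
    have h6 := V0_mul_rho (w := Real.log (N c) - v) hΔ hΔ1
    linear_combination (-((Lam c : ℂ) * toC (sym (κ i) c) * ee t c)) * h6
  calc ∑ i ∈ T, ‖GS Δ t X (κ i) v‖ ^ 2 = ∑ i ∈ T, ‖∫ ξ, μ ξ * hh i ξ‖ ^ 2 :=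
        Finset.sum_congr rfl fun i _ => by rw [e1 i]
    _ ≤ (∫ ξ, ‖μ ξ‖) ^ 2 * A := key
    _ ≤ ((2 * π) ^ 3 * (1 + |t|) ^ 3 * (Δ ^ 3)⁻¹ * J) ^ 2 * A := by
        have : 0 ≤ ∫ ξ, ‖μ ξ‖ := integral_nonneg fun _ => norm_nonneg _
        gcongr
    _ = _ := by rw [inv_eq_one_div, inv_eq_one_div]; field_simp

/-- the smoothed interval sum -/
noncomputable def SmS (Δ α β t X : ℝ) (k : O) : ℂ :=
  ∑ c ∈ PB X, (Lam c : ℂ) * (toC (sym k c) * (ee t c * (Wf Δ α β (Real.log (N c)) : ℂ)))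

theorem SmS_eq (Δ α β t X : ℝ) (k : O) :
    SmS Δ α β t X k = ∫ v in α..β, (Δ : ℂ)⁻¹ * GS Δ t X k v := by
  unfold SmS GS
  have h1 : ∀ v : ℝ, (Δ : ℂ)⁻¹ * ∑ c ∈ PB X, (Lam c : ℂ) * (toC (sym k c) *
      (ee t c * (rho ((Real.log (N c) - v) / Δ) : ℂ))) =
      ∑ c ∈ PB X, ((Lam c : ℂ) * (toC (sym k c) * ee t c)) *
        (((Δ⁻¹ * rho ((Real.log (N c) - v) / Δ) : ℝ)) : ℂ) := by
    intro v
    rw [Finset.mul_sum]
    refine Finset.sum_congr rfl fun c _ => ?_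
    push_cast; ring
  simp only [h1]
  have hc : ∀ c : O, Continuous fun v : ℝ => ((Lam c : ℂ) * (toC (sym k c) * ee t c)) *
        (((Δ⁻¹ * rho ((Real.log (N c) - v) / Δ) : ℝ)) : ℂ) := by
    intro c
    refine continuous_const.mul (Complex.continuous_ofReal.comp (continuous_const.mul ?_))
    exact rho_cont.comp (by fun_prop)
  rw [intervalIntegral.integral_finsetSum fun c _ => (hc c).intervalIntegrable _ _]
  refine Finset.sum_congr rfl fun c _ => ?_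
  rw [intervalIntegral.integral_const_mul, intervalIntegral.integral_ofReal, Wf]
  ring

/-- bound for the smoothed interval sums -/
theorem SmS_bound {ε : ℝ} (hε : 0 < ε) : ∃ C : ℝ, 0 ≤ C ∧
    ∀ (ι : Type) (T : Finset ι) (κ : ι → O) (B d D H : ℝ), 4 ≤ B → 0 ≤ d → d ≤ 1 / 2 →
      (∀ i ∈ T, κ i ≠ 0 ∧ 1 < DEC.cond (κ i) ∧ (N (κ i) : ℝ) ≤ H) →
      ProdT T κ B d D → ∀ (Δ α β t : ℝ), 0 < Δ → Δ ≤ 1 → 0 ≤ α → α ≤ β →
      6 * Real.exp β ≤ B / 2 →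
      ∑ i ∈ T, ‖SmS Δ α β t (B / 2) (κ i)‖ ^ 2 ≤
        C * (1 + |t|) ^ 6 * (Δ ^ 8)⁻¹ * (B ^ ε * (D + T.card * (B ^ (4 * d) * H ^ (1 + ε)))) := by
  have hε2 : 0 < ε / 2 := by positivity
  obtain ⟨C1, hC1, h1⟩ := smooth_total w0_V0 (R1 := 6) (by norm_num) (fun x hx => V0_zero' hx) hε2
  obtain ⟨C2, hC2, h2⟩ := GS_bound
  refine ⟨C2 * C1 * (1 / (ε / 4)) ^ 2, by positivity,
    fun ι T κ B d D H hB hd0 hd hκ hP Δ α β t hΔ hΔ1 hα hαβ hβ => ?_⟩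
  have hB1 : 1 ≤ B := by linarith
  have hB0 : 0 < B := by linarith
  have hD := hP.nonneg hB1 hd
  rcases T.eq_empty_or_nonempty with hT | hT
  · subst hT; simp; positivity
  obtain ⟨i0, hi0⟩ := hT
  have hH1 : 1 ≤ H := by
    have h3 : (1 : ℝ) ≤ N (κ i0) := by exact_mod_cast N_pos (hκ i0 hi0).1
    exact h3.trans (hκ i0 hi0).2.2
  have hHε : H ^ (1 + ε / 2) ≤ H ^ (1 + ε) := Real.rpow_le_rpow_of_exponent_le hH1 (by linarith)
  set A : ℝ := C1 * (B ^ (ε / 2) * (D + T.card * (B ^ (4 * d) * H ^ (1 + ε / 2)))) with hA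
  have hA0 : 0 ≤ A := by positivity
  have hGS : ∀ v ∈ Icc α β, ∑ i ∈ T, ‖(Δ : ℂ)⁻¹ * GS Δ t (B / 2) (κ i) v‖ ^ 2 ≤
      (Δ ^ 2)⁻¹ * (C2 * (1 + |t|) ^ 6 * (Δ ^ 6)⁻¹ * A) := by
    intro v hv
    have h3 := h2 ι T κ A (B / 2) Δ t v hA0 hΔ hΔ1 (fun τ => by
      have h4 := h1 ι T κ B d D H hB hd0 hd hκ hP τ (Real.exp v)
        (Real.one_le_exp (hα.trans hv.1)) (by
          have := Real.exp_le_exp.2 hv.2
          linarith)
      refine h4.trans (le_of_eq ?_)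
      rw [hA]; ring)
    have h5 : ∑ i ∈ T, ‖(Δ : ℂ)⁻¹ * GS Δ t (B / 2) (κ i) v‖ ^ 2 =
        (Δ ^ 2)⁻¹ * ∑ i ∈ T, ‖GS Δ t (B / 2) (κ i) v‖ ^ 2 := by
      rw [Finset.mul_sum]
      refine Finset.sum_congr rfl fun i _ => ?_
      rw [norm_mul, norm_inv, Complex.norm_real, Real.norm_of_nonneg hΔ.le, mul_pow, inv_pow]
    rw [h5]
    gcongr
  have h6 := l2_interval T (fun i v => (Δ : ℂ)⁻¹ * GS Δ t (B / 2) (κ i) v)
    (fun i _ => continuous_const.mul (continuous_GS _ _ _ _)) hαβ hGS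
  have h7 : ∑ i ∈ T, ‖SmS Δ α β t (B / 2) (κ i)‖ ^ 2 =
      ∑ i ∈ T, ‖∫ v in α..β, (Δ : ℂ)⁻¹ * GS Δ t (B / 2) (κ i) v‖ ^ 2 :=
    Finset.sum_congr rfl fun i _ => by rw [SmS_eq]
  rw [h7]
  refine h6.trans ?_
  have h8 : β - α ≤ B ^ (ε / 4) / (ε / 4) := by
    have h9 : β ≤ Real.log B := by
      rw [Real.le_log_iff_exp_le hB0]
      have := Real.exp_pos β
      linarith
    have h10 : Real.log B ≤ B ^ (ε / 4) / (ε / 4) := Real.log_le_rpow_div hB0.le (by positivity)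
    linarith
  have h11 : (B ^ (ε / 4)) ^ 2 = B ^ (ε / 2) := by
    rw [← Real.rpow_natCast, ← Real.rpow_mul hB0.le]; congr 1; push_cast; ring
  have h12 : B ^ (ε / 2) * B ^ (ε / 2) = B ^ ε := by
    rw [← Real.rpow_add hB0]; congr 1; ring
  have h13 : (Δ ^ 2)⁻¹ * (Δ ^ 6)⁻¹ = (Δ ^ 8)⁻¹ := by
    rw [← mul_inv, ← pow_add]
  calc (β - α) ^ 2 * ((Δ ^ 2)⁻¹ * (C2 * (1 + |t|) ^ 6 * (Δ ^ 6)⁻¹ * A))
      ≤ (B ^ (ε / 4) / (ε / 4)) ^ 2 * ((Δ ^ 2)⁻¹ * (C2 * (1 + |t|) ^ 6 * (Δ ^ 6)⁻¹ * A)) := by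
        have : 0 ≤ β - α := by linarith
        gcongr
    _ = (B ^ (ε / 4)) ^ 2 * (1 / (ε / 4)) ^ 2 * (C2 * (1 + |t|) ^ 6 *
        ((Δ ^ 2)⁻¹ * (Δ ^ 6)⁻¹) * A) := by ring
    _ = C2 * C1 * (1 / (ε / 4)) ^ 2 * (1 + |t|) ^ 6 * (Δ ^ 8)⁻¹ *
        ((B ^ (ε / 2) * B ^ (ε / 2)) * (D + T.card * (B ^ (4 * d) * H ^ (1 + ε / 2)))) := by
        rw [h11, h13, hA]; ring
    _ ≤ C2 * C1 * (1 / (ε / 4)) ^ 2 * (1 + |t|) ^ 6 * (Δ ^ 8)⁻¹ *
        (B ^ ε * (D + T.card * (B ^ (4 * d) * H ^ (1 + ε)))) := by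
        rw [h12]
        gcongr

end Vale.Agent.P006.H6
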