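import Vale.Agent.P006.H845.Sqf
import Vale.Agent.P006.H570.Inst

/-!
# P006, block CEN4 (helper6): Vaughan's identity on all primary elements of `O`
-/

namespace Vale.Agent.P006.H6

open Vale.Agent.P006 Finset

/-- von Mangoldt function on primary elements -/
noncomputable def Lam (c : O) : ℝ := H570.PO.vM c

theorem divs_eq {c : O} (hc : Primary c) : H570.PO.divs c = dvs c := by
  ext d
  rw [H570.PO.mem_divs (show c ∈ H570.PO.P from hc), mem_dvs hc.ne_zero]
  rfl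

theorem sum_Lam {c : O} (hc : Primary c) : ∑ d ∈ dvs c, Lam d = Real.log (N c) := by
  rw [← divs_eq hc]
  exact H570.PO.sum_vM_divs (show c ∈ H570.PO.P from hc)

theorem Lam_nonneg (c : O) : 0 ≤ Lam c := H570.PO.vM_nonneg c

theorem self_mem_dvs {c : O} (hc : Primary c) : c ∈ dvs c := by
  rw [mem_dvs hc.ne_zero]; exact ⟨hc, dvd_rfl⟩

theorem Lam_le {c : O} (hc : Primary c) : Lam c ≤ Real.log (N c) := by
  rw [← sum_Lam hc]
  exact single_le_sum (f := Lam) (fun d _ => Lam_nonneg d) (self_mem_dvs hc)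

theorem Lam_prime {p : O} (hp : Prime p) (hpp : Primary p) : Lam p = Real.log (N p) := by
  have := H570.PO.vM_pow (p := p) (show p ∈ H570.PO.P from hpp) hp (k := 1) le_rfl
  rwa [pow_one] at this

theorem Lam_eq_zero {c : O} (h : ¬ ∃ p, H570.PO.IsPP p c) : Lam c = 0 := by
  rw [Lam, H570.PSys.vM, dif_neg h]

/-- `∑_n (∑_{d | n} F(d, n/d)) w(n) = ∑_a ∑_b F(a,b) w(ab)` for `w` supported on norm `≤ X` -/
theorem reindex {X : ℝ} (F : O → O → ℂ) (w : O → ℂ)
    (hw : ∀ c, Primary c → X < N c → w c = 0) :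
    ∑ n ∈ PB X, (∑ d ∈ dvs n, F d (n / d)) * w n =
      ∑ a ∈ PB X, ∑ b ∈ PB X, F a b * w (a * b) := by
  have h1 : ∀ n ∈ PB X, (∑ d ∈ dvs n, F d (n / d)) * w n =
      ∑ d ∈ dvs n, F d (n / d) * w (d * (n / d)) := by
    intro n hn
    rw [mem_PB] at hn
    rw [sum_mul]
    refine sum_congr rfl fun d hd => ?_
    rw [mem_dvs hn.1.ne_zero] at hd
    rw [mul_div_of_dvd hd.1.ne_zero hd.2]
  rw [sum_congr rfl h1, sum_dvs_PB X (fun a b => F a b * w (a * b))]
  refine sum_congr rfl fun a ha => ?_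
  rw [mem_PB] at ha
  have hN : (1 : ℝ) ≤ N a := ha.1.one_le_N'
  refine sum_subset ?_ ?_
  · apply PB_mono
    by_cases hX : 0 ≤ X
    · exact div_le_self hX hN
    · push Not at hX
      linarith [ha.2]
  · intro b hb hb'
    rw [mem_PB] at hb hb'
    have h2 : X < N (a * b) := by
      by_contra hc
      push Not at hc
      apply hb'
      refine ⟨hb.1, ?_⟩
      rw [le_div_iff₀ (by linarith)]
      rw [N_mul] at hc
      push_cast at hc
      linarith
    rw [hw _ (ha.1.mul hb.1) h2, mul_zero]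

/-- truncated coefficient `∑_{m | n, N m > U} μ(m)` -/
noncomputable def aU (U : ℝ) (n : O) : ℂ := ∑ m ∈ dvs n, if U < (N m : ℝ) then (moeb m : ℂ) else 0

theorem norm_aU_le (U : ℝ) (n : O) : ‖aU U n‖ ≤ tau n := by
  unfold aU
  refine (norm_sum_le _ _).trans ?_
  have h : ∀ m ∈ dvs n, ‖(if U < (N m : ℝ) then (moeb m : ℂ) else 0)‖ ≤ 1 := by
    intro m _
    split_ifs
    · rw [Complex.norm_intCast]
      have := abs_moeb_le m
      exact_mod_cast this
    · simp
  refine (sum_le_sum h).trans ?_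
  rw [sum_const, nsmul_eq_mul, mul_one, tau]

theorem aU_eq_zero {U : ℝ} {n : O} (hn : Primary n) (h : (N n : ℝ) ≤ U) : aU U n = 0 := by
  unfold aU
  apply sum_eq_zero
  intro m hm
  rw [mem_dvs hn.ne_zero] at hm
  rw [if_neg]
  push Not
  refine le_trans ?_ h
  exact_mod_cast Nat.le_of_dvd (N_pos hn.ne_zero) (N_dvd_N hm.2)

theorem primary_shift {X : ℝ} {w : O → ℂ} (hw : ∀ c, Primary c → X < N c → w c = 0) {l : O}
    (hl : Primary l) : ∀ c, Primary c → X < N c → w (l * c) = 0 := by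
  intro c hc h
  apply hw _ (hl.mul hc)
  rw [N_mul]
  push_cast
  have h1 := hl.one_le_N'
  have h2 := hc.one_le_N'
  nlinarith

/-- **Vaughan's identity** against a weight supported on norm `≤ X` -/
theorem vaughan_all {X : ℝ} (hX : 1 ≤ X) (U V : ℝ) (w : O → ℂ)
    (hw : ∀ c, Primary c → X < N c → w c = 0) :
    ∑ c ∈ PB X, (Lam c : ℂ) * w c =
      ∑ l ∈ PB X, (if (N l : ℝ) ≤ V then (Lam l : ℂ) * w l else 0)
      + ∑ m ∈ PB X, (if (N m : ℝ) ≤ U then
          (moeb m : ℂ) * ∑ n ∈ PB X, (Real.log (N n) : ℂ) * w (m * n) else 0)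
      - ∑ m ∈ PB X, ∑ l ∈ PB X, (if (N m : ℝ) ≤ U ∧ (N l : ℝ) ≤ V then
          (moeb m : ℂ) * (Lam l : ℂ) * ∑ n ∈ PB X, w (m * l * n) else 0)
      + ∑ l ∈ PB X, (if V < (N l : ℝ) then
          (Lam l : ℂ) * ∑ n ∈ PB X, aU U n * w (l * n) else 0) := by
  classical
  -- (2)
  have h2 : ∀ l ∈ PB X, w l = ∑ m ∈ PB X, (if (N m : ℝ) ≤ U then
        (moeb m : ℂ) * ∑ n ∈ PB X, w (m * l * n) else 0) + ∑ n ∈ PB X, aU U n * w (l * n) := by
    intro l hl
    rw [mem_PB] at hl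
    have hw' := primary_shift hw hl.1
    have e1 : w l = ∑ n ∈ PB X, (∑ m ∈ dvs n, (moeb m : ℂ)) * w (l * n) := by
      rw [sum_eq_single_of_mem 1 (one_mem_PB hX)]
      · have h3 := sum_moeb_dvs primary_one
        rw [if_pos rfl] at h3
        have h4 : (∑ m ∈ dvs (1 : O), (moeb m : ℂ)) = 1 := by exact_mod_cast h3
        rw [h4, one_mul, mul_one]
      · intro n hn hn1
        rw [mem_PB] at hn
        have h3 := sum_moeb_dvs hn.1
        rw [if_neg hn1] at h3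
        have h4 : (∑ m ∈ dvs n, (moeb m : ℂ)) = 0 := by exact_mod_cast h3
        rw [h4, zero_mul]
    have e2 : ∀ n, (∑ m ∈ dvs n, (moeb m : ℂ)) =
        (∑ m ∈ dvs n, (if (N m : ℝ) ≤ U then (moeb m : ℂ) else 0)) + aU U n := by
      intro n
      rw [aU, ← sum_add_distrib]
      refine sum_congr rfl fun m _ => ?_
      by_cases h : (N m : ℝ) ≤ U
      · rw [if_pos h, if_neg (not_lt.2 h), add_zero]
      · rw [if_neg h, if_pos (not_le.1 h), zero_add]
    rw [e1]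
    have e3 : ∀ n ∈ PB X, (∑ m ∈ dvs n, (moeb m : ℂ)) * w (l * n) =
        (∑ m ∈ dvs n, (if (N m : ℝ) ≤ U then (moeb m : ℂ) else 0)) * w (l * n) +
          aU U n * w (l * n) := by
      intro n _
      rw [e2, add_mul]
    rw [sum_congr rfl e3, sum_add_distrib]
    congr 1
    have h5 := reindex (X := X) (fun m _ => if (N m : ℝ) ≤ U then (moeb m : ℂ) else 0)
      (fun n => w (l * n)) hw'
    rw [h5]
    refine sum_congr rfl fun m _ => ?_
    split_ifs with h
    · rw [mul_sum]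
      refine sum_congr rfl fun n _ => ?_
      congr 2
      ring
    · simp
  -- (4)
  have h4 : ∀ m ∈ PB X, ∑ n ∈ PB X, (Real.log (N n) : ℂ) * w (m * n) =
      ∑ l ∈ PB X, (Lam l : ℂ) * ∑ n ∈ PB X, w (m * l * n) := by
    intro m hm
    rw [mem_PB] at hm
    have hw' := primary_shift hw hm.1
    have h5 := reindex (X := X) (fun l _ => (Lam l : ℂ)) (fun n => w (m * n)) hw'
    have h6 : ∀ n ∈ PB X, (Real.log (N n) : ℂ) * w (m * n) =
        (∑ d ∈ dvs n, (Lam d : ℂ)) * w (m * n) := by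
      intro n hn
      rw [mem_PB] at hn
      rw [← sum_Lam hn.1]
      push_cast
      rfl
    rw [sum_congr rfl h6, h5]
    refine sum_congr rfl fun l _ => ?_
    rw [mul_sum]
    refine sum_congr rfl fun n _ => ?_
    congr 2
    ring
  -- split of the left side
  have h5 : ∑ c ∈ PB X, (Lam c : ℂ) * w c =
      ∑ l ∈ PB X, (if (N l : ℝ) ≤ V then (Lam l : ℂ) * w l else 0) +
      ∑ l ∈ PB X, (if V < (N l : ℝ) then (Lam l : ℂ) * w l else 0) := by
    rw [← sum_add_distrib]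
    refine sum_congr rfl fun l _ => ?_
    by_cases h : (N l : ℝ) ≤ V
    · rw [if_pos h, if_neg (not_lt.2 h), add_zero]
    · rw [if_neg h, if_pos (not_le.1 h), zero_add]
  rw [h5]
  have h6 : ∑ l ∈ PB X, (if V < (N l : ℝ) then (Lam l : ℂ) * w l else 0) =
      ∑ l ∈ PB X, (if V < (N l : ℝ) then (Lam l : ℂ) * ∑ m ∈ PB X, (if (N m : ℝ) ≤ U then
        (moeb m : ℂ) * ∑ n ∈ PB X, w (m * l * n) else 0) else 0) +
      ∑ l ∈ PB X, (if V < (N l : ℝ) then
          (Lam l : ℂ) * ∑ n ∈ PB X, aU U n * w (l * n) else 0) := by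
    rw [← sum_add_distrib]
    refine sum_congr rfl fun l hl => ?_
    split_ifs
    · conv_lhs => rw [h2 l hl]
      rw [mul_add]
    · simp
  rw [h6]
  have h7 : ∑ l ∈ PB X, (if V < (N l : ℝ) then (Lam l : ℂ) * ∑ m ∈ PB X, (if (N m : ℝ) ≤ U then
        (moeb m : ℂ) * ∑ n ∈ PB X, w (m * l * n) else 0) else 0) =
      ∑ m ∈ PB X, (if (N m : ℝ) ≤ U then
          (moeb m : ℂ) * ∑ n ∈ PB X, (Real.log (N n) : ℂ) * w (m * n) else 0)
      - ∑ m ∈ PB X, ∑ l ∈ PB X, (if (N m : ℝ) ≤ U ∧ (N l : ℝ) ≤ V then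
          (moeb m : ℂ) * (Lam l : ℂ) * ∑ n ∈ PB X, w (m * l * n) else 0) := by
    have e1 : ∑ l ∈ PB X, (if V < (N l : ℝ) then (Lam l : ℂ) * ∑ m ∈ PB X,
        (if (N m : ℝ) ≤ U then (moeb m : ℂ) * ∑ n ∈ PB X, w (m * l * n) else 0) else 0) =
        ∑ m ∈ PB X, ∑ l ∈ PB X, (if V < (N l : ℝ) then (Lam l : ℂ) * (if (N m : ℝ) ≤ U then
        (moeb m : ℂ) * ∑ n ∈ PB X, w (m * l * n) else 0) else 0) := by
      rw [sum_comm]
      refine sum_congr rfl fun l _ => ?_
      split_ifs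
      · rw [mul_sum]
      · simp
    rw [e1, ← sum_sub_distrib]
    refine sum_congr rfl fun m hm => ?_
    by_cases hU : (N m : ℝ) ≤ U
    · simp only [hU, true_and, if_true]
      rw [h4 m hm, mul_sum, ← sum_sub_distrib]
      refine sum_congr rfl fun l _ => ?_
      by_cases h : (N l : ℝ) ≤ V
      · rw [if_pos h, if_neg (not_lt.2 h)]; ring
      · rw [if_neg h, if_pos (not_le.1 h)]; ring
    · simp [hU]
  rw [h7]
  ring

end Vale.Agent.P006.H6
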