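import Vale.Agent.P006.H6.Weight
import Vale.Agent.P006.H6.Vau
import Vale.Agent.P006.H485.PVC
import Vale.Agent.P006.DEC.Cond

/-!
# P006, block CEN4 (helper6): the Type I part of Vaughan's identity, for a fixed `k`
-/

namespace Vale.Agent.P006.H6

open Vale.Agent.P006 Finset PO

theorem wt_mul {V : ℝ → ℂ} {τ Y : ℝ} (d x : O) :
    wt V τ Y (d * x) = wt V τ (Y / N d) x := by
  have h : (N (d * x) : ℝ) / Y = N x / (Y / N d) := by
    rw [N_mul]; push_cast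
    rw [div_div_eq_mul_div]
    ring
  unfold wt
  rw [h]

theorem wt_zero_of {V : ℝ → ℂ} {τ Y : ℝ} {x : O} (h : V (N x / Y) = 0) : wt V τ Y x = 0 := by
  rw [wt, h, zero_mul]

theorem norm_wt_le {V : ℝ → ℂ} {M : ℝ} (hM : ∀ x, ‖V x‖ ≤ M) (τ Y : ℝ) (x : O) :
    ‖wt V τ Y x‖ ≤ M := by
  rw [wt, norm_mul, Complex.norm_exp]
  have : (Complex.I * τ * Real.log (N x / Y)).re = 0 := by simp
  rw [this, Real.exp_zero, mul_one]
  exact hM _

theorem norm_toC_sym_le (k n : O) : ‖toC (sym k n)‖ ≤ 1 := norm_sym_le k n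

/-- a single smooth character sum, `k` with nontrivial conductor -/
theorem typeI_single {V : ℝ → ℂ} (hV : W0 V) {ε : ℝ} (hε : 0 < ε) : ∃ C : ℝ, 0 ≤ C ∧
    ∀ (k : O), k ≠ 0 → 1 < DEC.cond k → ∀ X Y τ : ℝ, 0 < Y →
      (∀ n, Primary n → X < N n → V (N n / Y) = 0) →
      ‖∑ n ∈ PB X, toC (sym k n) * wt V τ Y n‖ ≤ C * (1 + |τ|) ^ 3 * (N k : ℝ) ^ (1 / 2 + ε) := by
  classical
  obtain ⟨C1, hC1, h1⟩ := pvw_wt hV
  obtain ⟨C2, hC2, h2⟩ := exists_tau_le hε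
  refine ⟨81 * C2 * C1, by positivity, fun k hk hc X Y τ hY hX => ?_⟩
  have hd := DEC.isDec hk
  have hNk : (1 : ℝ) ≤ N k := by exact_mod_cast N_pos hk
  have hne : DEC.d1 k * DEC.d2 k ≠ 1 := by
    intro h
    have : DEC.cond k = 1 := by rw [DEC.cond, DEC.crad, h, N_one]
    omega
  have hw : ∀ d, Primary d → d ∣ DEC.d3 k * 1 →
      PVW (fun x => wt V τ Y (d * x)) (C1 * (1 + |τ|) ^ 3) := by
    intro d hd' _
    have h3 : (fun x => wt V τ Y (d * x)) = wt V τ (Y / N d) := by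
      funext x; exact wt_mul d x
    rw [h3]
    have : (0 : ℝ) < N d := by exact_mod_cast N_pos hd'.ne_zero
    exact h1 τ _ (by positivity)
  have h4 := pv_cubic (DEC.unit_du k) (DEC.dj k) (DEC.primary_d1 k) (DEC.primary_d2 k)
    (DEC.primary_d3 k).ne_zero (DEC.squarefree_crad k) hne one_ne_zero hw
  have h5 : (∑' b : O, (if Primary b ∧ IsCoprime b 1 then
        toC (sym (DEC.du k * lam ^ DEC.dj k * (DEC.d1 k * DEC.d2 k ^ 2 * DEC.d3 k ^ 3)) b) else 0) *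
          wt V τ Y b) = ∑ n ∈ PB X, toC (sym k n) * wt V τ Y n := by
    rw [tsum_eq_sum (s := PB X)]
    · refine sum_congr rfl fun n hn => ?_
      rw [mem_PB] at hn
      rw [if_pos ⟨hn.1, isCoprime_one_right⟩, ← DEC.dec_eq hk]
    · intro n hn
      rw [mem_PB, not_and, not_le] at hn
      by_cases hp : Primary n
      · rw [wt_zero_of (hX n hp (hn hp)), mul_zero]
      · rw [if_neg (fun h => hp h.1), zero_mul]
  rw [h5] at h4
  refine h4.trans ?_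
  have h6 : (tau (DEC.d3 k * 1) : ℝ) ≤ C2 * (N k : ℝ) ^ ε := by
    rw [mul_one]
    refine (h2 _ (DEC.primary_d3 k)).trans ?_
    gcongr
    have h7 := DEC.N_d3_cube_le hk
    have h8 : 0 < N (DEC.d3 k) := N_pos (DEC.primary_d3 k).ne_zero
    nlinarith [Nat.one_le_pow 2 _ h8, pow_succ (N (DEC.d3 k)) 2]
  have h7 : Real.sqrt (N (DEC.d1 k * DEC.d2 k)) ≤ (N k : ℝ) ^ (1 / 2 : ℝ) := by
    rw [← Real.sqrt_eq_rpow]
    apply Real.sqrt_le_sqrt
    exact_mod_cast DEC.cond_le hk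
  have hτ : 0 ≤ |τ| := abs_nonneg τ
  calc 81 * (tau (DEC.d3 k * 1) : ℝ) * (C1 * (1 + |τ|) ^ 3) * Real.sqrt (N (DEC.d1 k * DEC.d2 k))
      ≤ 81 * (C2 * (N k : ℝ) ^ ε) * (C1 * (1 + |τ|) ^ 3) * (N k : ℝ) ^ (1 / 2 : ℝ) := by
        gcongr
    _ = 81 * C2 * C1 * (1 + |τ|) ^ 3 * (N k : ℝ) ^ (1 / 2 + ε) := by
        rw [Real.rpow_add (by linarith)]
        ring

/-- the weight `sym(k,c) V(N c/Y) (N c/Y)^{iτ}` -/
noncomputable def wk (V : ℝ → ℂ) (τ Y : ℝ) (k c : O) : ℂ := toC (sym k c) * wt V τ Y c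

theorem wk_mul {V : ℝ → ℂ} {τ Y : ℝ} (k : O) {a b : O} (ha : Primary a) (hb : Primary b) :
    wk V τ Y k (a * b) = toC (sym k a) * (toC (sym k b) * wt V τ (Y / N a) b) := by
  rw [wk, sym_mul_right k ha.ne_zero hb.ne_zero, map_mul, wt_mul]
  ring

theorem wt_log {V : ℝ → ℂ} {τ Y : ℝ} (hY : 0 < Y) {n : O} (hn : Primary n) :
    (Real.log (N n) : ℂ) * wt V τ Y n =
      wt (fun x => V x * (Real.log x : ℂ)) τ Y n + (Real.log Y : ℂ) * wt V τ Y n := by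
  have hN : (0 : ℝ) < N n := by linarith [hn.one_le_N']
  rw [wt, wt, Real.log_div hN.ne' hY.ne']
  push_cast
  ring

theorem card_filter_PB_le {X U : ℝ} (hU : 0 ≤ U) :
    (((PB X).filter (fun l => (N l : ℝ) ≤ U)).card : ℝ) ≤ 4 * U := by
  refine le_trans ?_ (card_PB_le hU)
  exact_mod_cast card_le_card fun l hl => by
    rw [mem_filter, mem_PB] at hl
    rw [mem_PB]; exact ⟨hl.1.1, hl.2⟩

theorem norm_moeb_le (m : O) : ‖(moeb m : ℂ)‖ ≤ 1 := by
  rw [Complex.norm_intCast]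
  exact_mod_cast abs_moeb_le m

theorem sum_ite_le_card {X U c : ℝ} (hU : 0 ≤ U) (hc : 0 ≤ c) :
    ∑ l ∈ PB X, (if (N l : ℝ) ≤ U then c else 0) ≤ 4 * U * c := by
  rw [← sum_filter, sum_const, nsmul_eq_mul]
  exact mul_le_mul_of_nonneg_right (card_filter_PB_le hU) hc

/-- short sums -/
theorem ti_a {V : ℝ → ℂ} {τ Y X V' M L : ℝ} (hM0 : 0 ≤ M) (hM : ∀ x, ‖V x‖ ≤ M) (k : O)
    (hX : 1 ≤ X) (hV' : 1 ≤ V') (hL : Real.log X ≤ L) :
    ‖∑ l ∈ PB X, (if (N l : ℝ) ≤ V' then (Lam l : ℂ) * wk V τ Y k l else 0)‖ ≤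
      4 * V' * (L * M) := by
  have hL0 : 0 ≤ L := (Real.log_nonneg hX).trans hL
  refine (norm_sum_le _ _).trans ?_
  refine (sum_le_sum ?_).trans (sum_ite_le_card (X := X) (by linarith : (0 : ℝ) ≤ V')
    (mul_nonneg hL0 hM0))
  intro l hl
  rw [mem_PB] at hl
  split_ifs with h
  · rw [norm_mul, Complex.norm_real, Real.norm_of_nonneg (Lam_nonneg l), wk, norm_mul]
    have h4 : Lam l ≤ L := (Lam_le hl.1).trans
      ((Real.log_le_log (by linarith [hl.1.one_le_N']) hl.2).trans hL)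
    have h5 := norm_toC_sym_le k l
    have h6 := norm_wt_le hM τ Y l
    have h7 := Lam_nonneg l
    calc Lam l * (‖toC (sym k l)‖ * ‖wt V τ Y l‖) ≤ L * (1 * M) := by gcongr
      _ = L * M := by ring
  · simp

/-- Type I sums with `log` -/
theorem ti_b {V : ℝ → ℂ} {τ Y X U F : ℝ} {k : O} (hU : 1 ≤ U) (hF : 0 ≤ F)
    (h2 : ∀ m, Primary m → (N m : ℝ) ≤ U → ‖∑ n ∈ PB X, (Real.log (N n) : ℂ) *
      (toC (sym k n) * wt V τ (Y / N m) n)‖ ≤ F) :
    ‖∑ m ∈ PB X, (if (N m : ℝ) ≤ U then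
          (moeb m : ℂ) * ∑ n ∈ PB X, (Real.log (N n) : ℂ) * wk V τ Y k (m * n) else 0)‖ ≤
      4 * U * F := by
  refine (norm_sum_le _ _).trans ?_
  refine (sum_le_sum ?_).trans (sum_ite_le_card (X := X) (by linarith : (0 : ℝ) ≤ U) hF)
  intro m hm
  rw [mem_PB] at hm
  split_ifs with h
  · have e1 : ∑ n ∈ PB X, (Real.log (N n) : ℂ) * wk V τ Y k (m * n) =
        toC (sym k m) * ∑ n ∈ PB X, (Real.log (N n) : ℂ) *
          (toC (sym k n) * wt V τ (Y / N m) n) := by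
      rw [mul_sum]
      refine sum_congr rfl fun n hn => ?_
      rw [mem_PB] at hn
      rw [wk_mul k hm.1 hn.1]
      ring
    rw [e1, norm_mul, norm_mul]
    calc ‖(moeb m : ℂ)‖ * (‖toC (sym k m)‖ * _) ≤ 1 * (1 * F) :=
          mul_le_mul (norm_moeb_le m) (mul_le_mul (norm_toC_sym_le k m) (h2 m hm.1 h)
            (norm_nonneg _) zero_le_one) (by positivity) zero_le_one
      _ = F := by ring
  · simp

/-- Type I sums without `log` -/
theorem ti_c {V : ℝ → ℂ} {τ Y X U V' E L : ℝ} {k : O} (hX : 1 ≤ X) (hU : 1 ≤ U) (hV' : 1 ≤ V')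
    (hE : 0 ≤ E) (hL : Real.log X ≤ L)
    (h1 : ∀ m, Primary m → ‖∑ n ∈ PB X, toC (sym k n) * wt V τ (Y / N m) n‖ ≤ E) :
    ‖∑ m ∈ PB X, ∑ l ∈ PB X, (if (N m : ℝ) ≤ U ∧ (N l : ℝ) ≤ V' then
          (moeb m : ℂ) * (Lam l : ℂ) * ∑ n ∈ PB X, wk V τ Y k (m * l * n) else 0)‖ ≤
      4 * U * (4 * V' * (L * E)) := by
  have hL0 : 0 ≤ L := (Real.log_nonneg hX).trans hL
  refine (norm_sum_le _ _).trans ?_
  refine (sum_le_sum ?_).trans (sum_ite_le_card (X := X) (by linarith : (0 : ℝ) ≤ U)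
    (by positivity : 0 ≤ 4 * V' * (L * E)))
  intro m hm
  rw [mem_PB] at hm
  split_ifs with h
  · refine (norm_sum_le _ _).trans ?_
    refine (sum_le_sum ?_).trans (sum_ite_le_card (X := X) (by linarith : (0 : ℝ) ≤ V')
      (by positivity : 0 ≤ L * E))
    intro l hl
    rw [mem_PB] at hl
    by_cases h5 : (N l : ℝ) ≤ V'
    · rw [if_pos ⟨h, h5⟩, if_pos h5, norm_mul, norm_mul, Complex.norm_real,
        Real.norm_of_nonneg (Lam_nonneg l)]
      have h6 : Lam l ≤ L := (Lam_le hl.1).trans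
        ((Real.log_le_log (by linarith [hl.1.one_le_N']) hl.2).trans hL)
      have hml := hm.1.mul hl.1
      have h7 : ‖∑ n ∈ PB X, wk V τ Y k (m * l * n)‖ ≤ E := by
        have e1 : ∑ n ∈ PB X, wk V τ Y k (m * l * n) = toC (sym k (m * l)) *
            ∑ n ∈ PB X, toC (sym k n) * wt V τ (Y / N (m * l)) n := by
          rw [mul_sum]
          refine sum_congr rfl fun n hn => ?_
          rw [mem_PB] at hn
          exact wk_mul k hml hn.1
        rw [e1, norm_mul]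
        calc _ ≤ 1 * E := mul_le_mul (norm_toC_sym_le k _) (h1 _ hml) (norm_nonneg _) zero_le_one
          _ = E := one_mul E
      exact mul_le_mul (by
        calc ‖(moeb m : ℂ)‖ * Lam l ≤ 1 * L :=
              mul_le_mul (norm_moeb_le m) h6 (Lam_nonneg l) zero_le_one
          _ = L := one_mul L) h7 (norm_nonneg _) hL0
    · rw [if_neg (fun h' => h5 h'.2), if_neg h5]; simp
  · have : ∀ l ∈ PB X, (if (N m : ℝ) ≤ U ∧ (N l : ℝ) ≤ V' then
      (moeb m : ℂ) * (Lam l : ℂ) * ∑ n ∈ PB X, wk V τ Y k (m * l * n) else 0) = 0 :=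
      fun l _ => if_neg (fun h' => h h'.1)
    rw [sum_congr rfl this]; simp

/-- combination of the three parts -/
theorem ti_comb {V : ℝ → ℂ} {τ Y X U V' E F L M : ℝ} {k : O} (hX : 1 ≤ X) (hU : 1 ≤ U)
    (hV' : 1 ≤ V') (hM0 : 0 ≤ M) (hM : ∀ x, ‖V x‖ ≤ M)
    (hE : 0 ≤ E) (hF : 0 ≤ F) (hL : Real.log X ≤ L)
    (hs : ∀ n, Primary n → X < N n → V (N n / Y) = 0)
    (h1 : ∀ m, Primary m → ‖∑ n ∈ PB X, toC (sym k n) * wt V τ (Y / N m) n‖ ≤ E)
    (h2 : ∀ m, Primary m → (N m : ℝ) ≤ U → ‖∑ n ∈ PB X, (Real.log (N n) : ℂ) *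
      (toC (sym k n) * wt V τ (Y / N m) n)‖ ≤ F) :
    ‖∑ c ∈ PB X, (Lam c : ℂ) * wk V τ Y k c - ∑ l ∈ PB X, (if V' < (N l : ℝ) then
          (Lam l : ℂ) * ∑ n ∈ PB X, aU U n * wk V τ Y k (l * n) else 0)‖ ≤
        4 * V' * (L * M) + 4 * U * F + 4 * U * (4 * V' * (L * E)) := by
  have hw : ∀ c, Primary c → X < N c → wk V τ Y k c = 0 := by
    intro c hc' h
    rw [wk, wt_zero_of (hs c hc' h), mul_zero]
  rw [vaughan_all hX U V' _ hw, add_sub_cancel_right]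
  have ha := ti_a (τ := τ) (Y := Y) hM0 hM k hX hV' hL
  have hb := ti_b hU hF h2
  have hc := ti_c hX hU hV' hE hL h1
  exact (norm_sub_le _ _).trans (add_le_add ((norm_add_le _ _).trans (add_le_add ha hb)) hc)

theorem log_term_bound {V : ℝ → ℂ} {τ Y X L E1 E2 : ℝ} {k m : O} (hm : Primary m)
    (hmX : (N m : ℝ) ≤ X) (hY : 1 ≤ Y) (hYX : Y ≤ X) (hL : Real.log X ≤ L)
    (h1 : ‖∑ n ∈ PB X, toC (sym k n) * wt V τ (Y / N m) n‖ ≤ E1)
    (h2 : ‖∑ n ∈ PB X, toC (sym k n) * wt (fun x => V x * (Real.log x : ℂ)) τ (Y / N m) n‖ ≤ E2) :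
    ‖∑ n ∈ PB X, (Real.log (N n) : ℂ) * (toC (sym k n) * wt V τ (Y / N m) n)‖ ≤ E2 + L * E1 := by
  have hNm : (1 : ℝ) ≤ N m := hm.one_le_N'
  have hY' : 0 < Y / N m := by positivity
  have e1 : ∑ n ∈ PB X, (Real.log (N n) : ℂ) * (toC (sym k n) * wt V τ (Y / N m) n) =
      ∑ n ∈ PB X, toC (sym k n) *
        wt (fun x => V x * (Real.log x : ℂ)) τ (Y / N m) n +
        (Real.log (Y / N m) : ℂ) * ∑ n ∈ PB X, toC (sym k n) * wt V τ (Y / N m) n := by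
    rw [mul_sum, ← sum_add_distrib]
    refine sum_congr rfl fun n hn => ?_
    rw [mem_PB] at hn
    have := wt_log (V := V) (τ := τ) hY' hn.1
    linear_combination (toC (sym k n)) * this
  rw [e1]
  have h5 : ‖(Real.log (Y / N m) : ℂ)‖ ≤ L := by
    rw [Complex.norm_real, Real.norm_eq_abs, Real.log_div (by linarith) (by linarith), abs_le]
    have h6 : Real.log (N m) ≤ Real.log X := Real.log_le_log (by linarith) hmX
    have h7 : 0 ≤ Real.log (N m) := Real.log_nonneg hNm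
    have hlogY0 : 0 ≤ Real.log Y := Real.log_nonneg hY
    have hlogYX : Real.log Y ≤ Real.log X := Real.log_le_log (by linarith) hYX
    constructor <;> linarith
  refine (norm_add_le _ _).trans (add_le_add h2 ?_)
  rw [norm_mul]
  exact mul_le_mul h5 h1 (norm_nonneg _) ((norm_nonneg _).trans h5)

theorem shift_support {V : ℝ → ℂ} {X Y : ℝ} (hs : ∀ n, Primary n → X < N n → V (N n / Y) = 0)
    {m : O} (hm : Primary m) : ∀ n, Primary n → X < N n → V (N n / (Y / N m)) = 0 := by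
  intro n hn h
  have h3 : (N n : ℝ) / (Y / N m) = N (m * n) / Y := by
    rw [N_mul]; push_cast; rw [div_div_eq_mul_div]; ring
  rw [h3]
  apply hs _ (hm.mul hn)
  rw [N_mul]; push_cast
  have := hm.one_le_N'
  have := hn.one_le_N'
  nlinarith

/-- **the Type I part of Vaughan's identity** -/
theorem typeI_total {V : ℝ → ℂ} (hV : W0 V) {ε : ℝ} (hε : 0 < ε) : ∃ C : ℝ, 0 ≤ C ∧
    ∀ (k : O), k ≠ 0 → 1 < DEC.cond k → ∀ X Y U V' τ : ℝ, 1 ≤ Y → Y ≤ X → 1 ≤ U → 1 ≤ V' →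
      U ≤ X → (∀ n, Primary n → X < N n → V (N n / Y) = 0) →
      ‖∑ c ∈ PB X, (Lam c : ℂ) * wk V τ Y k c - ∑ l ∈ PB X, (if V' < (N l : ℝ) then
          (Lam l : ℂ) * ∑ n ∈ PB X, aU U n * wk V τ Y k (l * n) else 0)‖ ≤
        C * (U * V' * X ^ ε) * (1 + |τ|) ^ 3 * (N k : ℝ) ^ (1 / 2 + ε) := by
  obtain ⟨C1, hC1, h1⟩ := typeI_single hV hε
  obtain ⟨C2, hC2, h2⟩ := typeI_single hV.mul_log hε
  obtain ⟨M, hM⟩ := hV.supp.exists_bound_of_continuous hV.smooth.continuous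
  have hM0 : 0 ≤ M := (norm_nonneg _).trans (hM 0)
  refine ⟨(4 * M + 4 * (C2 + C1) + 16 * C1) * (1 / ε + 1), by positivity,
    fun k hk hc X Y U V' τ hY hYX hU hV' hUX hs => ?_⟩
  have hX : 1 ≤ X := hY.trans hYX
  have hNk : (1 : ℝ) ≤ N k := by exact_mod_cast N_pos hk
  have hE1 : (1 : ℝ) ≤ (N k : ℝ) ^ (1 / 2 + ε) := Real.one_le_rpow hNk (by positivity)
  have hτ1 : 1 ≤ (1 + |τ|) ^ 3 := one_le_pow₀ (by linarith [abs_nonneg τ])
  obtain ⟨E, hE⟩ : ∃ E : ℝ, E = (1 + |τ|) ^ 3 * (N k : ℝ) ^ (1 / 2 + ε) := ⟨_, rfl⟩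
  have hE1' : 1 ≤ E := by rw [hE]; nlinarith
  have hlogY : Real.log X ≤ X ^ ε / ε := Real.log_le_rpow_div (by linarith) hε
  have hYε : 1 ≤ X ^ ε := Real.one_le_rpow hX hε.le
  obtain ⟨L, hL⟩ : ∃ L : ℝ, L = (1 / ε + 1) * X ^ ε := ⟨_, rfl⟩
  have hL1 : 1 ≤ L := by
    rw [hL]
    have : 0 ≤ 1 / ε := by positivity
    nlinarith
  have hlogL : Real.log X ≤ L := by
    refine hlogY.trans ?_
    rw [hL, add_mul, one_mul, one_div, inv_mul_eq_div]
    linarith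
  have k1 : ∀ m, Primary m → ‖∑ n ∈ PB X, toC (sym k n) * wt V τ (Y / N m) n‖ ≤ C1 * E := by
    intro m hm
    have hNm : (1 : ℝ) ≤ N m := hm.one_le_N'
    have h3 := h1 k hk hc X (Y / N m) τ (by positivity) (shift_support hs hm)
    rw [hE, ← mul_assoc]; exact h3
  have k2 : ∀ m, Primary m → (N m : ℝ) ≤ U → ‖∑ n ∈ PB X, (Real.log (N n) : ℂ) *
      (toC (sym k n) * wt V τ (Y / N m) n)‖ ≤ C2 * E + L * (C1 * E) := by
    intro m hm hmU
    have hNm : (1 : ℝ) ≤ N m := hm.one_le_N'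
    refine log_term_bound hm (hmU.trans hUX) hY hYX hlogL (k1 m hm) ?_
    have h3 := h2 k hk hc X (Y / N m) τ (by positivity) (fun n hn h => by
      simp only [shift_support hs hm n hn h, zero_mul])
    rw [hE, ← mul_assoc]; exact h3
  have h3 := ti_comb hX hU hV' hM0 hM (by positivity : 0 ≤ C1 * E)
    (by positivity : 0 ≤ C2 * E + L * (C1 * E)) hlogL hs k1 k2
  refine h3.trans ?_
  have hL0 : 0 ≤ L := by linarith
  have hE0 : 0 ≤ E := by linarith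
  have i1 : V' * L ≤ U * V' * L * E := by
    calc V' * L = 1 * V' * L * 1 := by ring
      _ ≤ U * V' * L * E := by gcongr
  have i2 : U * E ≤ U * V' * L * E := by
    calc U * E = U * 1 * 1 * E := by ring
      _ ≤ U * V' * L * E := by gcongr
  have i2' : U * L * E ≤ U * V' * L * E := by
    calc U * L * E = U * 1 * L * E := by ring
      _ ≤ U * V' * L * E := by gcongr
  calc 4 * V' * (L * M) + 4 * U * (C2 * E + L * (C1 * E)) + 4 * U * (4 * V' * (L * (C1 * E)))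
      = 4 * M * (V' * L) + 4 * C2 * (U * E) + 4 * C1 * (U * L * E) +
        16 * C1 * (U * V' * L * E) := by ring
    _ ≤ 4 * M * (U * V' * L * E) + 4 * C2 * (U * V' * L * E) + 4 * C1 * (U * V' * L * E) +
        16 * C1 * (U * V' * L * E) := by gcongr
    _ = _ := by rw [hL, hE]; ring

end Vale.Agent.P006.H6
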