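import Vale.Agent.P006.H6.TypeI
import Vale.Agent.P006.H6.L2Int
import Vale.Agent.P006.H6.Sep

/-!
# P006, block CEN4 (helper6): the Type II part of Vaughan's identity for a family of `k`
-/

open MeasureTheory Filter Topology Function Set
open scoped FourierTransform Real ContDiff

namespace Vale.Agent.P006.H6

open Vale.Agent.P006 Finset

/-- the product hypothesis for a family `κ i`, `i ∈ T` -/
def ProdT {ι : Type*} (T : Finset ι) (κ : ι → O) (B d D : ℝ) : Prop :=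
  ∀ M1 M2 : ℝ, B ^ d ≤ M1 → B ^ d ≤ M2 → M1 * M2 ≤ B →
    ∀ a b : O → ℂ, (∀ n, ‖a n‖ ≤ 1) → (∀ n, ‖b n‖ ≤ 1) →
    ∑ i ∈ T, (‖∑ n ∈ PB M1, a n * toC (sym (κ i) n)‖ *
      ‖∑ n ∈ PB M2, b n * toC (sym (κ i) n)‖) ^ 2 ≤ D

theorem norm_exp_aux (ξ τ y : ℝ) : ‖Complex.exp (Complex.I * (2 * π * ξ + τ) * (y : ℂ))‖ = 1 := by
  rw [show Complex.I * (2 * π * ξ + τ) * (y : ℂ) = (((2 * π * ξ + τ) * y : ℝ) : ℂ) * Complex.I by
    push_cast; ring]
  exact Complex.norm_exp_ofReal_mul_I _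

theorem norm_exp_aux' (ξ τ y : ℝ) :
    ‖Complex.exp (-(Complex.I * (2 * π * ξ + τ) * (y : ℂ)))‖ = 1 := by
  rw [show -(Complex.I * (2 * π * ξ + τ) * (y : ℂ)) =
    ((-((2 * π * ξ + τ) * y) : ℝ) : ℂ) * Complex.I by push_cast; ring]
  exact Complex.norm_exp_ofReal_mul_I _

theorem ProdT.nonneg {ι : Type*} {T : Finset ι} {κ : ι → O} {B d D : ℝ} (hB : 1 ≤ B)
    (hd : d ≤ 1 / 2) (h : ProdT T κ B d D) : 0 ≤ D := by
  have h1 : B ^ d ≤ B ^ (1 / 2 : ℝ) := Real.rpow_le_rpow_of_exponent_le hB hd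
  have h2 : B ^ (1 / 2 : ℝ) * B ^ (1 / 2 : ℝ) ≤ B := by
    rw [← Real.rpow_add (by linarith)]
    norm_num
  refine le_trans ?_ (h _ _ h1 h1 h2 (fun _ => 0) (fun _ => 0) (by simp) (by simp))
  exact Finset.sum_nonneg fun i _ => by positivity

/-- coefficients bounded by `G` -/
theorem ProdT.scaled {ι : Type*} {T : Finset ι} {κ : ι → O} {B d D : ℝ}
    (h : ProdT T κ B d D) {M1 M2 : ℝ} (h1 : B ^ d ≤ M1) (h2 : B ^ d ≤ M2) (h3 : M1 * M2 ≤ B)
    {G1 G2 : ℝ} (hG1 : 0 < G1) (hG2 : 0 < G2) {a b : O → ℂ} (ha : ∀ n ∈ PB M1, ‖a n‖ ≤ G1)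
    (hb : ∀ n ∈ PB M2, ‖b n‖ ≤ G2) :
    ∑ i ∈ T, (‖∑ n ∈ PB M1, a n * toC (sym (κ i) n)‖ *
      ‖∑ n ∈ PB M2, b n * toC (sym (κ i) n)‖) ^ 2 ≤ (G1 * G2) ^ 2 * D := by
  classical
  have key : ∀ (M G : ℝ) (c : O → ℂ) (_ : 0 < G) (_ : ∀ n ∈ PB M, ‖c n‖ ≤ G) (k : O),
      ∑ n ∈ PB M, c n * toC (sym k n) =
        (G : ℂ) * ∑ n ∈ PB M, (if n ∈ PB M then c n / G else 0) * toC (sym k n) := by
    intro M G c hG _ k
    rw [mul_sum]
    refine Finset.sum_congr rfl fun n hn => ?_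
    rw [if_pos hn]
    have : (G : ℂ) ≠ 0 := by exact_mod_cast hG.ne'
    field_simp
  have hn : ∀ (M G : ℝ) (c : O → ℂ) (_ : 0 < G) (_ : ∀ n ∈ PB M, ‖c n‖ ≤ G) (n : O),
      ‖(if n ∈ PB M then c n / G else 0)‖ ≤ 1 := by
    intro M G c hG hc n
    split_ifs with h
    · rw [norm_div, Complex.norm_real, Real.norm_of_nonneg hG.le]
      exact (div_le_one hG).2 (hc n h)
    · simp
  have h4 := h M1 M2 h1 h2 h3 _ _ (hn M1 G1 a hG1 ha) (hn M2 G2 b hG2 hb)
  calc _ = ∑ i ∈ T, (G1 * G2) ^ 2 *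
        (‖∑ n ∈ PB M1, (if n ∈ PB M1 then a n / G1 else 0) * toC (sym (κ i) n)‖ *
        ‖∑ n ∈ PB M2, (if n ∈ PB M2 then b n / G2 else 0) * toC (sym (κ i) n)‖) ^ 2 := by
        refine Finset.sum_congr rfl fun i _ => ?_
        rw [key M1 G1 a hG1 ha, key M2 G2 b hG2 hb, norm_mul, norm_mul, Complex.norm_real,
          Complex.norm_real, Real.norm_of_nonneg hG1.le, Real.norm_of_nonneg hG2.le]
        ring
    _ ≤ _ := by
        rw [← mul_sum]
        gcongr

/-- separation of variables in a bilinear form with the weight `V(N(ln)/Y)(N(ln)/Y)^{iτ}` -/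
theorem bilinear_sep {V : ℝ → ℂ} (hV : W0 V) : ∃ C : ℝ, 0 ≤ C ∧ ∀ (ι : Type) (T : Finset ι)
    (κ : ι → O) (B d D : ℝ), ProdT T κ B d D → 0 ≤ D → ∀ (M1 M2 τ Y : ℝ), B ^ d ≤ M1 →
      B ^ d ≤ M2 → M1 * M2 ≤ B → 0 < Y → ∀ (G1 G2 : ℝ), 0 < G1 → 0 < G2 → ∀ a b : O → ℂ,
      (∀ n ∈ PB M1, ‖a n‖ ≤ G1) → (∀ n ∈ PB M2, ‖b n‖ ≤ G2) →
      ∑ i ∈ T, ‖∑ l ∈ PB M1, a l * ∑ n ∈ PB M2, b n * wk V τ Y (κ i) (l * n)‖ ^ 2 ≤
        C * ((G1 * G2) ^ 2 * D) := by
  have hsm : ContDiff ℝ ∞ (fun u : ℝ => V (Real.exp u)) := hV.smooth.comp Real.contDiff_exp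
  have hcs : HasCompactSupport (fun u : ℝ => V (Real.exp u)) := by
    obtain ⟨a, b, ha, hab⟩ : ∃ a b : ℝ, 0 < a ∧ tsupport V ⊆ Icc a b := by
      rcases (tsupport V).eq_empty_or_nonempty with h | h
      · exact ⟨1, 1, one_pos, by rw [h]; exact empty_subset _⟩
      · obtain ⟨x, hx, hmin⟩ := hV.supp.exists_isMinOn h continuous_id.continuousOn
        obtain ⟨y, hy, hmax⟩ := hV.supp.exists_isMaxOn h continuous_id.continuousOn
        exact ⟨x, y, hV.pos hx, fun z hz => ⟨hmin hz, hmax hz⟩⟩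
    refine HasCompactSupport.intro (K := Icc (Real.log a) (Real.log b)) isCompact_Icc ?_
    intro u hu
    by_contra h
    have h1 : Real.exp u ∈ tsupport V := subset_tsupport V h
    have h2 := hab h1
    apply hu
    constructor
    · rw [Real.log_le_iff_le_exp ha]; exact h2.1
    · have hb : 0 < b := ha.trans_le (h2.1.trans h2.2)
      rw [Real.le_log_iff_exp_le hb]; exact h2.2
  obtain ⟨hFc, hFi, hF⟩ := sep_cc hsm hcs 0
  simp only [pow_zero, one_mul] at hFi
  set F : ℝ → ℂ := 𝓕 (fun u : ℝ => V (Real.exp u)) with hFdef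
  have hFi' : Integrable F := (integrable_norm_iff hFc.aestronglyMeasurable).1 hFi
  refine ⟨(∫ ξ, ‖F ξ‖) ^ 2, by positivity,
    fun ι T κ B d D hP hD M1 M2 τ Y h1 h2 h3 hY G1 G2 hG1 hG2 a b ha hb => ?_⟩
  -- the separated sums
  set e : ℝ → O → ℂ := fun ξ n => Complex.exp (Complex.I * (2 * π * ξ + τ) * Real.log (N n)) with he
  set h : ι → ℝ → ℂ := fun i ξ =>
    Complex.exp (-(Complex.I * (2 * π * ξ + τ) * Real.log Y)) *
      ((∑ l ∈ PB M1, a l * e ξ l * toC (sym (κ i) l)) *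
        (∑ n ∈ PB M2, b n * e ξ n * toC (sym (κ i) n))) with hh
  have hen : ∀ ξ n, ‖e ξ n‖ = 1 := by
    intro ξ n
    rw [he]
    exact norm_exp_aux _ _ _
  have e1 : ∀ i, ∑ l ∈ PB M1, a l * ∑ n ∈ PB M2, b n * wk V τ Y (κ i) (l * n) =
      ∫ ξ, F ξ * h i ξ := by
    intro i
    have e2 : ∀ l ∈ PB M1, ∀ n ∈ PB M2, a l * (b n * wk V τ Y (κ i) (l * n)) =
        ∫ ξ, F ξ * (Complex.exp (-(Complex.I * (2 * π * ξ + τ) * Real.log Y)) *
          ((a l * e ξ l * toC (sym (κ i) l)) * (b n * e ξ n * toC (sym (κ i) n)))) := by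
      intro l hl n hn
      rw [mem_PB] at hl hn
      have hNl : (0 : ℝ) < N l := by linarith [hl.1.one_le_N']
      have hNn : (0 : ℝ) < N n := by linarith [hn.1.one_le_N']
      have hlog : Real.log (N (l * n) / Y) = Real.log (N l) + Real.log (N n) - Real.log Y := by
        rw [N_mul]; push_cast
        rw [Real.log_div (by positivity) hY.ne', Real.log_mul hNl.ne' hNn.ne']
      have hpos : (0 : ℝ) < N (l * n) / Y := by
        rw [N_mul]; push_cast; positivity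
      rw [wk, wt, sym_mul_right _ hl.1.ne_zero hn.1.ne_zero, map_mul]
      have h4 := hF (Real.log (N (l * n) / Y))
      rw [Real.exp_log hpos] at h4
      rw [h4, hlog]
      rw [show a l * (b n * (toC (sym (κ i) l) * toC (sym (κ i) n) *
          ((∫ ξ, F ξ * Complex.exp (2 * π * Complex.I * ξ *
            ((Real.log (N l) + Real.log (N n) - Real.log Y : ℝ) : ℂ))) *
          Complex.exp (Complex.I * τ *
            ((Real.log (N l) + Real.log (N n) - Real.log Y : ℝ) : ℂ))))) =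
        (a l * b n * toC (sym (κ i) l) * toC (sym (κ i) n) * Complex.exp (Complex.I * τ *
            ((Real.log (N l) + Real.log (N n) - Real.log Y : ℝ) : ℂ))) *
          (∫ ξ, F ξ * Complex.exp (2 * π * Complex.I * ξ *
            ((Real.log (N l) + Real.log (N n) - Real.log Y : ℝ) : ℂ))) by ring]
      rw [← integral_const_mul]
      congr 1
      funext ξ
      have h5 : Complex.exp (Complex.I * τ *
            ((Real.log (N l) + Real.log (N n) - Real.log Y : ℝ) : ℂ)) *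
          Complex.exp (2 * π * Complex.I * ξ *
            ((Real.log (N l) + Real.log (N n) - Real.log Y : ℝ) : ℂ)) =
          Complex.exp (-(Complex.I * (2 * π * ξ + τ) * Real.log Y)) * (e ξ l * e ξ n) := by
        rw [he]
        simp only
        rw [← Complex.exp_add, ← Complex.exp_add, ← Complex.exp_add]
        congr 1
        push_cast
        ring
      linear_combination (a l * b n * toC (sym (κ i) l) * toC (sym (κ i) n) * F ξ) * h5
    have hint : ∀ l ∈ PB M1, ∀ n ∈ PB M2, Integrable fun ξ : ℝ =>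
        F ξ * (Complex.exp (-(Complex.I * (2 * π * ξ + τ) * Real.log Y)) *
          ((a l * e ξ l * toC (sym (κ i) l)) * (b n * e ξ n * toC (sym (κ i) n)))) := by
      intro l _ n _
      refine hFi'.mul_bdd (c := ‖a l‖ * ‖toC (sym (κ i) l)‖ * (‖b n‖ * ‖toC (sym (κ i) n)‖)) ?_ ?_
      · apply Continuous.aestronglyMeasurable
        rw [he]
        fun_prop
      · refine Eventually.of_forall fun ξ => ?_
        rw [norm_mul, norm_mul, norm_mul, norm_mul, norm_mul, norm_mul, hen, hen,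
          norm_exp_aux']
        simp
    calc ∑ l ∈ PB M1, a l * ∑ n ∈ PB M2, b n * wk V τ Y (κ i) (l * n)
        = ∑ l ∈ PB M1, ∑ n ∈ PB M2, a l * (b n * wk V τ Y (κ i) (l * n)) :=
          Finset.sum_congr rfl fun l _ => mul_sum _ _ _
      _ = ∑ l ∈ PB M1, ∑ n ∈ PB M2, ∫ ξ, F ξ *
          (Complex.exp (-(Complex.I * (2 * π * ξ + τ) * Real.log Y)) *
          ((a l * e ξ l * toC (sym (κ i) l)) * (b n * e ξ n * toC (sym (κ i) n)))) :=
          Finset.sum_congr rfl fun l hl => Finset.sum_congr rfl fun n hn => e2 l hl n hn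
      _ = ∫ ξ, ∑ l ∈ PB M1, ∑ n ∈ PB M2, F ξ *
          (Complex.exp (-(Complex.I * (2 * π * ξ + τ) * Real.log Y)) *
          ((a l * e ξ l * toC (sym (κ i) l)) * (b n * e ξ n * toC (sym (κ i) n)))) := by
          rw [integral_finsetSum _ (fun l hl => integrable_finsetSum _ fun n hn =>
            hint l hl n hn)]
          refine Finset.sum_congr rfl fun l hl => ?_
          rw [integral_finsetSum _ (fun n hn => hint l hl n hn)]
      _ = ∫ ξ, F ξ * h i ξ := by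
          congr 1
          funext ξ
          rw [hh]
          simp only
          rw [Finset.sum_mul_sum, mul_sum, mul_sum]
          refine Finset.sum_congr rfl fun l _ => ?_
          rw [mul_sum, mul_sum]
  have hA : 0 ≤ (G1 * G2) ^ 2 * D := by positivity
  have h4 := l2_integral T hFi' h (fun i _ => by rw [hh, he]; fun_prop) hA (by
    intro ξ
    have h5 := hP.scaled h1 h2 h3 hG1 hG2 (a := fun n => a n * e ξ n) (b := fun n => b n * e ξ n)
      (fun n hn => by rw [norm_mul, hen, mul_one]; exact ha n hn)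
      (fun n hn => by rw [norm_mul, hen, mul_one]; exact hb n hn)
    refine le_trans (le_of_eq ?_) h5
    refine Finset.sum_congr rfl fun i _ => ?_
    rw [hh]
    simp only
    rw [norm_mul, norm_mul, norm_exp_aux', one_mul])
  refine le_trans (le_of_eq ?_) h4
  exact Finset.sum_congr rfl fun i _ => by rw [e1 i]

end Vale.Agent.P006.H6
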