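import Vale.Agent.P006.H6.Gauss
import Mathlib.Analysis.Fourier.Inversion
import Mathlib.Analysis.Fourier.FourierTransformDeriv
import Mathlib.Analysis.SpecialFunctions.JapaneseBracket

/-!
# P006, block CEN4 (helper6): the weights `V(x) x^{iτ}`, `x = N(n)/Y`

For `V` smooth with compact support in `(0,∞)`: the weight `V(N n / Y) (N n / Y)^{iτ}` satisfies
the smooth Polya-Vinogradov inequality with constant `C (1+|τ|)^3`.
-/

open MeasureTheory Filter Topology Function Set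
open scoped FourierTransform Real ComplexConjugate ContDiff

namespace Vale.Agent.P006.H6

open PO

theorem countable_O : Countable O :=
  Function.Injective.countable (f := fun z : O => (z.re, z.im)) fun x y h => by
    simp only [Prod.mk.injEq] at h
    exact QuadraticAlgebra.ext h.1 h.2

/-- smooth functions with compact support in `(0,∞)` -/
structure W0 (V : ℝ → ℂ) : Prop where
  smooth : ContDiff ℝ ∞ V
  supp : HasCompactSupport V
  pos : tsupport V ⊆ Ioi 0

namespace W0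

variable {V : ℝ → ℂ}

theorem eventually_zero (hV : W0 V) {x : ℝ} (hx : x ≤ 0) : ∀ᶠ y in 𝓝 x, V y = 0 := by
  have h1 : x ∉ tsupport V := fun h => by
    have := hV.pos h
    simp only [mem_Ioi] at this
    linarith
  have h2 := (isClosed_tsupport V).isOpen_compl.mem_nhds h1
  filter_upwards [h2] with y hy
  exact image_eq_zero_of_notMem_tsupport hy

theorem zero_of_nonpos (hV : W0 V) {x : ℝ} (hx : x ≤ 0) : V x = 0 :=
  (hV.eventually_zero hx).self_of_nhds

theorem differentiable (hV : W0 V) : Differentiable ℝ V :=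
  hV.smooth.differentiable (by norm_num)

theorem deriv_w0 (hV : W0 V) : W0 (deriv V) where
  smooth := by
    have h := hV.smooth
    rw [show (∞ : WithTop ℕ∞) = ∞ + 1 from rfl, contDiff_succ_iff_deriv] at h
    exact h.2.2
  supp := hV.supp.deriv
  pos := (closure_minimal support_deriv_subset (isClosed_tsupport V)).trans hV.pos

theorem add (hV : W0 V) {U : ℝ → ℂ} (hU : W0 U) : W0 (fun x => V x + U x) where
  smooth := hV.smooth.add hU.smooth
  supp := hV.supp.add hU.supp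
  pos := (tsupport_add V U).trans (union_subset hV.pos hU.pos)

/-- multiplication by a function smooth on `(0,∞)` -/
theorem mul_right (hV : W0 V) {g : ℝ → ℂ} (hg : ∀ x : ℝ, 0 < x → ContDiffAt ℝ ∞ g x) :
    W0 (fun x => V x * g x) where
  smooth := by
    rw [contDiff_iff_contDiffAt]
    intro x
    by_cases hx : 0 < x
    · exact hV.smooth.contDiffAt.mul (hg x hx)
    · have h := hV.eventually_zero (not_lt.1 hx)
      refine (contDiffAt_const (c := (0 : ℂ))).congr_of_eventuallyEq ?_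
      filter_upwards [h] with y hy
      simp [hy]
  supp := hV.supp.mul_right
  pos := (tsupport_mul_subset_left).trans hV.pos

theorem div_id (hV : W0 V) : W0 (fun x => V x * ((x : ℂ))⁻¹) := by
  refine hV.mul_right fun x hx => ?_
  have h1 : ContDiffAt ℝ ∞ (fun x : ℝ => (x : ℂ)) x := Complex.ofRealCLM.contDiff.contDiffAt
  exact h1.inv (by exact_mod_cast hx.ne')

theorem mul_log (hV : W0 V) : W0 (fun x => V x * (Real.log x : ℂ)) := by
  refine hV.mul_right fun x hx => ?_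
  have h1 : ContDiffAt ℝ ∞ Real.log x := Real.contDiffAt_log.2 hx.ne'
  exact Complex.ofRealCLM.contDiff.contDiffAt.comp x h1

end W0

/-- `V(x) x^{iτ} e^x` -/
noncomputable def GV (V : ℝ → ℂ) (τ : ℝ) (x : ℝ) : ℂ :=
  V x * Complex.exp (Complex.I * τ * Real.log x + x)

theorem w0_GV {V : ℝ → ℂ} (hV : W0 V) (τ : ℝ) : W0 (GV V τ) := by
  refine hV.mul_right fun x hx => ?_
  have h1 : ContDiffAt ℝ ∞ Real.log x := Real.contDiffAt_log.2 hx.ne'
  have h2 : ContDiffAt ℝ ∞ (fun x : ℝ => ((Real.log x : ℝ) : ℂ)) x :=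
    Complex.ofRealCLM.contDiff.contDiffAt.comp x h1
  have h3 : ContDiffAt ℝ ∞ (fun x : ℝ => (x : ℂ)) x := Complex.ofRealCLM.contDiff.contDiffAt
  have h4 : ContDiffAt ℝ ∞ (fun x : ℝ => Complex.I * τ * Real.log x + x) x :=
    (contDiffAt_const.mul h2).add h3
  exact h4.cexp

theorem deriv_GV {V : ℝ → ℂ} (hV : W0 V) (τ : ℝ) :
    deriv (GV V τ) = fun x => GV (fun x => deriv V x + V x) τ x +
      Complex.I * τ * GV (fun x => V x * ((x : ℂ))⁻¹) τ x := by
  funext x
  by_cases hx : 0 < x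
  · have h1 : HasDerivAt V (deriv V x) x := (hV.differentiable x).hasDerivAt
    have h2 : HasDerivAt (fun x : ℝ => ((Real.log x : ℝ) : ℂ)) ((x⁻¹ : ℝ) : ℂ) x :=
      (Real.hasDerivAt_log hx.ne').ofReal_comp
    have h3 : HasDerivAt (fun x : ℝ => (x : ℂ)) 1 x := Complex.ofRealCLM.hasDerivAt
    have h4 := ((h2.const_mul (Complex.I * τ)).add h3).cexp
    have h5 := h1.mul h4
    have h6 : deriv (GV V τ) x = _ := h5.deriv
    rw [h6, GV, GV]
    simp only [Pi.add_apply]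
    push_cast
    ring
  · have h := hV.eventually_zero (not_lt.1 hx)
    have h1 : GV V τ =ᶠ[𝓝 x] fun _ => 0 := by
      filter_upwards [h] with y hy
      simp [GV, hy]
    rw [h1.deriv_eq]
    have h2 : V x = 0 := hV.zero_of_nonpos (not_lt.1 hx)
    have h3 : deriv V x = 0 := hV.deriv_w0.zero_of_nonpos (not_lt.1 hx)
    simp [GV, h2, h3]

theorem W0.integrable {V : ℝ → ℂ} (hV : W0 V) : Integrable V :=
  hV.smooth.continuous.integrable_of_hasCompactSupport hV.supp

theorem norm_GV (V : ℝ → ℂ) (τ x : ℝ) : ‖GV V τ x‖ = ‖GV V 0 x‖ := by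
  rw [GV, GV, norm_mul, norm_mul, Complex.norm_exp, Complex.norm_exp]
  congr 2
  simp

/-- decay of the Fourier transform, polynomial in `τ` -/
theorem fourier_GV_le (m : ℕ) : ∀ {V : ℝ → ℂ}, W0 V → ∃ C : ℝ, 0 ≤ C ∧ ∀ τ w : ℝ,
    |w| ^ m * ‖𝓕 (GV V τ) w‖ ≤ C * (1 + |τ|) ^ m := by
  induction m with
  | zero =>
    intro V hV
    refine ⟨∫ x, ‖GV V 0 x‖, integral_nonneg fun _ => norm_nonneg _, fun τ w => ?_⟩
    rw [pow_zero, pow_zero, one_mul, mul_one]
    refine (VectorFourier.norm_fourierIntegral_le_integral_norm _ _ _ _ _).trans ?_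
    apply le_of_eq
    congr 1
    funext x
    exact norm_GV V τ x
  | succ m ih =>
    intro V hV
    obtain ⟨C1, hC1, h1⟩ := ih (hV.deriv_w0.add hV)
    obtain ⟨C2, hC2, h2⟩ := ih hV.div_id
    refine ⟨C1 + C2, by positivity, fun τ w => ?_⟩
    have hG := w0_GV hV τ
    have hF := Real.fourier_deriv hG.integrable hG.differentiable hG.deriv_w0.integrable
    have hF' := congrFun hF w
    rw [deriv_GV hV τ] at hF'
    have i1 := (w0_GV (hV.deriv_w0.add hV) τ).integrable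
    have i2 := (w0_GV hV.div_id τ).integrable
    have e1 : 𝓕 (fun x => GV (fun x => deriv V x + V x) τ x +
        Complex.I * τ * GV (fun x => V x * ((x : ℂ))⁻¹) τ x) w =
        𝓕 (GV (fun x => deriv V x + V x) τ) w +
          Complex.I * τ * 𝓕 (GV (fun x => V x * ((x : ℂ))⁻¹) τ) w := by
      rw [Real.fourier_eq, Real.fourier_eq, Real.fourier_eq, ← integral_const_mul,
        ← integral_add]
      · congr 1
        funext v
        simp only [Circle.smul_def, smul_eq_mul]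
        ring
      · exact (Real.fourierIntegral_convergent_iff w).2 i1
      · exact ((Real.fourierIntegral_convergent_iff w).2 i2).const_mul _
    rw [e1, smul_eq_mul] at hF'
    have hn : 2 * π * |w| * ‖𝓕 (GV V τ) w‖ ≤
        ‖𝓕 (GV (fun x => deriv V x + V x) τ) w‖ +
          |τ| * ‖𝓕 (GV (fun x => V x * ((x : ℂ))⁻¹) τ) w‖ := by
      have h3 := congrArg norm hF'
      rw [norm_mul] at h3
      have h4 : ‖(2 * π * Complex.I * w : ℂ)‖ = 2 * π * |w| := by
        rw [norm_mul, norm_mul, norm_mul, Complex.norm_I, Complex.norm_real, Complex.norm_real,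
          Real.norm_of_nonneg Real.pi_pos.le, Real.norm_eq_abs]
        simp
      rw [h4] at h3
      rw [← h3]
      refine (norm_add_le _ _).trans ?_
      rw [norm_mul, norm_mul, Complex.norm_I, Complex.norm_real, one_mul, Real.norm_eq_abs]
    have hpi : 1 ≤ 2 * π := by have := Real.pi_gt_three; linarith
    have h5 : |w| * ‖𝓕 (GV V τ) w‖ ≤ 2 * π * |w| * ‖𝓕 (GV V τ) w‖ := by
      have : 0 ≤ |w| * ‖𝓕 (GV V τ) w‖ := by positivity
      nlinarith
    have h0 : 0 ≤ |w| ^ m := by positivity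
    have h6 := h1 τ w
    have h7 := h2 τ w
    have hτ : 0 ≤ |τ| := abs_nonneg τ
    calc |w| ^ (m + 1) * ‖𝓕 (GV V τ) w‖ = |w| ^ m * (|w| * ‖𝓕 (GV V τ) w‖) := by ring
      _ ≤ |w| ^ m * (‖𝓕 (GV (fun x => deriv V x + V x) τ) w‖ +
          |τ| * ‖𝓕 (GV (fun x => V x * ((x : ℂ))⁻¹) τ) w‖) := by
            gcongr; exact h5.trans hn
      _ = |w| ^ m * ‖𝓕 (GV (fun x => deriv V x + V x) τ) w‖ +
          |τ| * (|w| ^ m * ‖𝓕 (GV (fun x => V x * ((x : ℂ))⁻¹) τ) w‖) := by ring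
      _ ≤ C1 * (1 + |τ|) ^ m + |τ| * (C2 * (1 + |τ|) ^ m) := by gcongr
      _ ≤ (C1 + C2) * (1 + |τ|) ^ (m + 1) := by
          have : 0 ≤ (1 + |τ|) ^ m := by positivity
          rw [pow_succ]
          nlinarith [mul_nonneg (mul_nonneg hC1 this) hτ, mul_nonneg hC2 this]

theorem fourier_GV_le' {V : ℝ → ℂ} (hV : W0 V) : ∃ C : ℝ, 0 ≤ C ∧ ∀ τ w : ℝ,
    ‖𝓕 (GV V τ) w‖ ≤ C * (1 + |τ|) ^ 3 * ((1 + |w|) ^ 3)⁻¹ := by
  obtain ⟨C1, hC1, h1⟩ := fourier_GV_le 0 hV
  obtain ⟨C2, hC2, h2⟩ := fourier_GV_le 3 hV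
  refine ⟨4 * (C1 + C2), by positivity, fun τ w => ?_⟩
  rw [← div_eq_mul_inv, le_div_iff₀ (by positivity)]
  have h3 := h1 τ w
  have h4 := h2 τ w
  rw [pow_zero, pow_zero, one_mul, mul_one] at h3
  have hw : 0 ≤ |w| := abs_nonneg w
  have h5 : (1 + |w|) ^ 3 ≤ 4 * (1 + |w| ^ 3) := by
    nlinarith [sq_nonneg (|w| - 1), mul_nonneg hw (sq_nonneg (|w| - 1))]
  have h6 : 1 ≤ (1 + |τ|) ^ 3 := one_le_pow₀ (by linarith [abs_nonneg τ])
  calc ‖𝓕 (GV V τ) w‖ * (1 + |w|) ^ 3 ≤ ‖𝓕 (GV V τ) w‖ * (4 * (1 + |w| ^ 3)) := by gcongr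
    _ = 4 * (‖𝓕 (GV V τ) w‖ + |w| ^ 3 * ‖𝓕 (GV V τ) w‖) := by ring
    _ ≤ 4 * (C1 + C2 * (1 + |τ|) ^ 3) := by gcongr
    _ ≤ 4 * (C1 + C2) * (1 + |τ|) ^ 3 := by nlinarith

theorem integrable_bracket : Integrable fun w : ℝ => (1 + |w|) * ((1 + |w|) ^ 3)⁻¹ := by
  have h1 : Integrable fun w : ℝ => (1 + ‖w‖) ^ (-2 : ℝ) :=
    integrable_one_add_norm (by simp)
  refine h1.congr (Eventually.of_forall fun w => ?_)
  simp only [Real.norm_eq_abs]
  have h0 : 0 < 1 + |w| := by positivity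
  rw [Real.rpow_neg h0.le]
  have : (1 + |w|) ^ (2 : ℝ) = (1 + |w|) ^ 2 := by exact_mod_cast Real.rpow_natCast (1 + |w|) 2
  rw [this]
  field_simp

theorem integrable_bracket' : Integrable fun w : ℝ => ((1 + |w|) ^ 3)⁻¹ := by
  refine integrable_bracket.mono' ?_ (Eventually.of_forall fun w => ?_)
  · exact (Continuous.aestronglyMeasurable (by fun_prop (disch := intro w; positivity)))
  · rw [Real.norm_of_nonneg (by positivity)]
    have : (1 : ℝ) ≤ 1 + |w| := by linarith [abs_nonneg w]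
    have h2 : 0 ≤ ((1 + |w|) ^ 3)⁻¹ := by positivity
    nlinarith

theorem continuous_fourier_W0 {V : ℝ → ℂ} (hV : W0 V) : Continuous (𝓕 V) :=
  VectorFourier.fourierIntegral_continuous Real.continuous_fourierChar
    (by exact continuous_inner) hV.integrable

theorem integrable_fourier_GV {V : ℝ → ℂ} (hV : W0 V) (τ : ℝ) : Integrable (𝓕 (GV V τ)) := by
  obtain ⟨C, hC, h⟩ := fourier_GV_le' hV
  refine (integrable_bracket'.const_mul (C * (1 + |τ|) ^ 3)).mono' 
    (continuous_fourier_W0 (w0_GV hV τ)).aestronglyMeasurable (Eventually.of_forall fun w => ?_)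
  exact h τ w

/-- the exponents `s_w = (1 - 2πiw)/Y` -/
noncomputable def sw (Y w : ℝ) : ℂ := (1 - 2 * π * Complex.I * w) / Y

/-- the weight `V(N x/Y) (N x/Y)^{iτ}` -/
noncomputable def wt (V : ℝ → ℂ) (τ Y : ℝ) (x : O) : ℂ :=
  V (N x / Y) * Complex.exp (Complex.I * τ * Real.log (N x / Y))

theorem sw_re (Y w : ℝ) : (sw Y w).re = 1 / Y := by
  rw [sw, Complex.div_ofReal_re]
  simp

theorem norm_sw_le {Y : ℝ} (hY : 0 < Y) (w : ℝ) : ‖sw Y w‖ ≤ 2 * π * (1 + |w|) / Y := by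
  rw [sw, norm_div, Complex.norm_real, Real.norm_of_nonneg hY.le]
  gcongr
  refine (norm_sub_le _ _).trans ?_
  rw [norm_mul, norm_mul, norm_mul, Complex.norm_I, Complex.norm_real, Complex.norm_real,
    Real.norm_of_nonneg Real.pi_pos.le, Real.norm_eq_abs]
  simp
  have := Real.pi_gt_three
  nlinarith

theorem wt_eq_integral {V : ℝ → ℂ} (hV : W0 V) (τ Y : ℝ) (x : O) :
    wt V τ Y x = ∫ w : ℝ, 𝓕 (GV V τ) w * ew (sw Y w) x := by
  have hc := (w0_GV hV τ).smooth.continuous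
  have h := congrFun (hc.fourierInv_fourier_eq (w0_GV hV τ).integrable
    (integrable_fourier_GV hV τ)) (N x / Y)
  have h1 : wt V τ Y x = Complex.exp (-(N x / Y : ℝ)) * GV V τ (N x / Y) := by
    rw [wt, GV, mul_left_comm, ← Complex.exp_add]
    congr 2
    push_cast
    ring
  rw [h1, ← h, Real.fourierInv_eq', ← integral_const_mul]
  congr 1
  funext w
  rw [smul_eq_mul, ← mul_assoc, ← Complex.exp_add, mul_comm (𝓕 (GV V τ) w)]
  congr 1
  rw [ew]
  congr 1
  rw [sw]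
  simp only [RCLike.inner_apply, conj_trivial]
  push_cast
  field_simp
  ring

/-- **the weights `V(N x/Y)(N x/Y)^{iτ}` satisfy the smooth Polya-Vinogradov inequality** -/
theorem pvw_wt {V : ℝ → ℂ} (hV : W0 V) : ∃ C : ℝ, 0 ≤ C ∧ ∀ τ Y : ℝ, 0 < Y →
    PVW (wt V τ Y) (C * (1 + |τ|) ^ 3) := by
  obtain ⟨C1, hC1, h1⟩ := fourier_GV_le' hV
  set J : ℝ := ∫ w : ℝ, (1 + |w|) * ((1 + |w|) ^ 3)⁻¹ with hJ
  have hJ0 : 0 ≤ J := integral_nonneg fun w => by positivity
  refine ⟨C1 * C0 * (2 * π) * J, ?_, fun τ Y hY => ?_⟩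
  · have := C0_nonneg
    positivity
  have hre : ∀ w, 0 < (sw Y w).re := fun w => by rw [sw_re]; positivity
  have hnorm : ∀ (w : ℝ) (x : O), ‖ew (sw Y w) x‖ = Real.exp (-(1 / Y) * N x) := by
    intro w x
    rw [ew, Complex.norm_exp]
    congr 1
    have : (-(sw Y w) * (N x : ℂ)) = -(sw Y w) * ((N x : ℝ) : ℂ) := by push_cast; rfl
    rw [this, Complex.re_mul_ofReal, Complex.neg_re, sw_re]
  have hexp := summable_exp (show 0 < 1 / Y by positivity)
  have hint := integrable_fourier_GV hV τ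
  have hcont : ∀ x : O, Continuous fun w : ℝ => ew (sw Y w) x := fun x => by
    unfold ew sw; fun_prop
  have hint2 : ∀ x : O, Integrable fun w : ℝ => 𝓕 (GV V τ) w * ew (sw Y w) x := by
    intro x
    refine hint.mul_bdd (c := Real.exp (-(1 / Y) * N x)) (hcont x).aestronglyMeasurable ?_
    exact Eventually.of_forall fun w => (hnorm w x).le
  have hI0 : 0 ≤ ∫ w : ℝ, ‖𝓕 (GV V τ) w‖ := integral_nonneg fun _ => norm_nonneg _
  have hIn : ∀ x : O, ∫ w : ℝ, ‖𝓕 (GV V τ) w * ew (sw Y w) x‖ =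
      (∫ w : ℝ, ‖𝓕 (GV V τ) w‖) * Real.exp (-(1 / Y) * N x) := by
    intro x
    rw [← integral_mul_const]
    congr 1
    funext w
    rw [norm_mul, hnorm]
  refine ⟨?_, ?_⟩
  · refine Summable.of_nonneg_of_le (fun _ => norm_nonneg _) (fun x => ?_)
      (hexp.mul_left (∫ w : ℝ, ‖𝓕 (GV V τ) w‖))
    rw [wt_eq_integral hV τ Y, ← hIn x]
    exact norm_integral_le_integral_norm _
  intro q S ψ G hq hS hψ h0 hG
  have hG0 : 0 ≤ G := (norm_nonneg _).trans (hG 0)
  have e1 : (∑' x : O, ψ x * wt V τ Y x) =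
      ∫ w : ℝ, ∑' x : O, ψ x * (𝓕 (GV V τ) w * ew (sw Y w) x) := by
    haveI := countable_O
    rw [← integral_tsum_of_summable_integral_norm]
    · refine tsum_congr fun x => ?_
      rw [wt_eq_integral hV τ Y, integral_const_mul]
    · exact fun x => (hint2 x).const_mul _
    · have h2 : ∀ x : O, ∫ w : ℝ, ‖ψ x * (𝓕 (GV V τ) w * ew (sw Y w) x)‖ =
          ‖ψ x‖ * ((∫ w : ℝ, ‖𝓕 (GV V τ) w‖) * Real.exp (-(1 / Y) * N x)) := by
        intro x
        rw [← hIn x, ← integral_const_mul]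
        congr 1
        funext w
        rw [norm_mul]
      simp only [h2]
      refine Summable.of_nonneg_of_le (fun x => by positivity) (fun x => ?_)
        (hexp.mul_left ((∑ a ∈ S, ‖ψ a‖) * ∫ w : ℝ, ‖𝓕 (GV V τ) w‖))
      rw [mul_assoc]
      gcongr
      exact hψ.bound hS x
  rw [e1]
  have h2 : ∀ w : ℝ, ‖∑' x : O, ψ x * (𝓕 (GV V τ) w * ew (sw Y w) x)‖ ≤
      C1 * C0 * (2 * π) * (1 + |τ|) ^ 3 * G * ((1 + |w|) * ((1 + |w|) ^ 3)⁻¹) := by
    intro w
    have h3 : (∑' x : O, ψ x * (𝓕 (GV V τ) w * ew (sw Y w) x)) =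
        𝓕 (GV V τ) w * ∑' x : O, ψ x * ew (sw Y w) x := by
      rw [← tsum_mul_left]
      refine tsum_congr fun x => ?_
      ring
    rw [h3, norm_mul]
    have h4 := (pvw_gauss (hre w)).2 q S ψ G hq hS hψ h0 hG
    have h5 : ‖sw Y w‖ / (sw Y w).re ≤ 2 * π * (1 + |w|) := by
      rw [sw_re]
      rw [div_le_iff₀ (by positivity)]
      refine (norm_sw_le hY w).trans (le_of_eq ?_)
      ring
    have hC0 := C0_nonneg
    calc ‖𝓕 (GV V τ) w‖ * ‖∑' x : O, ψ x * ew (sw Y w) x‖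
        ≤ (C1 * (1 + |τ|) ^ 3 * ((1 + |w|) ^ 3)⁻¹) * (C0 * (‖sw Y w‖ / (sw Y w).re) * G) := by
          gcongr
          exact h1 τ w
      _ ≤ (C1 * (1 + |τ|) ^ 3 * ((1 + |w|) ^ 3)⁻¹) * (C0 * (2 * π * (1 + |w|)) * G) := by
          gcongr
      _ = _ := by ring
  refine (norm_integral_le_of_norm_le (integrable_bracket.const_mul _)
    (Eventually.of_forall h2)).trans ?_
  rw [integral_const_mul]
  apply le_of_eq
  rw [← hJ]
  ring

end Vale.Agent.P006.H6
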